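import Vale.Agent.P065.U.H792.Front

/-! P065 upper bound, front end: Dey's bound for the edges at a subset of the touched points. -/

set_option autoImplicit false

namespace Vale.Agent.P065.U.H792

open Finset Vale.Agent.P065.UB

open Classical in
/-- the edges with an end in `Y` -/
noncomputable def EdY (P : Finset Pt) (k : ℕ) (Q : Finset Pt) (I : Set ℝ) (Y : Finset Pt) :
    Finset (Pt × Pt) := {e ∈ EdIn P k Q I | e.1 ∈ Y ∨ e.2 ∈ Y}

theorem mem_EdY {P : Finset Pt} {k : ℕ} {Q : Finset Pt} {I : Set ℝ} {Y : Finset Pt}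
    {e : Pt × Pt} : e ∈ EdY P k Q I Y ↔ e ∈ EdIn P k Q I ∧ (e.1 ∈ Y ∨ e.2 ∈ Y) := by
  classical
  unfold EdY
  rw [mem_filter]

/-- edges inside cells with an end in `Y` -/
theorem card_sameY_le {T Y : Finset Pt} {E : Finset (Pt × Pt)}
    (hET : ∀ e ∈ E, e.1 ∈ T ∧ e.2 ∈ T) (hEY : ∀ e ∈ E, e.1 ∈ Y ∨ e.2 ∈ Y)
    (cell : Pt → ℕ × ℕ) (N0 : ℕ) (hc : ∀ c, #{v ∈ T | cell v = c} ≤ N0) :
    #{e ∈ E | cell e.1 = cell e.2} ≤ 2 * (#Y * N0) := by
  classical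
  have h0 : ({e ∈ E | cell e.1 = cell e.2} : Finset (Pt × Pt)) ⊆
      ({e ∈ E | cell e.1 = cell e.2 ∧ e.1 ∈ Y} : Finset (Pt × Pt)) ∪
      ({e ∈ E | cell e.1 = cell e.2 ∧ e.2 ∈ Y} : Finset (Pt × Pt)) := by
    intro e he
    obtain ⟨h1, h2⟩ := mem_filter.mp he
    rcases hEY e h1 with h | h
    · exact mem_union_left _ (mem_filter.mpr ⟨h1, h2, h⟩)
    · exact mem_union_right _ (mem_filter.mpr ⟨h1, h2, h⟩)
  have h1 : #{e ∈ E | cell e.1 = cell e.2 ∧ e.1 ∈ Y} ≤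
      #(Y.sigma (fun v => ({u ∈ T | cell u = cell v} : Finset Pt))) := by
    apply Finset.card_le_card_of_injOn (fun e => ⟨e.1, e.2⟩)
    · intro e he
      obtain ⟨h1, h2, h4⟩ := mem_filter.mp (mem_coe.mp he)
      have h3 := hET e h1
      rw [mem_coe, mem_sigma]
      exact ⟨h4, mem_filter.mpr ⟨h3.2, h2.symm⟩⟩
    · intro e _ e' _ hee
      simp only [Sigma.mk.injEq, heq_eq_eq] at hee
      exact Prod.ext hee.1 hee.2
  have h2 : #{e ∈ E | cell e.1 = cell e.2 ∧ e.2 ∈ Y} ≤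
      #(Y.sigma (fun v => ({u ∈ T | cell u = cell v} : Finset Pt))) := by
    apply Finset.card_le_card_of_injOn (fun e => ⟨e.2, e.1⟩)
    · intro e he
      obtain ⟨h1, h2, h4⟩ := mem_filter.mp (mem_coe.mp he)
      have h3 := hET e h1
      rw [mem_coe, mem_sigma]
      exact ⟨h4, mem_filter.mpr ⟨h3.1, h2⟩⟩
    · intro e _ e' _ hee
      simp only [Sigma.mk.injEq, heq_eq_eq] at hee
      exact Prod.ext hee.2 hee.1
  have h3 : #(Y.sigma (fun v => ({u ∈ T | cell u = cell v} : Finset Pt))) ≤ #Y * N0 := by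
    rw [Finset.card_sigma]
    calc ∑ v ∈ Y, #({u ∈ T | cell u = cell v} : Finset Pt) ≤ ∑ _v ∈ Y, N0 :=
          Finset.sum_le_sum fun v _ => hc (cell v)
      _ = #Y * N0 := by rw [Finset.sum_const, smul_eq_mul]
  have h4 := (card_le_card h0).trans (card_union_le _ _)
  omega

/-- the arithmetic -/
theorem deyY_arith (w B y E : ℕ) (hw : 1 ≤ w) (hyw : y ≤ w) (hwB : w ≤ B)
    (h : ∀ H N0 : ℕ, 0 < H → 0 < N0 → ∃ bad : ℕ, E ≤ bad + 2 * (y * N0) ∧
      H * bad ≤ 100 * B ^ 2 + H * (H * (w / N0))) :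
    (E : ℝ) ≤ 106 * ((B : ℝ) ^ (2 / 3 : ℝ) * ((y : ℝ) * w) ^ (1 / 3 : ℝ) + B) := by
  have hw0 : (0 : ℝ) < w := by exact_mod_cast hw
  have hB0 : (0 : ℝ) < B := lt_of_lt_of_le hw0 (by exact_mod_cast hwB)
  have hy0 : (0 : ℝ) ≤ y := Nat.cast_nonneg y
  have hBp : (0 : ℝ) ≤ (B : ℝ) ^ (2 / 3 : ℝ) * ((y : ℝ) * w) ^ (1 / 3 : ℝ) := by positivity
  rcases le_or_gt ((y : ℝ) * w) B with hc | hc
  · obtain ⟨bad, h1, h2⟩ := h B w (by omega) hw
    have h3 : w / w = 1 := Nat.div_self hw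
    rw [h3] at h2
    have h4 : (B : ℝ) * bad ≤ B * (101 * B) := by
      have : (B : ℝ) * bad ≤ 100 * (B : ℝ) ^ 2 + B * (B * 1) := by exact_mod_cast h2
      nlinarith
    have h5 : (bad : ℝ) ≤ 101 * B := le_of_mul_le_mul_left h4 hB0
    have h6 : (E : ℝ) ≤ bad + 2 * (y * w) := by exact_mod_cast h1
    linarith
  · set a : ℝ := ((y : ℝ) * w) ^ (1 / 3 : ℝ) with ha
    set b : ℝ := (B : ℝ) ^ (1 / 3 : ℝ) with hb
    have hyw0 : 0 < (y : ℝ) * w := by linarith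
    have ha0 : 0 < a := Real.rpow_pos_of_pos hyw0 _
    have hb0 : 0 < b := Real.rpow_pos_of_pos hB0 _
    have ha3 : a ^ 3 = y * w := by
      rw [ha, ← Real.rpow_natCast, ← Real.rpow_mul hyw0.le]
      norm_num
    have hb3 : b ^ 3 = B := by
      rw [hb, ← Real.rpow_natCast, ← Real.rpow_mul hB0.le]
      norm_num
    have hX : (B : ℝ) ^ (2 / 3 : ℝ) = b ^ 2 := by
      rw [hb, ← Real.rpow_natCast, ← Real.rpow_mul hB0.le]
      norm_num
    rw [hX]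
    have hb1 : 1 ≤ b := by
      by_contra hcon
      have h1 : b ^ 3 < 1 := pow_lt_one₀ hb0.le (not_le.mp hcon) (by norm_num)
      rw [hb3] at h1
      have h2 : (1 : ℝ) ≤ w := by exact_mod_cast hw
      have h3 : (w : ℝ) ≤ B := by exact_mod_cast hwB
      linarith
    have hba : b < a := Real.rpow_lt_rpow hB0.le hc (by norm_num)
    -- a^3 <= w^2 <= b^6
    have hwB' : (w : ℝ) ≤ b ^ 3 := by rw [hb3]; exact_mod_cast hwB
    have hab : a ≤ b ^ 2 := by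
      by_contra hcon
      push Not at hcon
      have h1 : (b ^ 2) ^ 3 < a ^ 3 := pow_lt_pow_left₀ hcon (by positivity) (by norm_num)
      rw [ha3] at h1
      have h2 : (y : ℝ) ≤ w := by exact_mod_cast hyw
      have h3 : (y : ℝ) * w ≤ b ^ 3 * b ^ 3 := by
        apply mul_le_mul (h2.trans hwB') hwB' hw0.le (by positivity)
      have h4 : (b ^ 2) ^ 3 = b ^ 3 * b ^ 3 := by ring
      linarith
    set x : ℝ := b ^ 4 / a with hx
    set z : ℝ := w * b ^ 2 / a ^ 2 with hz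
    have hx1 : 1 ≤ x := by
      rw [hx, le_div_iff₀ ha0]
      have h2 : 1 ≤ b ^ 2 := one_le_pow₀ hb1
      nlinarith
    have hz1 : 1 ≤ z := by
      rw [hz, le_div_iff₀ (by positivity)]
      -- a^3 = y w <= w^2, b < a
      have h2 : (y : ℝ) ≤ w := by exact_mod_cast hyw
      have h3 : a ^ 3 ≤ w ^ 2 := by rw [ha3]; nlinarith
      have h4 : (w : ℝ) * b ^ 2 * (w * b ^ 2) ≥ a ^ 3 * a ^ 1 := by
        have h5 : a ^ 3 * a ≤ w ^ 2 * a := mul_le_mul_of_nonneg_right h3 ha0.le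
        have h6 : w ^ 2 * a ≤ (w : ℝ) ^ 2 * (b ^ 2 * b ^ 2) := by
          apply mul_le_mul_of_nonneg_left _ (by positivity)
          have : 1 ≤ b ^ 2 := one_le_pow₀ hb1
          nlinarith
        nlinarith
      by_contra hcon
      push Not at hcon
      have h7 : (w : ℝ) * b ^ 2 * (w * b ^ 2) < (1 * a ^ 2) * (1 * a ^ 2) := by
        apply mul_lt_mul'' hcon hcon (by positivity) (by positivity)
      have h8 : (1 * a ^ 2) * (1 * a ^ 2) = a ^ 3 * a ^ 1 := by ring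
      linarith
    obtain ⟨bad, h1, h2⟩ := h ⌈x⌉₊ ⌈z⌉₊ (Nat.ceil_pos.mpr (by linarith))
      (Nat.ceil_pos.mpr (by linarith))
    have hH1 : x ≤ ⌈x⌉₊ := Nat.le_ceil x
    have hH2 : (⌈x⌉₊ : ℝ) ≤ 2 * x := by
      have := Nat.ceil_lt_add_one (by linarith : (0 : ℝ) ≤ x)
      linarith
    have hN1 : z ≤ ⌈z⌉₊ := Nat.le_ceil z
    have hN2 : (⌈z⌉₊ : ℝ) ≤ 2 * z := by
      have := Nat.ceil_lt_add_one (by linarith : (0 : ℝ) ≤ z)
      linarith
    have h3 : (E : ℝ) ≤ bad + 2 * (y * (⌈z⌉₊ : ℝ)) := by exact_mod_cast h1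
    have h4 : (⌈x⌉₊ : ℝ) * bad ≤
        100 * (B : ℝ) ^ 2 + (⌈x⌉₊ : ℝ) * ((⌈x⌉₊ : ℝ) * ((w / ⌈z⌉₊ : ℕ) : ℝ)) := by
      exact_mod_cast h2
    set H : ℝ := (⌈x⌉₊ : ℝ) with hHd
    have hH0 : 0 < H := by linarith
    have hz0 : 0 < z := by linarith
    have hx0 : 0 < x := by linarith
    have h5 : ((w / ⌈z⌉₊ : ℕ) : ℝ) ≤ w / z := by
      calc ((w / ⌈z⌉₊ : ℕ) : ℝ) ≤ (w : ℝ) / (⌈z⌉₊ : ℝ) := Nat.cast_div_le
        _ ≤ w / z := by
            apply div_le_div_of_nonneg_left hw0.le (by linarith) hN1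
    have h6 : (bad : ℝ) ≤ 100 * (B : ℝ) ^ 2 / x + 2 * x * (w / z) := by
      have h7 : H * bad ≤ H * (100 * (B : ℝ) ^ 2 / x + 2 * x * (w / z)) := by
        refine h4.trans ?_
        rw [mul_add]
        have g1 : 100 * (B : ℝ) ^ 2 ≤ H * (100 * (B : ℝ) ^ 2 / x) := by
          rw [← mul_div_assoc, le_div_iff₀ hx0, mul_comm H]
          exact mul_le_mul_of_nonneg_left hH1 (by positivity)
        have g2 : H * (H * ((w / ⌈z⌉₊ : ℕ) : ℝ)) ≤ H * (2 * x * (w / z)) := by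
          apply mul_le_mul_of_nonneg_left _ hH0.le
          exact mul_le_mul hH2 h5 (by positivity) (by positivity)
        linarith
      exact le_of_mul_le_mul_left h7 hH0
    have h8 : 100 * (B : ℝ) ^ 2 / x = 100 * (b ^ 2 * a) := by
      rw [hx, ← hb3]
      field_simp
    have h9 : 2 * x * ((w : ℝ) / z) = 2 * (b ^ 2 * a) := by
      rw [hx, hz]
      field_simp
    have h10 : 2 * ((y : ℝ) * (2 * z)) = 4 * (b ^ 2 * a) := by
      rw [hz]
      have : (y : ℝ) * (2 * (w * b ^ 2 / a ^ 2)) = 2 * ((y * w) * b ^ 2 / a ^ 2) := by ring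
      rw [this, ← ha3]
      field_simp
      ring
    have h11 : 2 * ((y : ℝ) * (⌈z⌉₊ : ℝ)) ≤ 2 * (y * (2 * z)) := by
      have := mul_le_mul_of_nonneg_left hN2 hy0
      linarith
    rw [h8, h9] at h6
    rw [h10] at h11
    linarith

/-- **Dey's bound for a set `Y` of end points.** -/
theorem deyY (P : Finset Pt) (k : ℕ) (Q : Finset Pt) (I : Set ℝ) (hP : Good P) (hQ : Q ⊆ P)
    (hI : I.OrdConnected) (Y : Finset Pt) (hY : Y ⊆ Tch P k Q I) :
    (#(EdY P k Q I Y) : ℝ) ≤ 106 *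
      (((#(Tch P k Q I) + #(EdBd P k Q I) : ℕ) : ℝ) ^ (2 / 3 : ℝ) *
        ((#Y : ℝ) * #(Tch P k Q I)) ^ (1 / 3 : ℝ) +
        ((#(Tch P k Q I) + #(EdBd P k Q I) : ℕ) : ℝ)) := by
  classical
  obtain ⟨m, pt, F, hm, hpt, hX, hE⟩ := stChains P k Q I hP hQ hI
  have hET : ∀ e ∈ EdY P k Q I Y, e.1 ∈ Tch P k Q I ∧ e.2 ∈ Tch P k Q I :=
    fun e he => edIn_tch e (mem_EdY.mp he).1
  have hEY : ∀ e ∈ EdY P k Q I Y, e.1 ∈ Y ∨ e.2 ∈ Y := fun e he => (mem_EdY.mp he).2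
  rcases Nat.eq_zero_or_pos #(Tch P k Q I) with h0 | h0
  · have h1 : EdY P k Q I Y = ∅ := by
      apply Finset.eq_empty_of_forall_notMem
      intro e he
      have := (hET e he).1
      rw [Finset.card_eq_zero.mp h0] at this
      simp at this
    rw [h1]
    simp only [card_empty, Nat.cast_zero]
    positivity
  · refine deyY_arith #(Tch P k Q I) (#(Tch P k Q I) + #(EdBd P k Q I)) #Y #(EdY P k Q I Y) h0
      (card_le_card hY) (Nat.le_add_right _ _) ?_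
    intro H N0 hH hN0
    obtain ⟨cell, hc1, hc2, hc3⟩ := cells_of_fam pt F hpt
      (E := EdY P k Q I Y) (fun e he => hE e (mem_EdY.mp he).1) H N0 hH hN0
    refine ⟨#{e ∈ EdY P k Q I Y | cell e.1 ≠ cell e.2}, ?_, ?_⟩
    · have h2 := card_sameY_le hET hEY cell N0 hc1
      have h3 := Finset.card_filter_add_card_filter_not (s := EdY P k Q I Y)
        (p := fun e => cell e.1 = cell e.2)
      have h4 : #{e ∈ EdY P k Q I Y | ¬ cell e.1 = cell e.2} =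
          #{e ∈ EdY P k Q I Y | cell e.1 ≠ cell e.2} := rfl
      omega
    · exact hc3.trans (Nat.add_le_add_right hX _)

end Vale.Agent.P065.U.H792
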