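import Mathlib

/-! P065 upper bound, front end: the cell lemma.  Pure finite combinatorics. -/

set_option autoImplicit false

namespace Vale.Agent.P065.U.H792

open Finset

/-- A family of `m` chains over the points `0, …, w-1` (in the order of the first coordinate).
Chain `c` lives over `s c, …, t c`, its height over the point `i` is `H c i`, and it passes
through the points `Vx c`; `Y a` is the height of the point `a`. -/
structure Fam (w m : ℕ) where
  s : Fin m → ℕ
  t : Fin m → ℕ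
  htw : ∀ c, t c < w
  Vx : Fin m → Finset ℕ
  hV : ∀ c, ∀ a ∈ Vx c, s c ≤ a ∧ a ≤ t c
  H : Fin m → ℕ → ℝ
  Y : ℕ → ℝ
  hY : ∀ c, ∀ a ∈ Vx c, H c a = Y a

namespace Fam

variable {w m : ℕ} (F : Fam w m)

/-- the chain `c` is alive over the point `i` -/
def live (i : ℕ) (c : Fin m) : Prop := F.s c ≤ i ∧ i ≤ F.t c

/-- `c'` is below `c` over the point `i` (ties broken by the index) -/
def lt (i : ℕ) (c' c : Fin m) : Prop := F.H c' i < F.H c i ∨ (F.H c' i = F.H c i ∧ c' < c)

open scoped Classical in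
/-- rank of the chain `c` over the point `i` -/
noncomputable def R (i : ℕ) (c : Fin m) : ℕ :=
  #{c' : Fin m | F.live i c' ∧ F.lt i c' c}

open scoped Classical in
/-- rank of the point `a` -/
noncomputable def rho (a : ℕ) : ℕ := #{c' : Fin m | F.live a c' ∧ F.H c' a < F.Y a}

open scoped Classical in
/-- the edges: consecutive vertices of a chain -/
noncomputable def edges : Finset (Fin m × ℕ × ℕ) :=
  {e ∈ (univ : Finset (Fin m)) ×ˢ (range w ×ˢ range w) |
    e.2.1 ∈ F.Vx e.1 ∧ e.2.2 ∈ F.Vx e.1 ∧ e.2.1 < e.2.2 ∧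
      ∀ v ∈ F.Vx e.1, ¬ (e.2.1 < v ∧ v < e.2.2)}

open scoped Classical in
/-- changes of the order of two chains between consecutive points -/
noncomputable def alt : ℕ :=
  #{q ∈ (univ : Finset (Fin m)) ×ˢ ((univ : Finset (Fin m)) ×ˢ range w) |
    F.live q.2.2 q.1 ∧ F.live (q.2.2 + 1) q.1 ∧ F.live q.2.2 q.2.1 ∧ F.live (q.2.2 + 1) q.2.1 ∧
      ¬ (F.lt q.2.2 q.1 q.2.1 ↔ F.lt (q.2.2 + 1) q.1 q.2.1)}

open scoped Classical in
/-- meetings of chains at vertices: `(c', c, a)` with `a` a vertex of `c` and `c'` passing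
through the point `a` -/
noncomputable def meet : ℕ :=
  #{q ∈ (univ : Finset (Fin m)) ×ˢ ((univ : Finset (Fin m)) ×ˢ range w) |
    q.1 ≠ q.2.1 ∧ q.2.2 ∈ F.Vx q.2.1 ∧ F.live q.2.2 q.1 ∧ F.H q.1 q.2.2 = F.Y q.2.2}

theorem lt_irrefl (i : ℕ) (c : Fin m) : ¬ F.lt i c c := by
  rintro (h | ⟨_, h⟩)
  · exact _root_.lt_irrefl _ h
  · exact _root_.lt_irrefl _ h

theorem lt_trans (i : ℕ) {a b c : Fin m} (h1 : F.lt i a b) (h2 : F.lt i b c) : F.lt i a c := by
  rcases h1 with h1 | ⟨h1, h1'⟩ <;> rcases h2 with h2 | ⟨h2, h2'⟩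
  · exact Or.inl (h1.trans h2)
  · exact Or.inl (h2 ▸ h1)
  · exact Or.inl (h1 ▸ h2)
  · exact Or.inr ⟨h1.trans h2, h1'.trans h2'⟩

theorem lt_total (i : ℕ) {a b : Fin m} (h : a ≠ b) : F.lt i a b ∨ F.lt i b a := by
  rcases lt_trichotomy (F.H a i) (F.H b i) with h1 | h1 | h1
  · exact Or.inl (Or.inl h1)
  · rcases Ne.lt_or_gt h with h2 | h2
    · exact Or.inl (Or.inr ⟨h1, h2⟩)
    · exact Or.inr (Or.inr ⟨h1.symm, h2⟩)
  · exact Or.inr (Or.inl h1)

theorem R_lt_of_lt (i : ℕ) {a b : Fin m} (ha : F.live i a) (h : F.lt i a b) :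
    F.R i a < F.R i b := by
  classical
  apply Finset.card_lt_card
  refine ⟨?_, ?_⟩
  · intro x hx
    simp only [mem_filter, mem_univ, true_and] at hx ⊢
    exact ⟨hx.1, F.lt_trans i hx.2 h⟩
  · intro hsub
    have := hsub (by simpa using ⟨ha, h⟩ : a ∈ ({c' : Fin m | F.live i c' ∧ F.lt i c' b} : Finset _))
    simp only [mem_filter, mem_univ, true_and] at this
    exact F.lt_irrefl i a this.2

theorem R_inj (i : ℕ) {a b : Fin m} (ha : F.live i a) (hb : F.live i b) (h : F.R i a = F.R i b) :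
    a = b := by
  by_contra hne
  rcases F.lt_total i hne with h1 | h1
  · exact absurd h (F.R_lt_of_lt i ha h1).ne
  · exact absurd h (F.R_lt_of_lt i hb h1).ne'

theorem rho_le (a : ℕ) : F.rho a ≤ m := by
  classical
  calc F.rho a ≤ #(univ : Finset (Fin m)) := card_le_card (subset_univ _)
    _ = m := by simp

end Fam

/-- Hermite: summing the floor over all offsets. -/
theorem sum_floor (M : ℕ) (hM : 0 < M) (r : ℕ) : ∑ θ ∈ range M, (r + θ) / M = r := by
  induction r with
  | zero =>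
    apply Finset.sum_eq_zero
    intro θ hθ
    rw [zero_add]
    exact Nat.div_eq_of_lt (mem_range.mp hθ)
  | succ r ih =>
    have h1 : ∑ θ ∈ range (M + 1), (r + θ) / M = ∑ θ ∈ range M, (r + θ) / M + (r + M) / M :=
      Finset.sum_range_succ _ _
    have h2 : ∑ θ ∈ range (M + 1), (r + θ) / M = ∑ θ ∈ range M, (r + (θ + 1)) / M + (r + 0) / M :=
      Finset.sum_range_succ' _ _
    have h3 : (r + M) / M = r / M + 1 := by
      rw [Nat.add_div_right _ hM]
    have h4 : ∑ θ ∈ range M, (r + 1 + θ) / M = ∑ θ ∈ range M, (r + (θ + 1)) / M := by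
      apply Finset.sum_congr rfl
      intro θ _
      congr 1
      ring
    rw [h4]
    simp only [add_zero] at h2
    omega

/-- number of offsets separating two ranks -/
theorem card_offset_le (M : ℕ) (hM : 0 < M) {r r' : ℕ} (h : r ≤ r') :
    #{θ ∈ range M | (r + θ) / M ≠ (r' + θ) / M} ≤ r' - r := by
  have h1 : ∀ θ ∈ range M, (r + θ) / M + (if (r + θ) / M ≠ (r' + θ) / M then 1 else 0)
      ≤ (r' + θ) / M := by
    intro θ _
    have h2 : (r + θ) / M ≤ (r' + θ) / M := Nat.div_le_div_right (by omega)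
    split_ifs with h3
    · omega
    · omega
  have h4 := Finset.sum_le_sum h1
  rw [Finset.sum_add_distrib, sum_floor M hM, sum_floor M hM, ← Finset.card_filter] at h4
  omega

theorem card_offset_dist (M : ℕ) (hM : 0 < M) (r r' : ℕ) :
    #{θ ∈ range M | (r + θ) / M ≠ (r' + θ) / M} ≤ Nat.dist r r' := by
  rcases le_total r r' with h | h
  · rw [Nat.dist_eq_sub_of_le h]
    exact card_offset_le M hM h
  · rw [Nat.dist_eq_sub_of_le_right h]
    have := card_offset_le M hM h
    refine le_trans (le_of_eq ?_) this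
    congr 1
    apply Finset.filter_congr
    intro θ _
    exact ⟨fun h => h.symm, fun h => h.symm⟩

end Vale.Agent.P065.U.H792
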