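import Vale.Agent.P065.U.H792.Cell

/-! P065 upper bound, front end: the cell lemma, rows, walls and cells. -/

set_option autoImplicit false

namespace Vale.Agent.P065.U.H792

open Finset

namespace Fam

variable {w m : ℕ} (F : Fam w m)

/-- row of the chain `c` over `i` -/
noncomputable def kap (M θ i : ℕ) (c : Fin m) : ℕ := (F.R i c + θ) / M

/-- row of the point `a` -/
noncomputable def row (M θ a : ℕ) : ℕ := (F.rho a + θ) / M

/-- number of earlier points of the same row -/
noncomputable def idx (M θ a : ℕ) : ℕ := #{b ∈ range a | F.row M θ b = F.row M θ a}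

/-- cell of the point `a` -/
noncomputable def cell (M N θ a : ℕ) : ℕ × ℕ := (F.row M θ a, F.idx M θ a / N)

variable (M N θ : ℕ)

theorem idx_lt_idx {a b : ℕ} (hab : a < b) (hr : F.row M θ a = F.row M θ b) :
    F.idx M θ a < F.idx M θ b := by
  unfold idx
  apply Finset.card_lt_card
  refine ⟨?_, ?_⟩
  · intro x hx
    simp only [mem_filter, mem_range] at hx ⊢
    exact ⟨hx.1.trans hab, hx.2.trans hr⟩
  · intro hsub
    have := hsub (by simpa using ⟨hab, hr⟩ :
      a ∈ ({b' ∈ range b | F.row M θ b' = F.row M θ b} : Finset ℕ))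
    simp at this

theorem idx_inj {a b : ℕ} (hr : F.row M θ a = F.row M θ b) (hi : F.idx M θ a = F.idx M θ b) :
    a = b := by
  rcases lt_trichotomy a b with h | h | h
  · exact absurd hi (F.idx_lt_idx M θ h hr).ne
  · exact h
  · exact absurd hi (F.idx_lt_idx M θ h hr.symm).ne'

/-- the index takes every smaller value on the row -/
theorem exists_idx {z k : ℕ} (hk : k < F.idx M θ z) :
    ∃ p, p < z ∧ F.row M θ p = F.row M θ z ∧ F.idx M θ p = k := by
  set ρ := F.row M θ z with hρ
  have key : ∀ x, k < #{b ∈ range x | F.row M θ b = ρ} →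
      ∃ p, p < x ∧ F.row M θ p = ρ ∧ F.idx M θ p = k := by
    intro x
    induction x with
    | zero => intro h; simp at h
    | succ x ih =>
      intro h
      rw [Finset.range_add_one, Finset.filter_insert] at h
      split_ifs at h with h1
      · rw [Finset.card_insert_of_notMem (by simp)] at h
        by_cases h2 : k < #{b ∈ range x | F.row M θ b = ρ}
        · obtain ⟨p, hp1, hp2⟩ := ih h2
          exact ⟨p, by omega, hp2⟩
        · refine ⟨x, by omega, h1, ?_⟩
          have h3 : F.idx M θ x = #{b ∈ range x | F.row M θ b = ρ} := by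
            unfold idx
            rw [h1]
          omega
      · obtain ⟨p, hp1, hp2⟩ := ih h
        exact ⟨p, by omega, hp2⟩
  exact key z hk

/-- the walls: first points of the blocks -/
noncomputable def Z : Finset ℕ := {z ∈ range w | N ∣ F.idx M θ z ∧ 0 < F.idx M θ z}

theorem card_Z (hN : 0 < N) : N * #(F.Z M N θ) ≤ w := by
  classical
  have hch : ∀ q : ℕ × ℕ, ∃ p, q.1 ∈ F.Z M N θ → q.2 < N →
      p < q.1 ∧ F.row M θ p = F.row M θ q.1 ∧ F.idx M θ p + 1 + q.2 = F.idx M θ q.1 := by
    intro q
    by_cases h1 : q.1 ∈ F.Z M N θ ∧ q.2 < N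
    · obtain ⟨h1, h2⟩ := h1
      simp only [Z, mem_filter, mem_range] at h1
      obtain ⟨_, h3, h4⟩ := h1
      have h5 : N ≤ F.idx M θ q.1 := Nat.le_of_dvd h4 h3
      obtain ⟨p, hp1, hp2, hp3⟩ := F.exists_idx M θ (z := q.1) (k := F.idx M θ q.1 - 1 - q.2)
        (by omega)
      exact ⟨p, fun _ _ => ⟨hp1, hp2, by omega⟩⟩
    · exact ⟨0, fun h2 h3 => absurd ⟨h2, h3⟩ h1⟩
  choose f hf using hch
  have h1 : #(F.Z M N θ ×ˢ range N) ≤ #(range w) := by
    apply Finset.card_le_card_of_injOn f
    · intro q hq
      have hq' := mem_product.mp (mem_coe.mp hq)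
      have h2 := hf q hq'.1 (mem_range.mp hq'.2)
      have h3 : q.1 < w := by
        have := hq'.1
        simp only [Z, mem_filter, mem_range] at this
        exact this.1
      simp only [coe_range, Set.mem_Iio]
      omega
    · intro q hq q' hq' he
      have hq1 := mem_product.mp (mem_coe.mp hq)
      have hq2 := mem_product.mp (mem_coe.mp hq')
      have a1 := hf q hq1.1 (mem_range.mp hq1.2)
      have a2 := hf q' hq2.1 (mem_range.mp hq2.2)
      have b1 := mem_range.mp hq1.2
      have b2 := mem_range.mp hq2.2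
      have c1 := hq1.1
      have c2 := hq2.1
      simp only [Z, mem_filter, mem_range] at c1 c2
      have d : F.row M θ q.1 = F.row M θ q'.1 := by rw [← a1.2.1, ← a2.2.1, he]
      have e : F.idx M θ q.1 = F.idx M θ q'.1 ∧ q.2 = q'.2 := by
        have e1 : F.idx M θ (f q) = F.idx M θ (f q') := by rw [he]
        obtain ⟨u, hu⟩ := c1.2.1
        obtain ⟨v, hv⟩ := c2.2.1
        have e2 : N * u = F.idx M θ (f q) + 1 + q.2 := by omega
        have e3 : N * v = F.idx M θ (f q) + 1 + q'.2 := by omega
        have e4 : u = v := by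
          rcases lt_trichotomy u v with h | h | h
          · have : N * (u + 1) ≤ N * v := Nat.mul_le_mul_left _ h
            rw [Nat.mul_add] at this
            omega
          · exact h
          · have : N * (v + 1) ≤ N * u := Nat.mul_le_mul_left _ h
            rw [Nat.mul_add] at this
            omega
        subst e4
        omega
      have := F.idx_inj M θ d e.1
      exact Prod.ext this e.2
  rw [card_product, card_range, card_range] at h1
  linarith [Nat.mul_comm N #(F.Z M N θ)]

theorem card_cell_le (hN : 0 < N) (q : ℕ × ℕ) : #{a ∈ range w | F.cell M N θ a = q} ≤ N := by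
  have h1 : #{a ∈ range w | F.cell M N θ a = q} ≤ #(Ico (q.2 * N) (q.2 * N + N)) := by
    apply Finset.card_le_card_of_injOn (F.idx M θ)
    · intro a ha
      have ha' := (mem_filter.mp (mem_coe.mp ha)).2
      have h2 : F.idx M θ a / N = q.2 := by rw [← ha']; rfl
      have h3 := Nat.div_add_mod (F.idx M θ a) N
      have h4 := Nat.mod_lt (F.idx M θ a) hN
      rw [h2] at h3
      simp only [coe_Ico, Set.mem_Ico]
      have h5 : N * q.2 = q.2 * N := Nat.mul_comm _ _
      omega
    · intro a ha b hb he
      have ha' := (mem_filter.mp (mem_coe.mp ha)).2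
      have hb' := (mem_filter.mp (mem_coe.mp hb)).2
      have h2 : F.row M θ a = F.row M θ b := by
        have := ha'.trans hb'.symm
        exact congrArg Prod.fst this
      exact F.idx_inj M θ h2 he
  simpa using h1

theorem row_lt (hM : 0 < M) (hθ : θ < M) (a : ℕ) : F.row M θ a < m / M + 2 := by
  unfold row
  have h1 : (F.rho a + θ) / M ≤ (m + M) / M :=
    Nat.div_le_div_right (by have := F.rho_le a; omega)
  rw [Nat.add_div_right _ hM] at h1
  omega

theorem card_cells_le (hM : 0 < M) (hN : 0 < N) (hθ : θ < M) :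
    #((range w).image (F.cell M N θ)) ≤ m / M + 2 + w / N := by
  classical
  have h1 : (range w).image (F.cell M N θ) ⊆
      ((range (m / M + 2)) ×ˢ {0}) ∪ (F.Z M N θ).image (F.cell M N θ) := by
    intro q hq
    obtain ⟨a, ha, rfl⟩ := mem_image.mp hq
    rw [mem_union]
    rcases Nat.eq_zero_or_pos (F.idx M θ a / N) with h2 | h2
    · left
      rw [mem_product]
      exact ⟨mem_range.mpr (F.row_lt M θ hM hθ a), by simp [cell, h2]⟩
    · right
      rw [mem_image]
      set k := N * (F.idx M θ a / N) with hk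
      have hk1 : k ≤ F.idx M θ a := Nat.mul_div_le _ _
      have hk0 : 0 < k := Nat.mul_pos hN h2
      have hz : ∃ z, z ≤ a ∧ F.row M θ z = F.row M θ a ∧ F.idx M θ z = k := by
        rcases hk1.lt_or_eq with h3 | h3
        · obtain ⟨p, hp1, hp2, hp3⟩ := F.exists_idx M θ h3
          exact ⟨p, hp1.le, hp2, hp3⟩
        · exact ⟨a, le_rfl, rfl, h3.symm⟩
      obtain ⟨z, hz1, hz2, hz3⟩ := hz
      have ha' := mem_range.mp ha
      refine ⟨z, ?_, ?_⟩
      · simp only [Z, mem_filter, mem_range]
        exact ⟨by omega, by rw [hz3]; exact Dvd.intro _ rfl, by omega⟩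
      · unfold cell
        rw [hz2, hz3, hk, Nat.mul_div_cancel_left _ hN]
  refine (card_le_card h1).trans ((card_union_le _ _).trans ?_)
  have h2 : #((range (m / M + 2)) ×ˢ ({0} : Finset ℕ)) = m / M + 2 := by simp
  have h3 : #((F.Z M N θ).image (F.cell M N θ)) ≤ w / N := by
    refine card_image_le.trans ?_
    rw [Nat.le_div_iff_mul_le hN]
    have := F.card_Z M N θ hN
    linarith [Nat.mul_comm N #(F.Z M N θ)]
  omega

/-- chains crossing a wall inside its row -/
theorem card_wall_le (hM : 0 < M) (z : ℕ) :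
    #{c ∈ (univ : Finset (Fin m)) | (F.s c ≤ z ∧ z ≤ F.t c) ∧ F.kap M θ z c = F.row M θ z} ≤ M := by
  classical
  set ρ := F.row M θ z with hρ
  have h1 : #{c ∈ (univ : Finset (Fin m)) | (F.s c ≤ z ∧ z ≤ F.t c) ∧ F.kap M θ z c = ρ}
      ≤ #(Ico (ρ * M) (ρ * M + M)) := by
    apply Finset.card_le_card_of_injOn (fun c => F.R z c + θ)
    · intro c hc
      have hc' := (mem_filter.mp (mem_coe.mp hc)).2.2
      have h2 : (F.R z c + θ) / M = ρ := hc'
      have h3 := Nat.div_add_mod (F.R z c + θ) M
      have h4 := Nat.mod_lt (F.R z c + θ) hM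
      rw [h2] at h3
      simp only [coe_Ico, Set.mem_Ico]
      have h5 : M * ρ = ρ * M := Nat.mul_comm _ _
      omega
    · intro c hc c' hc' he
      have hc1 := (mem_filter.mp (mem_coe.mp hc)).2.1
      have hc2 := (mem_filter.mp (mem_coe.mp hc')).2.1
      have h2 : F.R z c = F.R z c' := by
        have : F.R z c + θ = F.R z c' + θ := he
        omega
      exact F.R_inj z hc1 hc2 h2
  simpa using h1

end Fam

end Vale.Agent.P065.U.H792
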