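import Vale.Agent.P065.U.H792.Cell2

/-! P065 upper bound, front end: the cell lemma, displacement and the final count. -/

set_option autoImplicit false

namespace Vale.Agent.P065.U.H792

open Finset

namespace Fam

variable {w m : ℕ} (F : Fam w m)

theorem dist_card_le {α : Type*} [DecidableEq α] (A B : Finset α) :
    Nat.dist #A #B ≤ #(A \ B) + #(B \ A) := by
  have h1 : #A ≤ #B + #(A \ B) := by
    have := card_le_card (show A ⊆ B ∪ (A \ B) by
      intro x hx
      by_cases h : x ∈ B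
      · exact mem_union_left _ h
      · exact mem_union_right _ (mem_sdiff.mpr ⟨hx, h⟩))
    exact this.trans (card_union_le _ _)
  have h2 : #B ≤ #A + #(B \ A) := by
    have := card_le_card (show B ⊆ A ∪ (B \ A) by
      intro x hx
      by_cases h : x ∈ A
      · exact mem_union_left _ h
      · exact mem_union_right _ (mem_sdiff.mpr ⟨hx, h⟩))
    exact this.trans (card_union_le _ _)
  unfold Nat.dist
  omega

open scoped Classical in
/-- rank change of a live chain between consecutive points -/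
theorem dist_R_le (i : ℕ) (c : Fin m) (hc : F.live i c) (hc' : F.live (i + 1) c) :
    Nat.dist (F.R i c) (F.R (i + 1) c) ≤
      #{c' : Fin m | F.live i c' ∧ F.live (i + 1) c' ∧ F.live i c ∧ F.live (i + 1) c ∧
        ¬ (F.lt i c' c ↔ F.lt (i + 1) c' c)}
      + (#{c' : Fin m | F.t c' = i} + #{c' : Fin m | F.s c' = i + 1}) := by
  refine (dist_card_le _ _).trans ?_
  set A : Finset (Fin m) := {c' : Fin m | F.live i c' ∧ F.lt i c' c} with hA
  set B : Finset (Fin m) := {c' : Fin m | F.live (i + 1) c' ∧ F.lt (i + 1) c' c} with hB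
  set C : Finset (Fin m) := {c' : Fin m | F.live i c' ∧ F.live (i + 1) c' ∧ F.live i c ∧
    F.live (i + 1) c ∧ ¬ (F.lt i c' c ↔ F.lt (i + 1) c' c)} with hC
  have h0 : #(A \ B) + #(B \ A) = #((A \ B) ∪ (B \ A)) := by
    rw [card_union_of_disjoint]
    rw [Finset.disjoint_left]
    intro x hx hy
    exact (mem_sdiff.mp hy).2 (mem_sdiff.mp hx).1
  rw [h0]
  have h1 : (A \ B) ∪ (B \ A) ⊆ C ∪ (({c' : Fin m | F.t c' = i} : Finset _) ∪
      ({c' : Fin m | F.s c' = i + 1} : Finset _)) := by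
    intro x hx
    rw [mem_union, mem_union]
    rcases mem_union.mp hx with hx | hx
    · obtain ⟨h2, h3⟩ := mem_sdiff.mp hx
      have h2' := (mem_filter.mp h2).2
      have h2a : F.s x ≤ i ∧ i ≤ F.t x := h2'.1
      by_cases h4 : F.t x = i
      · right; left; exact mem_filter.mpr ⟨mem_univ _, h4⟩
      · left
        have h5 : F.live (i + 1) x := ⟨by omega, by omega⟩
        exact mem_filter.mpr ⟨mem_univ _, h2'.1, h5, hc, hc', fun h6 =>
          h3 (mem_filter.mpr ⟨mem_univ _, h5, h6.mp h2'.2⟩)⟩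
    · obtain ⟨h2, h3⟩ := mem_sdiff.mp hx
      have h2' := (mem_filter.mp h2).2
      have h2a : F.s x ≤ i + 1 ∧ i + 1 ≤ F.t x := h2'.1
      by_cases h4 : F.s x = i + 1
      · right; right; exact mem_filter.mpr ⟨mem_univ _, h4⟩
      · left
        have h5 : F.live i x := ⟨by omega, by omega⟩
        exact mem_filter.mpr ⟨mem_univ _, h5, h2'.1, hc, hc', fun h6 =>
          h3 (mem_filter.mpr ⟨mem_univ _, h5, h6.mpr h2'.2⟩)⟩
  exact (card_le_card h1).trans ((card_union_le _ _).trans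
    (Nat.add_le_add_left (card_union_le _ _) _))

theorem card_triple {w m : ℕ} (P : Fin m → Fin m → ℕ → Prop)
    [h1 : DecidablePred fun q : Fin m × Fin m × ℕ => P q.1 q.2.1 q.2.2]
    [h2 : ∀ c i, DecidablePred fun c' => P c' c i] :
    #{q ∈ (univ : Finset (Fin m)) ×ˢ ((univ : Finset (Fin m)) ×ˢ range w) | P q.1 q.2.1 q.2.2}
      = ∑ c : Fin m, ∑ i ∈ range w, #{c' : Fin m | P c' c i} := by
  rw [Finset.card_filter, Finset.sum_product]
  simp only [Finset.card_filter, Finset.sum_product]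
  rw [Finset.sum_comm]
  apply Finset.sum_congr rfl
  intro c _
  rw [Finset.sum_comm]

open scoped Classical in
/-- the total displacement -/
theorem sum_dist_le :
    ∑ c : Fin m, ∑ i ∈ range w, (if F.live i c ∧ F.live (i + 1) c then
      Nat.dist (F.R i c) (F.R (i + 1) c) else 0) ≤ F.alt + 2 * m ^ 2 := by
  have h1 : ∀ c : Fin m, ∀ i ∈ range w, (if F.live i c ∧ F.live (i + 1) c then
      Nat.dist (F.R i c) (F.R (i + 1) c) else 0) ≤
      #{c' : Fin m | F.live i c' ∧ F.live (i + 1) c' ∧ F.live i c ∧ F.live (i + 1) c ∧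
        ¬ (F.lt i c' c ↔ F.lt (i + 1) c' c)}
      + (#{c' : Fin m | F.t c' = i} + #{c' : Fin m | F.s c' = i + 1}) := by
    intro c i _
    split_ifs with h
    · exact F.dist_R_le i c h.1 h.2
    · exact Nat.zero_le _
  refine (Finset.sum_le_sum fun c _ => Finset.sum_le_sum (h1 c)).trans ?_
  simp only [Finset.sum_add_distrib]
  have h2 : ∑ c : Fin m, ∑ i ∈ range w,
      #{c' : Fin m | F.live i c' ∧ F.live (i + 1) c' ∧ F.live i c ∧ F.live (i + 1) c ∧
        ¬ (F.lt i c' c ↔ F.lt (i + 1) c' c)} = F.alt := by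
    symm
    exact card_triple (w := w) (fun c' c i => F.live i c' ∧ F.live (i + 1) c' ∧ F.live i c ∧
      F.live (i + 1) c ∧ ¬ (F.lt i c' c ↔ F.lt (i + 1) c' c))
  have h3 : ∀ c : Fin m, ∑ i ∈ range w, #{c' : Fin m | F.t c' = i} ≤ m := by
    intro c
    simp only [Finset.card_filter]
    rw [Finset.sum_comm]
    calc ∑ y : Fin m, ∑ x ∈ range w, (if F.t y = x then 1 else 0) ≤ ∑ y : Fin m, 1 := by
          apply Finset.sum_le_sum
          intro y _
          rw [Finset.sum_ite_eq]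
          split_ifs <;> omega
      _ = m := by simp
  have h4 : ∀ c : Fin m, ∑ i ∈ range w, #{c' : Fin m | F.s c' = i + 1} ≤ m := by
    intro c
    simp only [Finset.card_filter]
    rw [Finset.sum_comm]
    calc ∑ y : Fin m, ∑ x ∈ range w, (if F.s y = x + 1 then 1 else 0) ≤ ∑ y : Fin m, 1 := by
          apply Finset.sum_le_sum
          intro y _
          rw [← Finset.card_filter]
          rw [Finset.card_le_one]
          intro a ha b hb
          have := (mem_filter.mp ha).2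
          have := (mem_filter.mp hb).2
          omega
      _ = m := by simp
  have h5 : ∑ _c : Fin m, ∑ i ∈ range w, #{c' : Fin m | F.t c' = i} ≤ m * m :=
    (Finset.sum_le_sum (fun (c : Fin m) (_ : c ∈ (univ : Finset (Fin m))) => h3 c)).trans
      (by simp)
  have h6 : ∑ _c : Fin m, ∑ i ∈ range w, #{c' : Fin m | F.s c' = i + 1} ≤ m * m :=
    (Finset.sum_le_sum (fun (c : Fin m) (_ : c ∈ (univ : Finset (Fin m))) => h4 c)).trans
      (by simp)
  rw [h2]
  nlinarith

open scoped Classical in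
/-- rank of a vertex against the rank of the chain through it -/
theorem dist_rho_le (a : ℕ) (c : Fin m) (hc : a ∈ F.Vx c) :
    Nat.dist (F.R a c) (F.rho a) ≤
      #{c' : Fin m | c' ≠ c ∧ a ∈ F.Vx c ∧ F.live a c' ∧ F.H c' a = F.Y a} := by
  refine (dist_card_le _ _).trans ?_
  have h1 : (({c' : Fin m | F.live a c' ∧ F.H c' a < F.Y a} : Finset _) \
      ({c' : Fin m | F.live a c' ∧ F.lt a c' c} : Finset _)) = ∅ := by
    apply Finset.eq_empty_of_forall_notMem
    intro x hx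
    obtain ⟨h2, h3⟩ := mem_sdiff.mp hx
    have h2' := (mem_filter.mp h2).2
    apply h3
    refine mem_filter.mpr ⟨mem_univ _, h2'.1, Or.inl ?_⟩
    rw [F.hY c a hc]
    exact h2'.2
  have h1' : #((({c' : Fin m | F.live a c' ∧ F.H c' a < F.Y a} : Finset _) \
      ({c' : Fin m | F.live a c' ∧ F.lt a c' c} : Finset _))) = 0 := by rw [h1]; rfl
  have h4 : (({c' : Fin m | F.live a c' ∧ F.lt a c' c} : Finset _) \
      ({c' : Fin m | F.live a c' ∧ F.H c' a < F.Y a} : Finset _)) ⊆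
      ({c' : Fin m | c' ≠ c ∧ a ∈ F.Vx c ∧ F.live a c' ∧ F.H c' a = F.Y a} : Finset _) := by
    intro x hx
    obtain ⟨h2, h3⟩ := mem_sdiff.mp hx
    have h2' := (mem_filter.mp h2).2
    refine mem_filter.mpr ⟨mem_univ _, ?_, hc, h2'.1, ?_⟩
    · rintro rfl
      exact F.lt_irrefl a x h2'.2
    · rcases h2'.2 with h5 | h5
      · exfalso
        apply h3
        rw [F.hY c a hc] at h5
        exact mem_filter.mpr ⟨mem_univ _, h2'.1, h5⟩
      · rw [h5.1, F.hY c a hc]
  have h5 := card_le_card h4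
  rw [h1', add_zero]
  exact h5

/-- cost of an edge: row switches and mismatches at its ends -/
noncomputable def cost (M θ : ℕ) (e : Fin m × ℕ × ℕ) : ℕ :=
  #{i ∈ Ico e.2.1 e.2.2 | F.kap M θ i e.1 ≠ F.kap M θ (i + 1) e.1}
    + (if F.kap M θ e.2.1 e.1 ≠ F.row M θ e.2.1 then 1 else 0)
    + (if F.kap M θ e.2.2 e.1 ≠ F.row M θ e.2.2 then 1 else 0)

theorem sum_cost_le (M : ℕ) (hM : 0 < M) (e : Fin m × ℕ × ℕ) :
    ∑ θ ∈ range M, F.cost M θ e ≤
      ∑ i ∈ Ico e.2.1 e.2.2, Nat.dist (F.R i e.1) (F.R (i + 1) e.1)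
      + Nat.dist (F.R e.2.1 e.1) (F.rho e.2.1) + Nat.dist (F.R e.2.2 e.1) (F.rho e.2.2) := by
  unfold cost
  rw [Finset.sum_add_distrib, Finset.sum_add_distrib]
  refine Nat.add_le_add (Nat.add_le_add ?_ ?_) ?_
  · simp only [Finset.card_filter]
    rw [Finset.sum_comm]
    apply Finset.sum_le_sum
    intro i _
    rw [← Finset.card_filter]
    exact card_offset_dist M hM _ _
  · rw [← Finset.card_filter]
    exact card_offset_dist M hM _ _
  · rw [← Finset.card_filter]
    exact card_offset_dist M hM _ _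

theorem mem_edges {e : Fin m × ℕ × ℕ} : e ∈ F.edges ↔
    (e.2.1 < w ∧ e.2.2 < w) ∧ e.2.1 ∈ F.Vx e.1 ∧ e.2.2 ∈ F.Vx e.1 ∧ e.2.1 < e.2.2 ∧
      ∀ v ∈ F.Vx e.1, ¬ (e.2.1 < v ∧ v < e.2.2) := by
  unfold edges
  simp only [mem_filter, mem_product, mem_univ, mem_range, true_and]

/-- two edges of a chain over the same gap agree -/
theorem edge_unique {e f : Fin m × ℕ × ℕ} (he : e ∈ F.edges) (hf : f ∈ F.edges)
    (hc : e.1 = f.1) {i : ℕ} (h1 : e.2.1 ≤ i) (h2 : i < e.2.2) (h3 : f.2.1 ≤ i) (h4 : i < f.2.2) :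
    e = f := by
  obtain ⟨c, a, b⟩ := e
  obtain ⟨c', a', b'⟩ := f
  simp only at hc h1 h2 h3 h4
  subst hc
  obtain ⟨_, ha, hb, hab, hno⟩ := F.mem_edges.mp he
  obtain ⟨_, ha', hb', hab', hno'⟩ := F.mem_edges.mp hf
  simp only at ha hb hab hno ha' hb' hab' hno'
  have e1 : a = a' := by
    rcases lt_trichotomy a a' with h | h | h
    · exact absurd ⟨h, by omega⟩ (hno a' ha')
    · exact h
    · exact absurd ⟨h, by omega⟩ (hno' a ha)
  have e2 : b = b' := by
    rcases lt_trichotomy b b' with h | h | h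
    · exact absurd ⟨by omega, h⟩ (hno' b hb)
    · exact h
    · exact absurd ⟨by omega, h⟩ (hno b' hb')
  rw [e1, e2]

theorem sum_edges_gap (g : Fin m → ℕ → ℕ) :
    ∑ e ∈ F.edges, ∑ i ∈ Ico e.2.1 e.2.2, g e.1 i ≤
      ∑ c : Fin m, ∑ i ∈ range w, (if F.s c ≤ i ∧ i + 1 ≤ F.t c then g c i else 0) := by
  classical
  rw [Finset.sum_sigma', ← Finset.sum_product' (s := univ) (t := range w)
    (f := fun c i => if F.s c ≤ i ∧ i + 1 ≤ F.t c then g c i else 0)]
  have h1 : ∀ x ∈ F.edges.sigma (fun e => Ico e.2.1 e.2.2),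
      (x.1.1, x.2) ∈ (univ : Finset (Fin m)) ×ˢ range w ∧
      F.s x.1.1 ≤ x.2 ∧ x.2 + 1 ≤ F.t x.1.1 := by
    intro x hx
    obtain ⟨h2, h3⟩ := mem_sigma.mp hx
    obtain ⟨h4, h5, h6, h7, _⟩ := F.mem_edges.mp h2
    have h8 := mem_Ico.mp h3
    have h9 := F.hV _ _ h5
    have h10 := F.hV _ _ h6
    refine ⟨?_, by omega, by omega⟩
    simp only [mem_product, mem_univ, mem_range, true_and]
    omega
  have h2 : ∑ x ∈ F.edges.sigma (fun e => Ico e.2.1 e.2.2), g x.1.1 x.2 =
      ∑ y ∈ (F.edges.sigma (fun e => Ico e.2.1 e.2.2)).image (fun x => (x.1.1, x.2)),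
        (if F.s y.1 ≤ y.2 ∧ y.2 + 1 ≤ F.t y.1 then g y.1 y.2 else 0) := by
    rw [Finset.sum_image]
    · apply Finset.sum_congr rfl
      intro x hx
      rw [if_pos (h1 x hx).2]
    · intro x hx y hy he
      obtain ⟨h2, h3⟩ := mem_sigma.mp (mem_coe.mp hx)
      obtain ⟨h4, h5⟩ := mem_sigma.mp (mem_coe.mp hy)
      obtain ⟨e1, e2⟩ := Prod.mk.inj he
      have h3' := mem_Ico.mp h3
      have h5' := mem_Ico.mp h5
      have e3 : x.1 = y.1 := F.edge_unique h2 h4 e1 (i := x.2) h3'.1 h3'.2 (by omega) (by omega)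
      obtain ⟨x1, x2⟩ := x
      obtain ⟨y1, y2⟩ := y
      simp only at e2 e3
      subst e2 e3
      rfl
  rw [h2]
  apply Finset.sum_le_sum_of_subset
  intro y hy
  obtain ⟨x, hx, rfl⟩ := mem_image.mp hy
  exact (h1 x hx).1

theorem sum_edges_left (g : Fin m → ℕ → ℕ) :
    ∑ e ∈ F.edges, g e.1 e.2.1 ≤
      ∑ c : Fin m, ∑ a ∈ range w, (if a ∈ F.Vx c then g c a else 0) := by
  classical
  rw [← Finset.sum_product' (s := univ) (t := range w)
    (f := fun c a => if a ∈ F.Vx c then g c a else 0)]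
  have h2 : ∑ e ∈ F.edges, g e.1 e.2.1 =
      ∑ y ∈ F.edges.image (fun e => (e.1, e.2.1)), (if y.2 ∈ F.Vx y.1 then g y.1 y.2 else 0) := by
    rw [Finset.sum_image]
    · apply Finset.sum_congr rfl
      intro e he
      rw [if_pos (F.mem_edges.mp he).2.1]
    · intro x hx y hy he
      obtain ⟨e1, e2⟩ := Prod.mk.inj he
      have hx' := F.mem_edges.mp (mem_coe.mp hx)
      have hy' := F.mem_edges.mp (mem_coe.mp hy)
      exact F.edge_unique (mem_coe.mp hx) (mem_coe.mp hy) e1 (i := x.2.1) le_rfl hx'.2.2.2.1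
        e2.ge (by rw [e2]; exact hy'.2.2.2.1)
  rw [h2]
  apply Finset.sum_le_sum_of_subset
  intro y hy
  obtain ⟨x, hx, rfl⟩ := mem_image.mp hy
  have hx' := F.mem_edges.mp hx
  simp only [mem_product, mem_univ, mem_range, true_and]
  exact hx'.1.1

theorem sum_edges_right (g : Fin m → ℕ → ℕ) :
    ∑ e ∈ F.edges, g e.1 e.2.2 ≤
      ∑ c : Fin m, ∑ a ∈ range w, (if a ∈ F.Vx c then g c a else 0) := by
  classical
  rw [← Finset.sum_product' (s := univ) (t := range w)
    (f := fun c a => if a ∈ F.Vx c then g c a else 0)]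
  have h2 : ∑ e ∈ F.edges, g e.1 e.2.2 =
      ∑ y ∈ F.edges.image (fun e => (e.1, e.2.2)), (if y.2 ∈ F.Vx y.1 then g y.1 y.2 else 0) := by
    rw [Finset.sum_image]
    · apply Finset.sum_congr rfl
      intro e he
      rw [if_pos (F.mem_edges.mp he).2.2.1]
    · intro x hx y hy he
      obtain ⟨e1, e2⟩ := Prod.mk.inj he
      have hx' := F.mem_edges.mp (mem_coe.mp hx)
      have hy' := F.mem_edges.mp (mem_coe.mp hy)
      have l1 := hx'.2.2.2.1
      have l2 := hy'.2.2.2.1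
      exact F.edge_unique (mem_coe.mp hx) (mem_coe.mp hy) e1 (i := x.2.2 - 1) (by omega) (by omega)
        (by omega) (by omega)
  rw [h2]
  apply Finset.sum_le_sum_of_subset
  intro y hy
  obtain ⟨x, hx, rfl⟩ := mem_image.mp hy
  have hx' := F.mem_edges.mp hx
  simp only [mem_product, mem_univ, mem_range, true_and]
  exact hx'.1.2

theorem sum_meet : ∑ c : Fin m, ∑ a ∈ range w,
    (if a ∈ F.Vx c then Nat.dist (F.R a c) (F.rho a) else 0) ≤ F.meet := by
  classical
  have h1 : ∀ c : Fin m, ∀ a ∈ range w,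
      (if a ∈ F.Vx c then Nat.dist (F.R a c) (F.rho a) else 0) ≤
      #{c' : Fin m | c' ≠ c ∧ a ∈ F.Vx c ∧ F.live a c' ∧ F.H c' a = F.Y a} := by
    intro c a _
    split_ifs with h
    · exact F.dist_rho_le a c h
    · exact Nat.zero_le _
  refine (Finset.sum_le_sum fun c _ => Finset.sum_le_sum (h1 c)).trans (le_of_eq ?_)
  symm
  exact card_triple (w := w) (fun c' c a => c' ≠ c ∧ a ∈ F.Vx c ∧ F.live a c' ∧ F.H c' a = F.Y a)

/-- the total cost over all offsets -/
theorem total_cost_le (M : ℕ) (hM : 0 < M) :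
    ∑ θ ∈ range M, ∑ e ∈ F.edges, F.cost M θ e ≤ F.alt + 2 * m ^ 2 + 2 * F.meet := by
  classical
  rw [Finset.sum_comm]
  refine (Finset.sum_le_sum fun e _ => F.sum_cost_le M hM e).trans ?_
  rw [Finset.sum_add_distrib, Finset.sum_add_distrib]
  have h1 := F.sum_edges_gap (fun c i => Nat.dist (F.R i c) (F.R (i + 1) c))
  have h2 := F.sum_edges_left (fun c a => Nat.dist (F.R a c) (F.rho a))
  have h3 := F.sum_edges_right (fun c a => Nat.dist (F.R a c) (F.rho a))
  have h4 := F.sum_meet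
  have h5 : ∑ c : Fin m, ∑ i ∈ range w, (if F.s c ≤ i ∧ i + 1 ≤ F.t c then
      Nat.dist (F.R i c) (F.R (i + 1) c) else 0) ≤ F.alt + 2 * m ^ 2 := by
    refine le_trans (le_of_eq ?_) F.sum_dist_le
    apply Finset.sum_congr rfl
    intro c _
    apply Finset.sum_congr rfl
    intro i _
    by_cases h : F.s c ≤ i ∧ i + 1 ≤ F.t c
    · rw [if_pos h, if_pos]
      exact ⟨⟨h.1, by omega⟩, ⟨by omega, h.2⟩⟩
    · rw [if_neg h, if_neg]
      rintro ⟨h6, h7⟩
      exact h ⟨h6.1, h7.2⟩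
  omega

end Fam

end Vale.Agent.P065.U.H792
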