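import Vale.Agent.P065.U.H792.Cell3

/-! P065 upper bound, front end: the cell lemma. -/

set_option autoImplicit false

namespace Vale.Agent.P065.U.H792

open Finset

namespace Fam

variable {w m : ℕ} (F : Fam w m)

theorem kap_const {M θ : ℕ} {e : Fin m × ℕ × ℕ} (he : e.2.1 < e.2.2) (h0 : F.cost M θ e = 0) :
    ∀ i, e.2.1 ≤ i → i ≤ e.2.2 → F.kap M θ i e.1 = F.row M θ e.2.1 := by
  unfold cost at h0
  have h1 : #{i ∈ Ico e.2.1 e.2.2 | F.kap M θ i e.1 ≠ F.kap M θ (i + 1) e.1} = 0 := by omega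
  have h2 : (if F.kap M θ e.2.1 e.1 ≠ F.row M θ e.2.1 then 1 else 0) = 0 := by omega
  have h3 : F.kap M θ e.2.1 e.1 = F.row M θ e.2.1 := by
    by_contra h
    rw [if_pos h] at h2
    omega
  rw [Finset.card_eq_zero, Finset.filter_eq_empty_iff] at h1
  intro i hi
  induction i, hi using Nat.le_induction with
  | base => intro _; exact h3
  | succ i hi ih =>
    intro h4
    have h5 := h1 (mem_Ico.mpr ⟨hi, by omega⟩)
    rw [not_not] at h5
    rw [← h5]
    exact ih (by omega)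

theorem row_eq {M θ : ℕ} {e : Fin m × ℕ × ℕ} (he : e.2.1 < e.2.2) (h0 : F.cost M θ e = 0) :
    F.row M θ e.2.2 = F.row M θ e.2.1 := by
  have h1 := F.kap_const he h0 e.2.2 he.le le_rfl
  unfold cost at h0
  have h2 : (if F.kap M θ e.2.2 e.1 ≠ F.row M θ e.2.2 then 1 else 0) = 0 := by omega
  have h3 : F.kap M θ e.2.2 e.1 = F.row M θ e.2.2 := by
    by_contra h
    rw [if_pos h] at h2
    omega
  rw [← h3, h1]

/-- a tame edge between different cells crosses a wall of its row -/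
theorem exists_wall {M N θ : ℕ} (hN : 0 < N) {e : Fin m × ℕ × ℕ} (he : e ∈ F.edges)
    (h0 : F.cost M θ e = 0) (hc : F.cell M N θ e.2.1 ≠ F.cell M N θ e.2.2) :
    ∃ z, z ∈ F.Z M N θ ∧ e.2.1 < z ∧ z ≤ e.2.2 ∧ F.live z e.1 ∧
      F.kap M θ z e.1 = F.row M θ z := by
  obtain ⟨⟨hw1, hw2⟩, hv1, hv2, hlt, _⟩ := F.mem_edges.mp he
  have hr := F.row_eq hlt h0
  have hk := F.kap_const hlt h0
  have h1 : F.idx M θ e.2.1 < F.idx M θ e.2.2 := F.idx_lt_idx M θ hlt hr.symm
  have h2 : F.idx M θ e.2.1 / N ≠ F.idx M θ e.2.2 / N := by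
    intro h
    apply hc
    unfold cell
    rw [hr, h]
  have h3 : F.idx M θ e.2.1 / N < F.idx M θ e.2.2 / N :=
    lt_of_le_of_ne (Nat.div_le_div_right h1.le) h2
  set k := N * (F.idx M θ e.2.2 / N) with hkd
  have hk1 : k ≤ F.idx M θ e.2.2 := Nat.mul_div_le _ _
  have hk2 : F.idx M θ e.2.1 < k := by
    have := (Nat.div_lt_iff_lt_mul hN).mp h3
    rw [hkd, Nat.mul_comm]
    exact this
  have hz : ∃ z, z ≤ e.2.2 ∧ F.row M θ z = F.row M θ e.2.2 ∧ F.idx M θ z = k := by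
    rcases hk1.lt_or_eq with h3 | h3
    · obtain ⟨p, hp1, hp2, hp3⟩ := F.exists_idx M θ h3
      exact ⟨p, hp1.le, hp2, hp3⟩
    · exact ⟨e.2.2, le_rfl, rfl, h3.symm⟩
  obtain ⟨z, hz1, hz2, hz3⟩ := hz
  have hz4 : e.2.1 < z := by
    by_contra hcon
    rcases (not_lt.mp hcon).lt_or_eq with h5 | h5
    · have := F.idx_lt_idx M θ h5 (hz2.trans hr)
      omega
    · rw [h5] at hz3
      omega
  have hl1 := F.hV _ _ hv1
  have hl2 := F.hV _ _ hv2
  refine ⟨z, ?_, hz4, hz1, ⟨by omega, by omega⟩, ?_⟩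
  · simp only [Z, mem_filter, mem_range]
    exact ⟨by omega, by rw [hz3]; exact Dvd.intro _ rfl, by omega⟩
  · rw [hk z hz4.le hz1, hz2, hr]

/-- number of tame edges between different cells -/
theorem card_tame_le {M N θ : ℕ} (hM : 0 < M) (hN : 0 < N) :
    #{e ∈ F.edges | F.cost M θ e = 0 ∧ F.cell M N θ e.2.1 ≠ F.cell M N θ e.2.2} ≤
      M * (w / N) := by
  classical
  have hch : ∀ e : Fin m × ℕ × ℕ, ∃ z, e ∈ F.edges → F.cost M θ e = 0 →
      F.cell M N θ e.2.1 ≠ F.cell M N θ e.2.2 → z ∈ F.Z M N θ ∧ e.2.1 < z ∧ z ≤ e.2.2 ∧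
        F.live z e.1 ∧ F.kap M θ z e.1 = F.row M θ z := by
    intro e
    by_cases h : e ∈ F.edges ∧ F.cost M θ e = 0 ∧ F.cell M N θ e.2.1 ≠ F.cell M N θ e.2.2
    · obtain ⟨z, hz⟩ := F.exists_wall hN h.1 h.2.1 h.2.2
      exact ⟨z, fun _ _ _ => hz⟩
    · exact ⟨0, fun h1 h2 h3 => absurd ⟨h1, h2, h3⟩ h⟩
  choose f hf using hch
  have h1 : #{e ∈ F.edges | F.cost M θ e = 0 ∧ F.cell M N θ e.2.1 ≠ F.cell M N θ e.2.2} ≤
      #((F.Z M N θ).sigma (fun z => ({c ∈ (univ : Finset (Fin m)) |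
        (F.s c ≤ z ∧ z ≤ F.t c) ∧ F.kap M θ z c = F.row M θ z} : Finset _))) := by
    apply Finset.card_le_card_of_injOn (fun e => ⟨f e, e.1⟩)
    · intro e he
      obtain ⟨he1, he2, he3⟩ := mem_filter.mp (mem_coe.mp he)
      have h2 := hf e he1 he2 he3
      rw [mem_coe, mem_sigma]
      exact ⟨h2.1, mem_filter.mpr ⟨mem_univ _, h2.2.2.2.1, h2.2.2.2.2⟩⟩
    · intro e he e' he' hee
      obtain ⟨he1, he2, he3⟩ := mem_filter.mp (mem_coe.mp he)
      obtain ⟨he1', he2', he3'⟩ := mem_filter.mp (mem_coe.mp he')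
      have h2 := hf e he1 he2 he3
      have h2' := hf e' he1' he2' he3'
      simp only [Sigma.mk.injEq, heq_eq_eq] at hee
      obtain ⟨g1, g2⟩ := hee
      have := h2.2.1
      have := h2.2.2.1
      have := h2'.2.1
      have := h2'.2.2.1
      exact F.edge_unique he1 he1' g2 (i := f e - 1) (by omega) (by omega) (by omega) (by omega)
  refine h1.trans ?_
  rw [Finset.card_sigma]
  calc ∑ z ∈ F.Z M N θ, #({c ∈ (univ : Finset (Fin m)) |
        (F.s c ≤ z ∧ z ≤ F.t c) ∧ F.kap M θ z c = F.row M θ z} : Finset _)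
      ≤ ∑ _z ∈ F.Z M N θ, M := Finset.sum_le_sum fun z _ => F.card_wall_le M θ hM z
    _ = #(F.Z M N θ) * M := by rw [Finset.sum_const, smul_eq_mul]
    _ ≤ M * (w / N) := by
        have h2 := F.card_Z M N θ hN
        have h3 : #(F.Z M N θ) ≤ w / N := by
          rw [Nat.le_div_iff_mul_le hN]
          linarith [Nat.mul_comm N #(F.Z M N θ)]
        rw [Nat.mul_comm]
        exact Nat.mul_le_mul_left _ h3

/-- **Cell lemma.**  For all `M, N ≥ 1` the points can be coloured by cells so that every cell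
has at most `N` points, there are at most `m / M + 2 + w / N` cells, and few edges of the chains
join different cells. -/
theorem cells (M N : ℕ) (hM : 0 < M) (hN : 0 < N) :
    ∃ cell : ℕ → ℕ × ℕ, (∀ q, #{a ∈ range w | cell a = q} ≤ N) ∧
      #((range w).image cell) ≤ m / M + 2 + w / N ∧
      M * #{e ∈ F.edges | cell e.2.1 ≠ cell e.2.2} ≤
        F.alt + 2 * m ^ 2 + 2 * F.meet + M * (M * (w / N)) := by
  classical
  obtain ⟨θ, hθ, hle⟩ : ∃ θ ∈ range M, M * ∑ e ∈ F.edges, F.cost M θ e ≤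
      F.alt + 2 * m ^ 2 + 2 * F.meet := by
    by_contra hcon
    push Not at hcon
    have h1 := F.total_cost_le M hM
    have h2 : ∑ _θ ∈ range M, (F.alt + 2 * m ^ 2 + 2 * F.meet) <
        ∑ θ ∈ range M, M * ∑ e ∈ F.edges, F.cost M θ e := by
      apply Finset.sum_lt_sum_of_nonempty
      · exact ⟨0, mem_range.mpr hM⟩
      · exact hcon
    rw [← Finset.mul_sum, Finset.sum_const, card_range, smul_eq_mul] at h2
    exact absurd (Nat.mul_le_mul_left M h1) (not_le.mpr h2)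
  refine ⟨F.cell M N θ, F.card_cell_le M N θ hN,
    F.card_cells_le M N θ hM hN (mem_range.mp hθ), ?_⟩
  have h1 : #{e ∈ F.edges | F.cell M N θ e.2.1 ≠ F.cell M N θ e.2.2} ≤
      ∑ e ∈ F.edges, F.cost M θ e + M * (w / N) := by
    have h2 : ({e ∈ F.edges | F.cell M N θ e.2.1 ≠ F.cell M N θ e.2.2} : Finset _) ⊆
        ({e ∈ F.edges | F.cost M θ e ≠ 0} : Finset _) ∪
        ({e ∈ F.edges | F.cost M θ e = 0 ∧ F.cell M N θ e.2.1 ≠ F.cell M N θ e.2.2} :
          Finset _) := by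
      intro e he
      obtain ⟨he1, he2⟩ := mem_filter.mp he
      by_cases h3 : F.cost M θ e = 0
      · exact mem_union_right _ (mem_filter.mpr ⟨he1, h3, he2⟩)
      · exact mem_union_left _ (mem_filter.mpr ⟨he1, h3⟩)
    refine (card_le_card h2).trans ((card_union_le _ _).trans (Nat.add_le_add ?_ ?_))
    · rw [Finset.card_filter]
      apply Finset.sum_le_sum
      intro e _
      split_ifs with h3
      · omega
      · omega
    · exact F.card_tame_le hM hN
  calc M * #{e ∈ F.edges | F.cell M N θ e.2.1 ≠ F.cell M N θ e.2.2}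
      ≤ M * (∑ e ∈ F.edges, F.cost M θ e + M * (w / N)) := Nat.mul_le_mul_left _ h1
    _ = M * ∑ e ∈ F.edges, F.cost M θ e + M * (M * (w / N)) := Nat.mul_add _ _ _
    _ ≤ _ := Nat.add_le_add_right hle _

end Fam

end Vale.Agent.P065.U.H792
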