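import Vale.Agent.P065.U.H792.Cell4
import Vale.Agent.P065.UB.Defs

/-! P065 upper bound, front end: from the chains to the cells (`StCells`). -/

set_option autoImplicit false

namespace Vale.Agent.P065.U.H792

open Finset Vale.Agent.P065.UB

/-- **CHAINS**: the edges inside `Q` with slope in `I` are the edges of a family of chains with few
order changes and few meetings. -/
def StChains : Prop :=
  ∀ (P : Finset Pt) (k : ℕ) (Q : Finset Pt) (I : Set ℝ), Good P → Q ⊆ P → I.OrdConnected →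
    ∃ (m : ℕ) (pt : ℕ → Pt) (F : Fam #(Tch P k Q I) m),
      m ≤ #(Tch P k Q I) + #(EdBd P k Q I) ∧
      (∀ v ∈ Tch P k Q I, ∃ i, i < #(Tch P k Q I) ∧ pt i = v) ∧
      F.alt + 2 * m ^ 2 + 2 * F.meet ≤ 100 * (#(Tch P k Q I) + #(EdBd P k Q I)) ^ 2 ∧
      ∀ e ∈ EdIn P k Q I, ∃ (c : Fin m) (a b : ℕ), (c, a, b) ∈ F.edges ∧ pt a = e.1 ∧ pt b = e.2

/-- pull back a colouring of the indices to the points -/
theorem transfer {w : ℕ} {T : Finset Pt} (hw : #T = w) {pt : ℕ → Pt}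
    (hpt : ∀ v ∈ T, ∃ i, i < w ∧ pt i = v) (hsub : ∀ i, i < w → pt i ∈ T) :
    ∃ ix : Pt → ℕ, (∀ v ∈ T, ix v < w ∧ pt (ix v) = v) ∧ (∀ i, i < w → ix (pt i) = i) := by
  classical
  have hch : ∀ v : Pt, ∃ i, v ∈ T → i < w ∧ pt i = v := by
    intro v
    by_cases h : v ∈ T
    · obtain ⟨i, hi⟩ := hpt v h
      exact ⟨i, fun _ => hi⟩
    · exact ⟨0, fun h' => absurd h' h⟩
  choose ix hix using hch
  refine ⟨ix, hix, ?_⟩
  intro i hi
  have h1 : Set.InjOn pt (range w : Set ℕ) := by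
    have h2 : (range w).image pt = T := by
      apply Finset.Subset.antisymm
      · intro v hv
        obtain ⟨i, hi, rfl⟩ := mem_image.mp hv
        exact hsub i (mem_range.mp hi)
      · intro v hv
        obtain ⟨i, hi, rfl⟩ := hpt v hv
        exact mem_image_of_mem _ (mem_range.mpr hi)
    apply Finset.injOn_of_card_image_eq
    rw [h2, hw, card_range]
  have h3 := hix (pt i) (hsub i hi)
  exact h1 (by simpa using h3.1) (by simpa using hi) h3.2

theorem pt_mem {w : ℕ} {T : Finset Pt} (hw : #T = w) {pt : ℕ → Pt}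
    (hpt : ∀ v ∈ T, ∃ i, i < w ∧ pt i = v) : ∀ i, i < w → pt i ∈ T := by
  classical
  have h1 : T ⊆ (range w).image pt := by
    intro v hv
    obtain ⟨i, hi, rfl⟩ := hpt v hv
    exact mem_image_of_mem _ (mem_range.mpr hi)
  have h2 : #((range w).image pt) ≤ #T := by
    rw [hw]
    exact card_image_le.trans (by simp)
  have h3 := Finset.eq_of_subset_of_card_le h1 h2
  intro i hi
  rw [h3]
  exact mem_image_of_mem _ (mem_range.mpr hi)

/-- the cell lemma for points and edges -/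
theorem cells_of_fam {T : Finset Pt} {E : Finset (Pt × Pt)} {m : ℕ} (pt : ℕ → Pt) (F : Fam #T m)
    (hpt : ∀ v ∈ T, ∃ i, i < #T ∧ pt i = v)
    (hE : ∀ e ∈ E, ∃ (c : Fin m) (a b : ℕ), (c, a, b) ∈ F.edges ∧ pt a = e.1 ∧ pt b = e.2)
    (H N0 : ℕ) (hH : 0 < H) (hN0 : 0 < N0) :
    ∃ cell : Pt → ℕ × ℕ, (∀ c, #{v ∈ T | cell v = c} ≤ N0) ∧
      #(T.image cell) ≤ m / H + 2 + #T / N0 ∧
      H * #{e ∈ E | cell e.1 ≠ cell e.2} ≤
        F.alt + 2 * m ^ 2 + 2 * F.meet + H * (H * (#T / N0)) := by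
  classical
  have hmem := pt_mem (w := #T) rfl hpt
  obtain ⟨ix, hix1, hix2⟩ := transfer (w := #T) rfl hpt hmem
  obtain ⟨cell, hc1, hc2, hc3⟩ := F.cells H N0 hH hN0
  refine ⟨fun v => cell (ix v), ?_, ?_, ?_⟩
  · intro c
    refine le_trans ?_ (hc1 c)
    apply Finset.card_le_card_of_injOn ix
    · intro v hv
      obtain ⟨h1, h2⟩ := mem_filter.mp (mem_coe.mp hv)
      exact mem_coe.mpr (mem_filter.mpr ⟨mem_range.mpr (hix1 v h1).1, h2⟩)
    · intro v hv v' hv' he
      obtain ⟨h1, _⟩ := mem_filter.mp (mem_coe.mp hv)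
      obtain ⟨h1', _⟩ := mem_filter.mp (mem_coe.mp hv')
      rw [← (hix1 v h1).2, ← (hix1 v' h1').2, he]
  · have h1 : T.image (fun v => cell (ix v)) ⊆ (range #T).image cell := by
      intro q hq
      obtain ⟨v, hv, rfl⟩ := mem_image.mp hq
      exact mem_image_of_mem _ (mem_range.mpr (hix1 v hv).1)
    exact (card_le_card h1).trans hc2
  · have h1 : ({e ∈ E | cell (ix e.1) ≠ cell (ix e.2)} : Finset _) ⊆
        ({e ∈ F.edges | cell e.2.1 ≠ cell e.2.2} : Finset _).image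
          (fun f => (pt f.2.1, pt f.2.2)) := by
      intro e he
      obtain ⟨h1, h2⟩ := mem_filter.mp he
      obtain ⟨c, a, b, g1, g2, g3⟩ := hE e h1
      have g4 := (F.mem_edges.mp g1).1
      refine mem_image.mpr ⟨(c, a, b), mem_filter.mpr ⟨g1, ?_⟩, ?_⟩
      · rw [← g2, ← g3, hix2 _ g4.1, hix2 _ g4.2] at h2
        exact h2
      · simp only [g2, g3]
    exact (Nat.mul_le_mul_left H ((card_le_card h1).trans card_image_le)).trans hc3

theorem stCells_of (hC : StChains) : StCells := by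
  classical
  intro P k Q I hP hQ hI B H N0 hB hH hN0
  obtain ⟨m, pt, F, hm, hpt, hX, hE⟩ := hC P k Q I hP hQ hI
  obtain ⟨cell, hc1, hc2, hc3⟩ := cells_of_fam pt F hpt hE H N0 hH hN0
  refine ⟨cell, ?_, ?_, ?_⟩
  · intro c
    convert hc1 c using 2
  · have h3 : m / H * H ≤ m := Nat.div_mul_le_self _ _
    have h4 : #(Tch P k Q I) / N0 * N0 ≤ #(Tch P k Q I) := Nat.div_mul_le_self _ _
    calc #((Tch P k Q I).image cell) * H * N0
        ≤ (m / H + 2 + #(Tch P k Q I) / N0) * H * N0 := by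
          refine Nat.mul_le_mul_right _ (Nat.mul_le_mul_right _ ?_)
          convert hc2 using 2
      _ = (#(Tch P k Q I) / N0 * N0) * H + ((m / H * H) + 2 * H) * N0 := by ring
      _ ≤ #(Tch P k Q I) * H + (B + 2 * H) * N0 :=
          Nat.add_le_add (Nat.mul_le_mul_right _ h4)
            (Nat.mul_le_mul_right _ (Nat.add_le_add_right (h3.trans (hm.trans hB)) _))
  · have h2 : H * #{e ∈ EdIn P k Q I | cell e.1 ≠ cell e.2} ≤
        100 * B ^ 2 + H * (H * (#(Tch P k Q I) / N0)) := by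
      refine hc3.trans ?_
      apply Nat.add_le_add_right
      exact hX.trans (Nat.mul_le_mul_left _ (Nat.pow_le_pow_left hB 2))
    have h4 : #(Tch P k Q I) / N0 * N0 ≤ #(Tch P k Q I) := Nat.div_mul_le_self _ _
    calc #{e ∈ EdIn P k Q I | cell e.1 ≠ cell e.2} * H * N0
        = (H * #{e ∈ EdIn P k Q I | cell e.1 ≠ cell e.2}) * N0 := by ring
      _ ≤ (100 * B ^ 2 + H * (H * (#(Tch P k Q I) / N0))) * N0 := Nat.mul_le_mul_right _ h2
      _ = 100 * B ^ 2 * N0 + H ^ 2 * (#(Tch P k Q I) / N0 * N0) := by ring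
      _ ≤ 100 * B ^ 2 * N0 + H ^ 2 * #(Tch P k Q I) :=
          Nat.add_le_add_left (Nat.mul_le_mul_left _ h4) _
      _ = 100 * B ^ 2 * N0 + #(Tch P k Q I) * H ^ 2 := by ring
      _ ≤ _ := Nat.le_add_right _ _

end Vale.Agent.P065.U.H792
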