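import Vale.Agent.P065.U.H792.Chains

/-! P065 upper bound, front end: the local form of Dey's bound from the chains. -/

set_option autoImplicit false

namespace Vale.Agent.P065.U.H792

open Finset Vale.Agent.P065.UB

/-- edges inside cells -/
theorem card_same_le {T : Finset Pt} {E : Finset (Pt × Pt)} (hET : ∀ e ∈ E, e.1 ∈ T ∧ e.2 ∈ T)
    (cell : Pt → ℕ × ℕ) (N0 : ℕ) (hc : ∀ c, #{v ∈ T | cell v = c} ≤ N0) :
    #{e ∈ E | cell e.1 = cell e.2} ≤ #T * N0 := by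
  classical
  have h1 : #{e ∈ E | cell e.1 = cell e.2} ≤
      #(T.sigma (fun v => ({u ∈ T | cell u = cell v} : Finset Pt))) := by
    apply Finset.card_le_card_of_injOn (fun e => ⟨e.1, e.2⟩)
    · intro e he
      obtain ⟨h1, h2⟩ := mem_filter.mp (mem_coe.mp he)
      have h3 := hET e h1
      rw [mem_coe, mem_sigma]
      exact ⟨h3.1, mem_filter.mpr ⟨h3.2, h2.symm⟩⟩
    · intro e _ e' _ hee
      simp only [Sigma.mk.injEq, heq_eq_eq] at hee
      exact Prod.ext hee.1 hee.2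
  refine h1.trans ?_
  rw [Finset.card_sigma]
  calc ∑ v ∈ T, #({u ∈ T | cell u = cell v} : Finset Pt) ≤ ∑ _v ∈ T, N0 :=
        Finset.sum_le_sum fun v _ => hc (cell v)
    _ = #T * N0 := by rw [Finset.sum_const, smul_eq_mul]

/-- the arithmetic of the local bound -/
theorem dey_arith (w B E : ℕ) (hw : 1 ≤ w) (hwB : w ≤ B) (hE2 : E ≤ w * w)
    (h : ∀ H N0 : ℕ, 0 < H → 0 < N0 → ∃ bad : ℕ, E ≤ bad + w * N0 ∧
      H * bad ≤ 100 * B ^ 2 + H * (H * (w / N0))) :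
    (E : ℝ) ≤ 104 * ((w : ℝ) * B) ^ (2 / 3 : ℝ) := by
  have hw0 : (0 : ℝ) < w := by exact_mod_cast hw
  have hB0 : (0 : ℝ) < B := lt_of_lt_of_le hw0 (by exact_mod_cast hwB)
  set a : ℝ := (w : ℝ) ^ (1 / 3 : ℝ) with ha
  set b : ℝ := (B : ℝ) ^ (1 / 3 : ℝ) with hb
  have ha0 : 0 < a := Real.rpow_pos_of_pos hw0 _
  have hb0 : 0 < b := Real.rpow_pos_of_pos hB0 _
  have ha3 : a ^ 3 = w := by
    rw [ha, ← Real.rpow_natCast, ← Real.rpow_mul hw0.le]
    norm_num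
  have hb3 : b ^ 3 = B := by
    rw [hb, ← Real.rpow_natCast, ← Real.rpow_mul hB0.le]
    norm_num
  have hX : ((w : ℝ) * B) ^ (2 / 3 : ℝ) = a ^ 2 * b ^ 2 := by
    rw [Real.mul_rpow hw0.le hB0.le, ha, hb, ← Real.rpow_natCast, ← Real.rpow_mul hw0.le,
      ← Real.rpow_natCast, ← Real.rpow_mul hB0.le]
    norm_num
  rw [hX]
  have ha1 : 1 ≤ a := by
    by_contra hcon
    have h1 : a ^ 3 < 1 := pow_lt_one₀ ha0.le (not_le.mp hcon) (by norm_num)
    rw [ha3] at h1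
    have h2 : (1 : ℝ) ≤ w := by exact_mod_cast hw
    linarith
  have hab : a ≤ b := by
    rw [ha, hb]
    exact Real.rpow_le_rpow hw0.le (by exact_mod_cast hwB) (by norm_num)
  rcases le_or_gt (a ^ 2) b with hc | hc
  · -- trivial bound
    have h1 : (E : ℝ) ≤ w * w := by exact_mod_cast hE2
    rw [← ha3] at h1
    have h2 : a ^ 3 * a ^ 3 = a ^ 2 * (a ^ 2) ^ 2 := by ring
    have h3 : a ^ 2 * (a ^ 2) ^ 2 ≤ a ^ 2 * b ^ 2 := by
      apply mul_le_mul_of_nonneg_left _ (by positivity)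
      exact pow_le_pow_left₀ (by positivity) hc 2
    have h4 : 0 ≤ a ^ 2 * b ^ 2 := by positivity
    linarith
  · set x : ℝ := b ^ 4 / a ^ 2 with hx
    set y : ℝ := b ^ 2 / a with hy
    have hx1 : 1 ≤ x := by
      rw [hx, le_div_iff₀ (by positivity)]
      have h1 : a ^ 2 ≤ b ^ 2 := pow_le_pow_left₀ ha0.le hab 2
      have h2 : 1 ≤ b ^ 2 := one_le_pow₀ (ha1.trans hab)
      nlinarith
    have hy1 : 1 ≤ y := by
      rw [hy, le_div_iff₀ ha0]
      have h2 : 1 ≤ b := ha1.trans hab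
      nlinarith
    obtain ⟨bad, h1, h2⟩ := h ⌈x⌉₊ ⌈y⌉₊ (Nat.ceil_pos.mpr (by linarith))
      (Nat.ceil_pos.mpr (by linarith))
    have hH1 : x ≤ ⌈x⌉₊ := Nat.le_ceil x
    have hH2 : (⌈x⌉₊ : ℝ) ≤ 2 * x := by
      have := Nat.ceil_lt_add_one (by linarith : (0 : ℝ) ≤ x)
      linarith
    have hN1 : y ≤ ⌈y⌉₊ := Nat.le_ceil y
    have hN2 : (⌈y⌉₊ : ℝ) ≤ 2 * y := by
      have := Nat.ceil_lt_add_one (by linarith : (0 : ℝ) ≤ y)
      linarith
    have h3 : (E : ℝ) ≤ bad + w * (⌈y⌉₊ : ℝ) := by exact_mod_cast h1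
    have h4 : (⌈x⌉₊ : ℝ) * bad ≤
        100 * (B : ℝ) ^ 2 + (⌈x⌉₊ : ℝ) * ((⌈x⌉₊ : ℝ) * ((w / ⌈y⌉₊ : ℕ) : ℝ)) := by
      exact_mod_cast h2
    set H : ℝ := (⌈x⌉₊ : ℝ) with hHd
    have hH0 : 0 < H := by linarith
    have h5 : ((w / ⌈y⌉₊ : ℕ) : ℝ) ≤ w / y := by
      calc ((w / ⌈y⌉₊ : ℕ) : ℝ) ≤ (w : ℝ) / (⌈y⌉₊ : ℝ) := Nat.cast_div_le
        _ ≤ w / y := by
            apply div_le_div_of_nonneg_left hw0.le (by linarith) hN1
    have h6 : (bad : ℝ) ≤ 100 * (B : ℝ) ^ 2 / x + 2 * x * (w / y) := by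
      have h7 : H * bad ≤ H * (100 * (B : ℝ) ^ 2 / x + 2 * x * (w / y)) := by
        refine h4.trans ?_
        rw [mul_add]
        have hy0 : 0 < y := by linarith
        have hx0 : 0 < x := by linarith
        have g1 : 100 * (B : ℝ) ^ 2 ≤ H * (100 * (B : ℝ) ^ 2 / x) := by
          rw [← mul_div_assoc, le_div_iff₀ hx0, mul_comm H]
          exact mul_le_mul_of_nonneg_left hH1 (by positivity)
        have g2 : H * (H * ((w / ⌈y⌉₊ : ℕ) : ℝ)) ≤ H * (2 * x * (w / y)) := by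
          apply mul_le_mul_of_nonneg_left _ hH0.le
          exact mul_le_mul hH2 h5 (by positivity) (by positivity)
        linarith
      exact le_of_mul_le_mul_left h7 hH0
    have h8 : 100 * (B : ℝ) ^ 2 / x = 100 * (a ^ 2 * b ^ 2) := by
      rw [hx, ← hb3]
      field_simp
    have h9 : 2 * x * ((w : ℝ) / y) = 2 * (a ^ 2 * b ^ 2) := by
      rw [hx, hy, ← ha3]
      field_simp
    have h10 : (w : ℝ) * (2 * y) = 2 * (a ^ 2 * b ^ 2) := by
      rw [hy, ← ha3]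
      field_simp
    have h11 : (w : ℝ) * (⌈y⌉₊ : ℝ) ≤ w * (2 * y) := mul_le_mul_of_nonneg_left hN2 hw0.le
    rw [h8, h9] at h6
    rw [h10] at h11
    linarith

theorem edIn_tch {P : Finset Pt} {k : ℕ} {Q : Finset Pt} {I : Set ℝ} :
    ∀ e ∈ EdIn P k Q I, e.1 ∈ Tch P k Q I ∧ e.2 ∈ Tch P k Q I := by
  classical
  intro e he
  have h1 : e.1 ∈ Q ∧ e.2 ∈ Q := by
    have := (mem_filter.mp he).2
    exact ⟨this.1, this.2.1⟩
  exact ⟨mem_filter.mpr ⟨h1.1, e, he, Or.inl rfl⟩, mem_filter.mpr ⟨h1.2, e, he, Or.inr rfl⟩⟩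

theorem stDey_of (hC : StChains) : StDey := by
  classical
  refine ⟨104, by norm_num, ?_⟩
  intro P k Q I hP hQ hI
  obtain ⟨m, pt, F, hm, hpt, hX, hE⟩ := hC P k Q I hP hQ hI
  have hE2 : #(EdIn P k Q I) ≤ #(Tch P k Q I) * #(Tch P k Q I) := by
    rw [← card_product]
    apply card_le_card
    intro e he
    exact mem_product.mpr (edIn_tch e he)
  rcases Nat.eq_zero_or_pos #(Tch P k Q I) with h0 | h0
  · rw [h0] at hE2
    have h1 : #(EdIn P k Q I) = 0 := by omega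
    rw [h1]
    simp only [Nat.cast_zero]
    positivity
  · have h1 := dey_arith #(Tch P k Q I) (#(Tch P k Q I) + #(EdBd P k Q I)) #(EdIn P k Q I) h0
      (Nat.le_add_right _ _) hE2 (by
        intro H N0 hH hN0
        obtain ⟨cell, hc1, hc2, hc3⟩ := cells_of_fam pt F hpt hE H N0 hH hN0
        refine ⟨#{e ∈ EdIn P k Q I | cell e.1 ≠ cell e.2}, ?_, ?_⟩
        · have h2 := card_same_le edIn_tch cell N0 hc1
          have h3 := Finset.card_filter_add_card_filter_not (s := EdIn P k Q I)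
            (p := fun e => cell e.1 = cell e.2)
          have h4 : #{e ∈ EdIn P k Q I | ¬ cell e.1 = cell e.2} =
              #{e ∈ EdIn P k Q I | cell e.1 ≠ cell e.2} := rfl
          omega
        · exact hc3.trans (Nat.add_le_add_right hX _))
    refine h1.trans (le_of_eq ?_)
    push_cast
    rfl

end Vale.Agent.P065.U.H792
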