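import Vale.Agent.P065.U.H792.Chains
import Vale.Agent.P065.UB.CrossDef

/-! P065 upper bound, front end: the chain functions of the pieces. -/

set_option autoImplicit false

namespace Vale.Agent.P065.U.H792

open Finset Vale.Agent.P065.UB

variable {P : Finset Pt} {k : ℕ} {Q : Finset Pt} {I : Set ℝ}

open Classical in
/-- the edges of the piece `a` -/
noncomputable def Ec (P : Finset Pt) (k : ℕ) (Q : Finset Pt) (I : Set ℝ) (a : Eg) : Finset Eg :=
  {e ∈ EdIn P k Q I | root P k Q I e = a}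

theorem mem_Ec {a e : Eg} : e ∈ Ec P k Q I a ↔ e ∈ EdIn P k Q I ∧ root P k Q I e = a := by
  classical
  unfold Ec
  rw [mem_filter]

theorem self_mem_Ec {a : Eg} (ha : a ∈ Pcs P k Q I) : a ∈ Ec P k Q I a := by
  have h := mem_Pcs.mp ha
  exact mem_Ec.mpr ⟨h.1, root_of_fix h.2⟩

open Classical in
/-- the chain function of the piece `a` -/
noncomputable def fc (P : Finset Pt) (k : ℕ) (Q : Finset Pt) (I : Set ℝ) (a : Eg) (x : ℝ) : ℝ :=
  if h : (Ec P k Q I a).Nonempty then (Ec P k Q I a).sup' h (fun e => Ln e x) else 0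

theorem fc_eq (hP : Good P) {a e : Eg} (he : e ∈ Ec P k Q I a) {x : ℝ} (h1 : e.1.1 ≤ x)
    (h2 : x ≤ e.2.1) : fc P k Q I a x = Ln e x := by
  classical
  unfold fc
  rw [dif_pos ⟨e, he⟩]
  apply le_antisymm
  · apply Finset.sup'_le
    intro f hf
    have h3 : root P k Q I e = root P k Q I f :=
      (mem_Ec.mp he).2.trans (mem_Ec.mp hf).2.symm
    rcases compar hP h3 with h4 | h4 | h4
    · rw [h4]
    · exact h4.left x h2
    · exact h4.right x h1
  · exact Finset.le_sup' (fun e => Ln e x) he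

theorem fc_cont (a : Eg) : Continuous (fc P k Q I a) := by
  classical
  by_cases h : (Ec P k Q I a).Nonempty
  · have h1 : fc P k Q I a = fun x => (Ec P k Q I a).sup' h (fun e => Ln e x) := by
      funext x
      unfold fc
      rw [dif_pos h]
    rw [h1]
    apply Continuous.finset_sup'_apply
    intro e _
    unfold Ln
    fun_prop
  · have h1 : fc P k Q I a = fun _ => (0 : ℝ) := by
      funext x
      unfold fc
      rw [dif_neg h]
    rw [h1]
    exact continuous_const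

/-- the ranges of the edges of a piece fill an interval -/
theorem contig (hP : Good P) {a e g : Eg} (he : e ∈ Ec P k Q I a) (hg : g ∈ Ec P k Q I a) {x : ℝ}
    (h1 : e.1.1 ≤ x) (h2 : x ≤ g.2.1) : ∃ f ∈ Ec P k Q I a, f.1.1 ≤ x ∧ x ≤ f.2.1 := by
  classical
  have hne : ((Ec P k Q I a).filter (fun f => f.1.1 ≤ x)).Nonempty :=
    ⟨e, mem_filter.mpr ⟨he, h1⟩⟩
  obtain ⟨f, hf, hmax⟩ := exists_max_image _ (fun f : Eg => f.1.1) hne
  obtain ⟨hf1, hf2⟩ := mem_filter.mp hf
  refine ⟨f, hf1, hf2, ?_⟩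
  by_contra hcon
  push Not at hcon
  have h3 : root P k Q I f = root P k Q I g := (mem_Ec.mp hf1).2.trans (mem_Ec.mp hg).2.symm
  have hlt := EdIn.lt (mem_Ec.mp hf1).1
  rcases compar hP h3 with h4 | h4 | h4
  · rw [h4] at hcon
    linarith
  · obtain ⟨b, h5, h6⟩ := Relation.TransGen.head'_iff.mp h4
    have h7 : b.1 = f.2 := h5.2.2.1.symm
    have h8 : b ∈ (Ec P k Q I a).filter (fun f => f.1.1 ≤ x) := by
      refine mem_filter.mpr ⟨mem_Ec.mpr ⟨h5.2.1, ?_⟩, ?_⟩
      · rw [← root_NxE hP h5]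
        exact (mem_Ec.mp hf1).2
      · rw [h7]
        exact hcon.le
    have h9 := hmax b h8
    rw [h7] at h9
    linarith
  · have h5 := h4.range
    linarith

/-- a sorted list of the points -/
theorem exists_sorted (T : Finset Pt) (hT : ∀ p ∈ T, ∀ q ∈ T, p.1 = q.1 → p = q) :
    ∃ pt : ℕ → Pt, (∀ i, i < #T → pt i ∈ T) ∧
      (∀ i j, i < j → j < #T → (pt i).1 < (pt j).1) ∧ (∀ v ∈ T, ∃ i, i < #T ∧ pt i = v) := by
  classical
  have hcard : #(T.image Prod.fst) = #T := by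
    apply Finset.card_image_of_injOn
    intro p hp q hq h
    exact hT p (mem_coe.mp hp) q (mem_coe.mp hq) h
  set φ := (T.image Prod.fst).orderEmbOfFin hcard with hφ
  have hch : ∀ i : ℕ, ∃ p : Pt, ∀ h : i < #T, p ∈ T ∧ p.1 = φ ⟨i, h⟩ := by
    intro i
    by_cases h : i < #T
    · have h1 := Finset.orderEmbOfFin_mem (T.image Prod.fst) hcard ⟨i, h⟩
      obtain ⟨p, hp, hp'⟩ := mem_image.mp h1
      exact ⟨p, fun _ => ⟨hp, hp'⟩⟩
    · exact ⟨(0, 0), fun h' => absurd h' h⟩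
  choose pt hpt using hch
  refine ⟨pt, fun i hi => (hpt i hi).1, ?_, ?_⟩
  · intro i j hij hj
    rw [(hpt i (hij.trans hj)).2, (hpt j hj).2]
    exact φ.strictMono hij
  · intro v hv
    have h1 : v.1 ∈ T.image Prod.fst := mem_image_of_mem _ hv
    have h2 : Set.range φ = (T.image Prod.fst : Set ℝ) := Finset.range_orderEmbOfFin _ hcard
    have h3 : v.1 ∈ Set.range φ := by
      rw [h2]
      exact mem_coe.mpr h1
    obtain ⟨i, hi⟩ := h3
    refine ⟨i, i.2, ?_⟩
    apply hT _ (hpt i i.2).1 _ hv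
    rw [(hpt i i.2).2, ← hi]

/-- the root of the piece number `c` -/
noncomputable def pc (P : Finset Pt) (k : ℕ) (Q : Finset Pt) (I : Set ℝ)
    (c : Fin #(Pcs P k Q I)) : Eg := ((Pcs P k Q I).equivFin.symm c).1

theorem pc_mem (c : Fin #(Pcs P k Q I)) : pc P k Q I c ∈ Pcs P k Q I :=
  ((Pcs P k Q I).equivFin.symm c).2

theorem pc_inj {c c' : Fin #(Pcs P k Q I)} (h : pc P k Q I c = pc P k Q I c') : c = c' :=
  (Pcs P k Q I).equivFin.symm.injective (Subtype.ext h)

theorem pc_surj {a : Eg} (ha : a ∈ Pcs P k Q I) : ∃ c, pc P k Q I c = a :=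
  ⟨(Pcs P k Q I).equivFin ⟨a, ha⟩, by unfold pc; rw [Equiv.symm_apply_apply]⟩

theorem sum_pc (g : Eg → ℕ) : ∑ c : Fin #(Pcs P k Q I), g (pc P k Q I c) =
    ∑ a ∈ Pcs P k Q I, g a := by
  rw [← Finset.sum_coe_sort (Pcs P k Q I) g]
  exact Equiv.sum_comp ((Pcs P k Q I).equivFin.symm) (fun x => g x.1)

end Vale.Agent.P065.U.H792
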