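import Vale.Agent.P065.U.H792.FamA
import Vale.Agent.P065.U.H792.Dey

/-! P065 upper bound, front end: the family of chains of the pieces. -/

set_option autoImplicit false

namespace Vale.Agent.P065.U.H792

open Finset Vale.Agent.P065.UB

variable {P : Finset Pt} {k : ℕ} {Q : Finset Pt} {I : Set ℝ}

/-- a sorted list of the touched points -/
structure Srt (P : Finset Pt) (k : ℕ) (Q : Finset Pt) (I : Set ℝ) (pt : ℕ → Pt) : Prop where
  good : Good P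
  mem : ∀ i, i < #(Tch P k Q I) → pt i ∈ Tch P k Q I
  mono : ∀ i j, i < j → j < #(Tch P k Q I) → (pt i).1 < (pt j).1
  surj : ∀ v ∈ Tch P k Q I, ∃ i, i < #(Tch P k Q I) ∧ pt i = v

theorem Srt.mono' {pt : ℕ → Pt} (hS : Srt P k Q I pt) {i j : ℕ} (h : i ≤ j)
    (hj : j < #(Tch P k Q I)) : (pt i).1 ≤ (pt j).1 := by
  rcases h.lt_or_eq with h1 | h1
  · exact (hS.mono i j h1 hj).le
  · rw [h1]

theorem Srt.lt_of {pt : ℕ → Pt} (hS : Srt P k Q I pt) {i j : ℕ} (hi : i < #(Tch P k Q I))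
    (h : (pt i).1 < (pt j).1) : i < j := by
  by_contra hcon
  push Not at hcon
  have := hS.mono' hcon hi
  linarith

open Classical in
/-- the vertices of the piece `a` -/
noncomputable def VxE (P : Finset Pt) (k : ℕ) (Q : Finset Pt) (I : Set ℝ) (pt : ℕ → Pt) (a : Eg) :
    Finset ℕ :=
  {i ∈ range #(Tch P k Q I) | ∃ e ∈ Ec P k Q I a, pt i = e.1 ∨ pt i = e.2}

theorem mem_VxE {pt : ℕ → Pt} {a : Eg} {i : ℕ} : i ∈ VxE P k Q I pt a ↔
    i < #(Tch P k Q I) ∧ ∃ e ∈ Ec P k Q I a, pt i = e.1 ∨ pt i = e.2 := by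
  classical
  unfold VxE
  rw [mem_filter, mem_range]

theorem tch_fst {e : Eg} (he : e ∈ EdIn P k Q I) : e.1 ∈ Tch P k Q I := (edIn_tch e he).1

theorem tch_snd {e : Eg} (he : e ∈ EdIn P k Q I) : e.2 ∈ Tch P k Q I := (edIn_tch e he).2

theorem VxE_ne {pt : ℕ → Pt} (hS : Srt P k Q I pt) {a : Eg} (ha : a ∈ Pcs P k Q I) :
    (VxE P k Q I pt a).Nonempty := by
  have h1 := self_mem_Ec ha
  obtain ⟨i, hi, hi'⟩ := hS.surj _ (tch_fst (mem_Ec.mp h1).1)
  exact ⟨i, mem_VxE.mpr ⟨hi, a, h1, Or.inl hi'⟩⟩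

/-- the first and the last vertex -/
noncomputable def sE (P : Finset Pt) (k : ℕ) (Q : Finset Pt) (I : Set ℝ) (pt : ℕ → Pt) (a : Eg) :
    ℕ := sInf (VxE P k Q I pt a : Set ℕ)

open Classical in
noncomputable def tE (P : Finset Pt) (k : ℕ) (Q : Finset Pt) (I : Set ℝ) (pt : ℕ → Pt) (a : Eg) :
    ℕ := if h : (VxE P k Q I pt a).Nonempty then (VxE P k Q I pt a).max' h else 0

theorem sE_mem {pt : ℕ → Pt} (hS : Srt P k Q I pt) {a : Eg} (ha : a ∈ Pcs P k Q I) :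
    sE P k Q I pt a ∈ VxE P k Q I pt a := by
  have h1 := VxE_ne hS ha
  exact mem_coe.mp (Nat.sInf_mem (by exact_mod_cast h1))

theorem tE_mem {pt : ℕ → Pt} (hS : Srt P k Q I pt) {a : Eg} (ha : a ∈ Pcs P k Q I) :
    tE P k Q I pt a ∈ VxE P k Q I pt a := by
  have h1 := VxE_ne hS ha
  unfold tE
  rw [dif_pos h1]
  exact max'_mem _ _

theorem sE_le {pt : ℕ → Pt} {a : Eg} {i : ℕ}
    (hi : i ∈ VxE P k Q I pt a) : sE P k Q I pt a ≤ i :=
  Nat.sInf_le (mem_coe.mpr hi)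

theorem le_tE {pt : ℕ → Pt} {a : Eg} {i : ℕ}
    (hi : i ∈ VxE P k Q I pt a) : i ≤ tE P k Q I pt a := by
  unfold tE
  rw [dif_pos ⟨i, hi⟩]
  exact le_max' _ _ hi

theorem fc_vertex {pt : ℕ → Pt} (hS : Srt P k Q I pt) {a : Eg} {i : ℕ}
    (hi : i ∈ VxE P k Q I pt a) : fc P k Q I a (pt i).1 = (pt i).2 := by
  obtain ⟨_, e, he, h1⟩ := mem_VxE.mp hi
  have h2 := EdIn.lt (mem_Ec.mp he).1
  rcases h1 with h1 | h1
  · rw [h1, fc_eq hS.good he le_rfl h2.le, Ln_fst]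
  · rw [h1, fc_eq hS.good he h2.le le_rfl, Ln_snd e h2]

/-- over the live range there is an edge of the piece -/
theorem live_edge {pt : ℕ → Pt} (hS : Srt P k Q I pt) {a : Eg} (ha : a ∈ Pcs P k Q I) {x : ℝ}
    (h1 : (pt (sE P k Q I pt a)).1 ≤ x) (h2 : x ≤ (pt (tE P k Q I pt a)).1) :
    ∃ f ∈ Ec P k Q I a, f.1.1 ≤ x ∧ x ≤ f.2.1 := by
  obtain ⟨_, e, he, h3⟩ := mem_VxE.mp (sE_mem hS ha)
  obtain ⟨_, g, hg, h4⟩ := mem_VxE.mp (tE_mem hS ha)
  have h5 := EdIn.lt (mem_Ec.mp he).1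
  have h6 := EdIn.lt (mem_Ec.mp hg).1
  apply contig hS.good he hg
  · rcases h3 with h3 | h3
    · rw [h3] at h1; exact h1
    · rw [h3] at h1; linarith
  · rcases h4 with h4 | h4
    · rw [h4] at h2; linarith
    · rw [h4] at h2; exact h2

/-- the family of chains -/
noncomputable def famC {pt : ℕ → Pt} (hS : Srt P k Q I pt) :
    Fam #(Tch P k Q I) #(Pcs P k Q I) where
  s := fun c => sE P k Q I pt (pc P k Q I c)
  t := fun c => tE P k Q I pt (pc P k Q I c)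
  htw := fun c => (mem_VxE.mp (tE_mem hS (pc_mem c))).1
  Vx := fun c => VxE P k Q I pt (pc P k Q I c)
  hV := fun _ _ ha => ⟨sE_le ha, le_tE ha⟩
  H := fun c i => fc P k Q I (pc P k Q I c) (pt i).1
  Y := fun i => (pt i).2
  hY := fun _ _ ha => fc_vertex hS ha

/-- the edges of the family -/
theorem famC_edges {pt : ℕ → Pt} (hS : Srt P k Q I pt) : ∀ e ∈ EdIn P k Q I,
    ∃ (c : Fin #(Pcs P k Q I)) (a b : ℕ), (c, a, b) ∈ (famC hS).edges ∧ pt a = e.1 ∧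
      pt b = e.2 := by
  intro e he
  obtain ⟨c, hc⟩ := pc_surj (root_mem_Pcs he)
  have heC : e ∈ Ec P k Q I (pc P k Q I c) := mem_Ec.mpr ⟨he, hc.symm⟩
  obtain ⟨a, ha, ha'⟩ := hS.surj _ (tch_fst he)
  obtain ⟨b, hb, hb'⟩ := hS.surj _ (tch_snd he)
  have hlt := EdIn.lt he
  have hab : a < b := hS.lt_of ha (by rw [ha', hb']; exact hlt)
  refine ⟨c, a, b, ?_, ha', hb'⟩
  refine (famC hS).mem_edges.mpr ⟨⟨ha, hb⟩, ?_, ?_, hab, ?_⟩
  · exact mem_VxE.mpr ⟨ha, e, heC, Or.inl ha'⟩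
  · exact mem_VxE.mpr ⟨hb, e, heC, Or.inr hb'⟩
  · rintro v hv ⟨hv1, hv2⟩
    obtain ⟨hvw, f, hf, hvf⟩ := mem_VxE.mp hv
    have x1 := hS.mono a v hv1 hvw
    have x2 := hS.mono v b hv2 hb
    rw [ha'] at x1
    rw [hb'] at x2
    have hfl := EdIn.lt (mem_Ec.mp hf).1
    have hr : root P k Q I e = root P k Q I f := (mem_Ec.mp heC).2.trans (mem_Ec.mp hf).2.symm
    rcases compar hS.good hr with h4 | h4 | h4
    · subst h4
      rcases hvf with hvf | hvf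
      · rw [hvf] at x1; exact lt_irrefl _ x1
      · rw [hvf] at x2; exact lt_irrefl _ x2
    · have h5 := h4.range
      rcases hvf with hvf | hvf
      · rw [hvf] at x2; linarith
      · rw [hvf] at x2; linarith
    · have h5 := h4.range
      rcases hvf with hvf | hvf
      · rw [hvf] at x1; linarith
      · rw [hvf] at x1; linarith

end Vale.Agent.P065.U.H792
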