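import Vale.Agent.P065.U.H792.FamB

/-! P065 upper bound, front end: order changes and meetings are crossings; `StCross → StChains`. -/

set_option autoImplicit false

namespace Vale.Agent.P065.U.H792

open Finset Vale.Agent.P065.UB

variable {P : Finset Pt} {k : ℕ} {Q : Finset Pt} {I : Set ℝ}

theorem cross_fin (hX : StCross) (hP : Good P) (hQ : Q ⊆ P) (hI : I.OrdConnected)
    (Z : Fin #(Pcs P k Q I) → Fin #(Pcs P k Q I) → Finset ℝ)
    (hZ : ∀ c' c, c' ≠ c → ∀ z ∈ Z c' c, Crs P k Q I (pc P k Q I c') (pc P k Q I c) z) :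
    ∑ c', ∑ c, (if c' ≠ c then #(Z c' c) else 0) ≤
      2 * #(Pcs P k Q I) ^ 2 + #(Tch P k Q I) ^ 2 := by
  classical
  rcases isEmpty_or_nonempty (Fin #(Pcs P k Q I)) with h | h
  · simp [Finset.univ_eq_empty]
  · set g := Function.invFun (pc P k Q I) with hgd
    have hg : ∀ c, g (pc P k Q I c) = c :=
      Function.leftInverse_invFun (fun c c' h => pc_inj h)
    have h1 := hX P k Q I hP hQ hI (fun a c => Z (g a) (g c)) (by
      intro a ha c hc hac z hz
      obtain ⟨c1, rfl⟩ := pc_surj ha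
      obtain ⟨c2, rfl⟩ := pc_surj hc
      simp only [hg] at hz
      exact hZ c1 c2 (fun h => hac (by rw [h])) z hz)
    refine le_trans (le_of_eq ?_) h1
    rw [Finset.sum_filter, Finset.sum_product, ← sum_pc (fun a => ∑ b ∈ Pcs P k Q I,
      (if a ≠ b then #(Z (g a) (g b)) else 0))]
    apply Finset.sum_congr rfl
    intro c' _
    rw [← sum_pc (fun b => (if pc P k Q I c' ≠ b then #(Z (g (pc P k Q I c')) (g b)) else 0))]
    apply Finset.sum_congr rfl
    intro c _
    rw [hg, hg]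
    by_cases hcc : c' = c
    · subst hcc
      simp
    · rw [if_pos hcc, if_pos (fun h => hcc (pc_inj h))]

theorem card_triple' {w m : ℕ} (Pr : Fin m → Fin m → ℕ → Prop)
    [DecidablePred fun q : Fin m × Fin m × ℕ => Pr q.1 q.2.1 q.2.2]
    [∀ c' c, DecidablePred fun i => Pr c' c i] :
    #{q ∈ (univ : Finset (Fin m)) ×ˢ ((univ : Finset (Fin m)) ×ˢ range w) | Pr q.1 q.2.1 q.2.2}
      = ∑ c' : Fin m, ∑ c : Fin m, #{i ∈ range w | Pr c' c i} := by
  rw [Finset.card_filter, Finset.sum_product]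
  simp only [Finset.card_filter, Finset.sum_product]

/-- a zero of the difference of two chains gives a crossing -/
theorem crs_of {pt : ℕ → Pt} (hS : Srt P k Q I pt) {c' c : Fin #(Pcs P k Q I)} {x : ℝ}
    (h1 : (pt ((famC hS).s c')).1 ≤ x) (h2 : x ≤ (pt ((famC hS).t c')).1)
    (h3 : (pt ((famC hS).s c)).1 ≤ x) (h4 : x ≤ (pt ((famC hS).t c)).1)
    (h : fc P k Q I (pc P k Q I c') x = fc P k Q I (pc P k Q I c) x) :
    Crs P k Q I (pc P k Q I c') (pc P k Q I c) x := by
  obtain ⟨e, he, e1, e2⟩ := live_edge hS (pc_mem c') h1 h2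
  obtain ⟨f, hf, f1, f2⟩ := live_edge hS (pc_mem c) h3 h4
  refine ⟨e, (mem_Ec.mp he).1, f, (mem_Ec.mp hf).1, (mem_Ec.mp he).2, (mem_Ec.mp hf).2, e1, e2,
    f1, f2, ?_⟩
  rw [← fc_eq hS.good he e1 e2, ← fc_eq hS.good hf f1 f2, h]

/-- an order change gives a crossing -/
theorem exists_zero {pt : ℕ → Pt} (hS : Srt P k Q I pt) {c' c : Fin #(Pcs P k Q I)} {i : ℕ}
    (l1 : (famC hS).live i c') (l2 : (famC hS).live (i + 1) c') (l3 : (famC hS).live i c)
    (l4 : (famC hS).live (i + 1) c)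
    (h : ¬ ((famC hS).lt i c' c ↔ (famC hS).lt (i + 1) c' c)) :
    c' ≠ c ∧ ∃ z, (pt i).1 ≤ z ∧ z ≤ (pt (i + 1)).1 ∧
      Crs P k Q I (pc P k Q I c') (pc P k Q I c) z := by
  have hne : c' ≠ c := by
    rintro rfl
    apply h
    exact ⟨fun h' => absurd h' ((famC hS).lt_irrefl _ _),
      fun h' => absurd h' ((famC hS).lt_irrefl _ _)⟩
  refine ⟨hne, ?_⟩
  have hi1 : i + 1 < #(Tch P k Q I) := lt_of_le_of_lt l4.2 ((famC hS).htw c)
  have hx : (pt i).1 ≤ (pt (i + 1)).1 := (hS.mono i (i + 1) (by omega) hi1).le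
  set f := fc P k Q I (pc P k Q I c') with hf
  set g := fc P k Q I (pc P k Q I c) with hg
  have hcont : ContinuousOn (fun x => f x - g x) (Set.Icc (pt i).1 (pt (i + 1)).1) :=
    ((fc_cont _).sub (fc_cont _)).continuousOn
  have hle : ∀ j, (famC hS).lt j c' c → f (pt j).1 ≤ g (pt j).1 := by
    rintro j (h | h)
    · exact h.le
    · exact h.1.le
  have hge : ∀ j, ¬ (famC hS).lt j c' c → g (pt j).1 ≤ f (pt j).1 := by
    intro j hj
    rcases (famC hS).lt_total j hne with h | h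
    · exact absurd h hj
    · rcases h with h | h
      · exact h.le
      · exact h.1.le
  have hz : ∃ z ∈ Set.Icc (pt i).1 (pt (i + 1)).1, f z - g z = 0 := by
    by_cases hc : (famC hS).lt i c' c
    · have hc' : ¬ (famC hS).lt (i + 1) c' c := fun h' => h ⟨fun _ => h', fun _ => hc⟩
      have a1 := hle i hc
      have a2 := hge (i + 1) hc'
      have := intermediate_value_Icc hx hcont
      exact this ⟨by linarith, by linarith⟩
    · have hc' : (famC hS).lt (i + 1) c' c := by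
        by_contra h'
        exact h ⟨fun h'' => absurd h'' hc, fun h'' => absurd h'' h'⟩
      have a1 := hge i hc
      have a2 := hle (i + 1) hc'
      have := intermediate_value_Icc' hx hcont
      exact this ⟨by linarith, by linarith⟩
  obtain ⟨z, ⟨hz1, hz2⟩, hz3⟩ := hz
  refine ⟨z, hz1, hz2, ?_⟩
  have t1 := (famC hS).htw c'
  have t2 := (famC hS).htw c
  have hi : i < #(Tch P k Q I) := by omega
  apply crs_of hS
  · exact (hS.mono' l1.1 hi).trans hz1
  · exact hz2.trans (hS.mono' l2.2 t1)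
  · exact (hS.mono' l3.1 hi).trans hz1
  · exact hz2.trans (hS.mono' l4.2 t2)
  · linarith

theorem alt_le (hX : StCross) (hQ : Q ⊆ P) (hI : I.OrdConnected) {pt : ℕ → Pt}
    (hS : Srt P k Q I pt) :
    (famC hS).alt ≤ 2 * (2 * #(Pcs P k Q I) ^ 2 + #(Tch P k Q I) ^ 2) := by
  classical
  set Pr : Fin #(Pcs P k Q I) → Fin #(Pcs P k Q I) → ℕ → Prop := fun c' c i =>
    (famC hS).live i c' ∧ (famC hS).live (i + 1) c' ∧ (famC hS).live i c ∧
      (famC hS).live (i + 1) c ∧ ¬ ((famC hS).lt i c' c ↔ (famC hS).lt (i + 1) c' c) with hPr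
  have hch : ∀ c' c i, ∃ z, Pr c' c i → c' ≠ c ∧ (pt i).1 ≤ z ∧ z ≤ (pt (i + 1)).1 ∧
      Crs P k Q I (pc P k Q I c') (pc P k Q I c) z := by
    intro c' c i
    by_cases h : Pr c' c i
    · obtain ⟨h1, z, h2⟩ := exists_zero hS h.1 h.2.1 h.2.2.1 h.2.2.2.1 h.2.2.2.2
      exact ⟨z, fun _ => ⟨h1, h2⟩⟩
    · exact ⟨0, fun h' => absurd h' h⟩
  choose ζ hζ using hch
  have h1 : (famC hS).alt = ∑ c', ∑ c, #{i ∈ range #(Tch P k Q I) | Pr c' c i} := by
    unfold Fam.alt
    exact card_triple' (w := #(Tch P k Q I)) Pr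
  have h2 : ∀ c' c, #{i ∈ range #(Tch P k Q I) | Pr c' c i} ≤
      2 * (if c' ≠ c then #(({i ∈ range #(Tch P k Q I) | Pr c' c i} : Finset ℕ).image (ζ c' c))
        else 0) := by
    intro c' c
    by_cases hcc : c' ≠ c
    · rw [if_pos hcc]
      apply Finset.card_le_mul_card_image
      intro z hz
      obtain ⟨i1, hi1, rfl⟩ := mem_image.mp hz
      set S := ({i ∈ ({i ∈ range #(Tch P k Q I) | Pr c' c i} : Finset ℕ) |
        ζ c' c i = ζ c' c i1} : Finset ℕ) with hSd
      have hSne : S.Nonempty := ⟨i1, mem_filter.mpr ⟨hi1, rfl⟩⟩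
      set i0 := S.min' hSne with hi0
      have hi0m : i0 ∈ S := S.min'_mem hSne
      have hsub : S ⊆ {i0, i0 + 1} := by
        intro j hj
        have hge : i0 ≤ j := S.min'_le j hj
        obtain ⟨hj1, hj2⟩ := mem_filter.mp hj
        obtain ⟨hk1, hk2⟩ := mem_filter.mp hi0m
        have hj3 := hζ c' c j (mem_filter.mp hj1).2
        have hk3 := hζ c' c i0 (mem_filter.mp hk1).2
        rw [mem_insert, mem_singleton]
        by_contra hcon
        push Not at hcon
        have hj4 : i0 + 1 < j := by omega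
        have hjw : j < #(Tch P k Q I) := mem_range.mp (mem_filter.mp hj1).1
        have := hS.mono (i0 + 1) j hj4 hjw
        rw [hj2] at hj3
        rw [hk2] at hk3
        linarith [hj3.2.1, hk3.2.2.1]
      exact (card_le_card hsub).trans Finset.card_le_two
    · rw [if_neg hcc]
      have : ({i ∈ range #(Tch P k Q I) | Pr c' c i} : Finset ℕ) = ∅ := by
        rw [Finset.filter_eq_empty_iff]
        intro i _ hi
        exact hcc (hζ c' c i hi).1
      rw [this]
      simp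
  rw [h1]
  refine (Finset.sum_le_sum fun c' _ => Finset.sum_le_sum fun c _ => h2 c' c).trans ?_
  simp only [← Finset.mul_sum]
  apply Nat.mul_le_mul_left
  apply cross_fin hX hS.good hQ hI
  intro c' c _ z hz
  obtain ⟨i, hi, rfl⟩ := mem_image.mp hz
  exact (hζ c' c i (mem_filter.mp hi).2).2.2.2

theorem meet_le (hX : StCross) (hQ : Q ⊆ P) (hI : I.OrdConnected) {pt : ℕ → Pt}
    (hS : Srt P k Q I pt) :
    (famC hS).meet ≤ 2 * #(Pcs P k Q I) ^ 2 + #(Tch P k Q I) ^ 2 := by
  classical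
  set Pr : Fin #(Pcs P k Q I) → Fin #(Pcs P k Q I) → ℕ → Prop := fun c' c a =>
    c' ≠ c ∧ a ∈ (famC hS).Vx c ∧ (famC hS).live a c' ∧ (famC hS).H c' a = (famC hS).Y a with hPr
  have h1 : (famC hS).meet = ∑ c', ∑ c, #{i ∈ range #(Tch P k Q I) | Pr c' c i} := by
    unfold Fam.meet
    exact card_triple' (w := #(Tch P k Q I)) Pr
  have h2 : ∀ c' c, #{i ∈ range #(Tch P k Q I) | Pr c' c i} ≤
      (if c' ≠ c then #(({i ∈ range #(Tch P k Q I) | Pr c' c i} : Finset ℕ).image
        (fun i => (pt i).1)) else 0) := by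
    intro c' c
    by_cases hcc : c' ≠ c
    · rw [if_pos hcc]
      apply le_of_eq
      symm
      apply Finset.card_image_of_injOn
      intro i hi j hj hij
      have hi1 := mem_range.mp (mem_filter.mp (mem_coe.mp hi)).1
      have hj1 := mem_range.mp (mem_filter.mp (mem_coe.mp hj)).1
      rcases lt_trichotomy i j with h | h | h
      · have := hS.mono i j h hj1
        simp only at hij
        linarith
      · exact h
      · have := hS.mono j i h hi1
        simp only at hij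
        linarith
    · rw [if_neg hcc]
      have : ({i ∈ range #(Tch P k Q I) | Pr c' c i} : Finset ℕ) = ∅ := by
        rw [Finset.filter_eq_empty_iff]
        intro i _ hi
        exact hcc hi.1
      rw [this]
      simp
  rw [h1]
  refine (Finset.sum_le_sum fun c' _ => Finset.sum_le_sum fun c _ => h2 c' c).trans ?_
  apply cross_fin hX hS.good hQ hI
  intro c' c _ z hz
  obtain ⟨i, hi, rfl⟩ := mem_image.mp hz
  obtain ⟨hi1, hi2, hi3, hi4, hi5⟩ := mem_filter.mp hi
  have hw := mem_range.mp hi1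
  have hl := (famC hS).hV c i hi3
  have hY := (famC hS).hY c i hi3
  apply crs_of hS
  · exact hS.mono' hi4.1 hw
  · exact hS.mono' hi4.2 ((famC hS).htw c')
  · exact hS.mono' hl.1 hw
  · exact hS.mono' hl.2 ((famC hS).htw c)
  · exact hi5.trans hY.symm

/-- **The chains.** -/
theorem stChains_of (hX : StCross) : StChains := by
  intro P k Q I hP hQ hI
  have hT : ∀ p ∈ Tch P k Q I, ∀ q ∈ Tch P k Q I, p.1 = q.1 → p = q := fun p hp q hq =>
    hP.xinj p (hQ (mem_Tch.mp hp).1) q (hQ (mem_Tch.mp hq).1)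
  obtain ⟨pt, hp1, hp2, hp3⟩ := exists_sorted (Tch P k Q I) hT
  have hS : Srt P k Q I pt := ⟨hP, hp1, hp2, hp3⟩
  have h1 := card_Pcs (P := P) (k := k) (Q := Q) (I := I) ⟨hP, hQ, hI⟩
  have h2 := alt_le hX hQ hI hS
  have h3 := meet_le hX hQ hI hS
  refine ⟨#(Pcs P k Q I), pt, famC hS, h1, hp3, ?_, famC_edges hS⟩
  have h4 : #(Pcs P k Q I) ^ 2 ≤ (#(Tch P k Q I) + #(EdBd P k Q I)) ^ 2 :=
    Nat.pow_le_pow_left h1 2
  have h5 : #(Tch P k Q I) ^ 2 ≤ (#(Tch P k Q I) + #(EdBd P k Q I)) ^ 2 :=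
    Nat.pow_le_pow_left (Nat.le_add_right _ _) 2
  omega

end Vale.Agent.P065.U.H792
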