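import Vale.Agent.P065.U.H792.FamC
import Vale.Agent.P065.UB.Cross

/-! P065 upper bound: the front end, `StChains`, `StCells`, `StDey` as theorems. -/

set_option autoImplicit false

namespace Vale.Agent.P065.UB

theorem stChains : Vale.Agent.P065.U.H792.StChains :=
  Vale.Agent.P065.U.H792.stChains_of stCross

theorem stCells : StCells := Vale.Agent.P065.U.H792.stCells_of stChains

theorem stDey : StDey := Vale.Agent.P065.U.H792.stDey_of stChains

end Vale.Agent.P065.UB
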