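import Vale.Agent.P065.H183.Defs

/-!
# P065, upper bound: number of cells of a list of pencils, from the number of faces (helper792)
-/

set_option autoImplicit false

namespace Vale.Agent.P065.U.H792.Num

open Finset Vale.Agent.P065.UB Vale.Agent.P065.UB.RankAux Vale.Agent.P065.H183

/-- the half-planes of the pencil of `p` -/
noncomputable def hps (Cs : Finset ℝ) (p : Pt) : List (Set Pt) :=
  {z | z.1 < p.1} :: {z | z.1 ≤ p.1} :: (Cs.toList.map fun c => {z : Pt | c * (z.1 - p.1) < z.2 - p.2})

theorem isHalf_hps (Cs : Finset ℝ) (p : Pt) : ∀ H ∈ hps Cs p, IsHalf H := by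
  intro H hH
  unfold hps at hH
  rcases List.mem_cons.mp hH with rfl | hH
  · have h := isHalf_lt 1 0 p.1
    have e : {z : Pt | 1 * z.1 + 0 * z.2 < p.1} = {z : Pt | z.1 < p.1} := by
      ext z
      simp
    rw [← e]
    exact h
  rcases List.mem_cons.mp hH with rfl | hH
  · have h := isHalf_le 1 0 p.1
    have e : {z : Pt | 1 * z.1 + 0 * z.2 ≤ p.1} = {z : Pt | z.1 ≤ p.1} := by
      ext z
      simp
    rw [← e]
    exact h
  · obtain ⟨c, _, rfl⟩ := List.mem_map.mp hH
    have h := isHalf_gt (-c) 1 (p.2 - c * p.1)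
    have e : {z : Pt | p.2 - c * p.1 < -c * z.1 + 1 * z.2}
        = {z : Pt | c * (z.1 - p.1) < z.2 - p.2} := by
      ext z
      simp only [Set.mem_setOf_eq]
      constructor <;> intro h <;> nlinarith
    rw [← e]
    exact h

theorem length_hps (Cs : Finset ℝ) (p : Pt) : (hps Cs p).length = #Cs + 2 := by
  unfold hps
  simp

/-- the half-planes of the pencil determine the label -/
theorem lab_eq {Q : Finset Pt} (hQ : ∀ p ∈ Q, ∀ q ∈ Q, p.1 = q.1 → p = q) {Cs : Finset ℝ} {p : Pt}
    (hp : p ∈ Q) (hC : ∀ z ∈ Q, z ≠ p → sl p z ∉ Cs) {x y : Pt} (hx : x ∈ Q) (hy : y ∈ Q)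
    (h : ∀ H ∈ hps Cs p, (x ∈ H ↔ y ∈ H)) : lab Cs p x = lab Cs p y := by
  classical
  have h1 : x.1 < p.1 ↔ y.1 < p.1 := h {z | z.1 < p.1} (by unfold hps; simp)
  have h2 : x.1 ≤ p.1 ↔ y.1 ≤ p.1 := h {z | z.1 ≤ p.1} (by unfold hps; simp)
  have h3 : ∀ c ∈ Cs, (c * (x.1 - p.1) < x.2 - p.2 ↔ c * (y.1 - p.1) < y.2 - p.2) := by
    intro c hc
    exact h {z : Pt | c * (z.1 - p.1) < z.2 - p.2} (by
      unfold hps
      refine List.mem_cons_of_mem _ (List.mem_cons_of_mem _ ?_)
      exact List.mem_map.mpr ⟨c, Finset.mem_toList.mpr hc, rfl⟩)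
  -- one side
  have key : ∀ c ∈ Cs, (c < sl p x ↔ c < sl p y) := by
    intro c hc
    have hs : ∀ z : Pt, z.1 ≠ p.1 → sl p z * (z.1 - p.1) = z.2 - p.2 := by
      intro z hz
      unfold sl
      exact div_mul_cancel₀ _ (sub_ne_zero.mpr hz)
    rcases lt_trichotomy x.1 p.1 with hl | hl | hl
    · have hl' := h1.mp hl
      have nx : x ≠ p := fun e => by rw [e] at hl; exact lt_irrefl _ hl
      have ny : y ≠ p := fun e => by rw [e] at hl'; exact lt_irrefl _ hl'
      have cx : sl p x ≠ c := fun e => hC x hx nx (e ▸ hc)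
      have cy : sl p y ≠ c := fun e => hC y hy ny (e ▸ hc)
      have sx := hs x hl.ne
      have sy := hs y hl'.ne
      have hcc := h3 c hc
      rw [← sx, ← sy] at hcc
      constructor
      · intro hlt
        by_contra hcon
        have hlt' : sl p y < c := lt_of_le_of_ne (not_lt.mp hcon) cy
        have e1 : c * (y.1 - p.1) < sl p y * (y.1 - p.1) :=
          mul_lt_mul_of_neg_right hlt' (by linarith)
        have e2 := hcc.mpr e1
        have e3 : sl p x * (x.1 - p.1) < c * (x.1 - p.1) :=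
          mul_lt_mul_of_neg_right hlt (by linarith)
        linarith
      · intro hlt
        by_contra hcon
        have hlt' : sl p x < c := lt_of_le_of_ne (not_lt.mp hcon) cx
        have e1 : c * (x.1 - p.1) < sl p x * (x.1 - p.1) :=
          mul_lt_mul_of_neg_right hlt' (by linarith)
        have e2 := hcc.mp e1
        have e3 : sl p y * (y.1 - p.1) < c * (y.1 - p.1) :=
          mul_lt_mul_of_neg_right hlt (by linarith)
        linarith
    · have ex : x = p := hQ x hx p hp hl
      have hl' : y.1 = p.1 := by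
        apply le_antisymm (h2.mp hl.le)
        exact not_lt.mp fun hlt => by
          have := h1.mpr hlt
          linarith
      have ey : y = p := hQ y hy p hp hl'
      rw [ex, ey]
    · have hl' : p.1 < y.1 := not_le.mp fun hle => by
        have := h2.mpr hle
        linarith
      have sx := hs x hl.ne'
      have sy := hs y hl'.ne'
      have hcc := h3 c hc
      rw [← sx, ← sy] at hcc
      have px : 0 < x.1 - p.1 := by linarith
      have py : 0 < y.1 - p.1 := by linarith
      rw [mul_lt_mul_iff_left₀ px, mul_lt_mul_iff_left₀ py] at hcc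
      exact hcc
  unfold lab
  refine Prod.ext ?_ (Prod.ext ?_ ?_)
  · exact propext h1
  · have h4 : p.1 < x.1 ↔ p.1 < y.1 := by
      rw [← not_le, ← not_le, h2]
    exact propext h4
  · ext c
    simp only [mem_filter]
    constructor
    · rintro ⟨hc, hlt⟩
      exact ⟨hc, (key c hc).mp hlt⟩
    · rintro ⟨hc, hlt⟩
      exact ⟨hc, (key c hc).mpr hlt⟩

theorem length_flatMap_le (Cs : Pt → Finset ℝ) (D : ℕ) : ∀ ps : List Pt, (∀ p ∈ ps, #(Cs p) ≤ D) →
    (ps.flatMap fun p => hps (Cs p) p).length ≤ ps.length * (D + 2) := by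
  intro ps
  induction ps with
  | nil => intro _; simp
  | cons p ps ih =>
    intro h
    rw [List.flatMap_cons, List.length_append, length_hps, List.length_cons]
    have h1 := h p (List.mem_cons_self ..)
    have h2 := ih fun q hq => h q (List.mem_cons_of_mem _ hq)
    have h3 : (ps.length + 1) * (D + 2) = ps.length * (D + 2) + (D + 2) := by ring
    omega

theorem stNum_of (hF : StFaces) : StNum := by
  classical
  intro Q Cs ps D hQ hpQ hC hD
  set L : List (Set Pt) := ps.flatMap fun p => hps (Cs p) p with hL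
  have hLh : ∀ H ∈ L, IsHalf H := by
    intro H hH
    obtain ⟨p, _, h⟩ := List.mem_flatMap.mp hH
    exact isHalf_hps _ _ H h
  have hLl : L.length ≤ ps.length * (D + 2) := length_flatMap_le Cs D ps hD
  set pat : Pt → Finset (Fin L.length) := fun z => {i | z ∈ L.get i} with hpat
  have hfac := hF L.length (fun i => L.get i) (fun i => hLh _ (List.get_mem L i)) Q
  have hdet : ∀ x ∈ Q, ∀ y ∈ Q, pat x = pat y → cell Q Cs ps x = cell Q Cs ps y := by
    intro x hx y hy hxy
    have h1 : ∀ H ∈ L, (x ∈ H ↔ y ∈ H) := by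
      intro H hH
      obtain ⟨i, rfl⟩ := List.mem_iff_get.mp hH
      have h2 : i ∈ pat x ↔ i ∈ pat y := by rw [hxy]
      simpa [hpat] using h2
    have h2 : ∀ p ∈ ps, lab (Cs p) p x = lab (Cs p) p y := by
      intro p hp
      refine lab_eq hQ (hpQ p hp) (hC p hp) hx hy ?_
      intro H hH
      exact h1 H (List.mem_flatMap.mpr ⟨p, hp, hH⟩)
    unfold cell
    ext z
    simp only [mem_filter]
    constructor
    · rintro ⟨hz, h⟩
      exact ⟨hz, fun p hp => (h p hp).trans (h2 p hp)⟩
    · rintro ⟨hz, h⟩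
      exact ⟨hz, fun p hp => (h p hp).trans (h2 p hp).symm⟩
  have hle : #(Q.image fun x => cell Q Cs ps x) ≤ #(Q.image pat) := by
    refine card_le_card_of_surjOn
      (fun t => if h : ∃ x ∈ Q, pat x = t then cell Q Cs ps h.choose else ∅) ?_
    intro B hB
    obtain ⟨x, hx, rfl⟩ := mem_image.mp (mem_coe.mp hB)
    refine ⟨pat x, mem_coe.mpr (mem_image_of_mem _ hx), ?_⟩
    have h : ∃ y ∈ Q, pat y = pat x := ⟨x, hx, rfl⟩
    simp only [dif_pos h]
    exact hdet _ h.choose_spec.1 _ hx h.choose_spec.2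
  calc #(Q.image fun x => cell Q Cs ps x) ≤ #(Q.image pat) := hle
    _ ≤ 1 + L.length + L.length ^ 2 := by
        convert hfac using 3
    _ ≤ (1 + ps.length * (D + 2)) ^ 2 := by nlinarith [hLl]

end Vale.Agent.P065.U.H792.Num
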