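import Vale.Agent.P065.U.H792.S35a
import Vale.Agent.P065.UB.H616.SIneq

/-!
# P065, upper bound, line P: `StS35b`: half of the windows are spread in `x` (helper792)
-/

set_option autoImplicit false

namespace Vale.Agent.P065.U.H792.S35

open Finset Vale.Agent.P065.UB Vale.Agent.P065.UB.P Vale.Agent.P065.U.H792.Strips

open Classical in
/-- the column `i` -/
noncomputable def Cl (Q : Finset Pt) (Kp : ℝ) (i : ℤ) : Finset Pt := {p ∈ Q | gx Kp p = i}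

theorem mem_Cl {Q : Finset Pt} {Kp : ℝ} {i : ℤ} {p : Pt} : p ∈ Cl Q Kp i ↔ p ∈ Q ∧ gx Kp p = i := by
  classical
  unfold Cl
  rw [mem_filter]

theorem Cl_sub {Q : Finset Pt} {Kp : ℝ} {i : ℤ} : Cl Q Kp i ⊆ Q := fun _ h => (mem_Cl.mp h).1

/-- the boundary edges of a column -/
theorem bd_Cl {P : Finset Pt} (hP : Good P) {k : ℕ} {Q : Finset Pt} {I : Set ℝ}
    (hI : I.OrdConnected) (Kp : ℝ) (i : ℤ) :
    #(EdBd P k (Cl Q Kp i) I) ≤ #(EdBd P k Q I) + 2 * (#(Tch P k Q I) + #(EdBd P k Q I)) := by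
  classical
  have h := RankAux.box hP (k := k) (Q := Q) hI ({false, true} : Finset Bool)
    (fun b => if b then {z : Pt | Kp * z.1 + 0 * z.2 < (i : ℝ) + 1}
      else {z : Pt | (i : ℝ) ≤ Kp * z.1 + 0 * z.2})
    (by
      intro b _
      cases b
      · simp only [Bool.false_eq_true, if_false]
        exact RankAux.isHalf_ge Kp 0 i
      · simp only [if_true]
        exact RankAux.isHalf_lt Kp 0 (i + 1))
    (B := Cl Q Kp i) (by
      intro z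
      rw [mem_Cl]
      constructor
      · rintro ⟨h1, h2⟩
        refine ⟨h1, ?_⟩
        unfold gx at h2
        have f1 := Int.floor_le (z.1 * Kp)
        have f2 := Int.lt_floor_add_one (z.1 * Kp)
        rw [h2] at f1 f2
        intro b _
        cases b
        · simp only [Bool.false_eq_true, if_false, Set.mem_setOf_eq]
          linarith
        · simp only [if_true, Set.mem_setOf_eq]
          linarith
      · rintro ⟨h1, h2⟩
        refine ⟨h1, ?_⟩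
        have f1 := h2 false (by simp)
        have f2 := h2 true (by simp)
        simp only [Bool.false_eq_true, if_false, Set.mem_setOf_eq] at f1
        simp only [if_true, Set.mem_setOf_eq] at f2
        unfold gx
        rw [Int.floor_eq_iff]
        constructor <;> linarith)
  have h2 : #({false, true} : Finset Bool) = 2 := by decide
  rw [h2] at h
  exact h

open Classical in
/-- the edges with left end in the column -/
theorem left_Cl {P : Finset Pt} {k : ℕ} {Q : Finset Pt} {I : Set ℝ} (Kp : ℝ) (i : ℤ) :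
    #{e ∈ EdIn P k Q I | gx Kp e.1 = i} ≤
      #(EdIn P k (Cl Q Kp i) I) + #(EdBd P k (Cl Q Kp i) I) := by
  refine le_trans (card_le_card ?_) (card_union_le _ _)
  intro e he
  obtain ⟨h1, h2⟩ := mem_filter.mp he
  have h3 := mem_EdIn.mp h1
  have h4 : e.1 ∈ Cl Q Kp i := mem_Cl.mpr ⟨h3.2.1, h2⟩
  rw [mem_union, mem_EdIn, mem_EdBd]
  by_cases h5 : e.2 ∈ Cl Q Kp i
  · exact Or.inl ⟨h3.1, h4, h5, h3.2.2.2⟩
  · exact Or.inr ⟨h3.1, Or.inl ⟨h4, h5⟩, h3.2.2.2⟩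

/-- **column inequality** -/
theorem column : ∃ G : ℝ, 0 < G ∧ ∀ (P : Finset Pt) (k : ℕ) (Q : Finset Pt) (I : Set ℝ),
    Good P → Q ⊆ P → I.OrdConnected → ∀ (Kp K y κ : ℝ) (i : ℤ), 1 ≤ K → 0 < y → 0 < κ →
    (#(Tch P k Q I) : ℝ) ≤ K * y ^ 3 → (#(EdBd P k Q I) : ℝ) ≤ K * y ^ 3 → 10 * K ≤ κ * y →
    κ * y ^ 4 ≤ #(EdIn P k (Cl Q Kp i) I) + #(EdBd P k (Cl Q Kp i) I) →
    κ ^ 3 * y ^ 6 ≤ G * K ^ 2 * #(Sw (Cl Q Kp i) I) := by
  classical
  obtain ⟨C, hC, hs⟩ := H616.sineq stDey stRank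
  obtain ⟨C₀, hC₀, hd⟩ := stDey
  refine ⟨8 * (C * (2 * C₀ ^ (3 / 2 : ℝ) + 25)), by positivity, ?_⟩
  intro P k Q I hP hQ hI Kp K y κ i hK hy hκ ht hV hκy hE
  have hK0 : 0 < K := by linarith
  have hsi := hs P k (Cl Q Kp i) I hP (Cl_sub.trans hQ) hI
  have hdi := hd P k Q I hP hQ hI
  have hbd := bd_Cl hP (k := k) (Q := Q) hI Kp i
  set e : ℝ := (#(EdIn P k (Cl Q Kp i) I) : ℝ) with he
  set v : ℝ := (#(EdBd P k (Cl Q Kp i) I) : ℝ) with hv
  set s : ℝ := (#(Sw (Cl Q Kp i) I) : ℝ) with hs'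
  set t : ℝ := (#(Tch P k Q I) : ℝ) with ht'
  set V : ℝ := (#(EdBd P k Q I) : ℝ) with hV'
  have e0 : 0 ≤ e := Nat.cast_nonneg _
  have v0 : 0 ≤ v := Nat.cast_nonneg _
  have s0 : 0 ≤ s := Nat.cast_nonneg _
  have t0 : 0 ≤ t := Nat.cast_nonneg _
  have V0 : 0 ≤ V := Nat.cast_nonneg _
  have hv5 : v ≤ 5 * K * y ^ 3 := by
    have : v ≤ V + 2 * (t + V) := by
      rw [hv, ht', hV']
      exact_mod_cast hbd
    linarith
  have he2 : κ * y ^ 4 / 2 ≤ e := by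
    have h1 : 10 * K * y ^ 3 ≤ κ * y * y ^ 3 := mul_le_mul_of_nonneg_right hκy (by positivity)
    nlinarith
  have heE : e ≤ (#(EdIn P k Q I) : ℝ) := by
    rw [he]
    have : #(EdIn P k (Cl Q Kp i) I) ≤ #(EdIn P k Q I) := by
      refine card_le_card fun f hf => ?_
      have h := mem_EdIn.mp hf
      exact mem_EdIn.mpr ⟨h.1, Cl_sub h.2.1, Cl_sub h.2.2.1, h.2.2.2⟩
    exact_mod_cast this
  have hX : t * (t + V) ≤ 2 * K ^ 2 * y ^ 6 := by
    calc t * (t + V) ≤ (K * y ^ 3) * (K * y ^ 3 + K * y ^ 3) := by gcongr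
      _ = 2 * K ^ 2 * y ^ 6 := by ring
  have h32 : e ^ (3 / 2 : ℝ) ≤ C₀ ^ (3 / 2 : ℝ) * (2 * K ^ 2 * y ^ 6) := by
    have hx0 : 0 ≤ t * (t + V) := by positivity
    calc e ^ (3 / 2 : ℝ) ≤ (C₀ * (t * (t + V)) ^ (2 / 3 : ℝ)) ^ (3 / 2 : ℝ) :=
          Real.rpow_le_rpow e0 (heE.trans hdi) (by norm_num)
      _ = C₀ ^ (3 / 2 : ℝ) * ((t * (t + V)) ^ (2 / 3 : ℝ)) ^ (3 / 2 : ℝ) :=
          Real.mul_rpow hC₀.le (by positivity)
      _ = C₀ ^ (3 / 2 : ℝ) * (t * (t + V)) := by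
          rw [← Real.rpow_mul hx0]
          norm_num
      _ ≤ C₀ ^ (3 / 2 : ℝ) * (2 * K ^ 2 * y ^ 6) := by
          apply mul_le_mul_of_nonneg_left hX (by positivity)
  have hv2 : v ^ 2 ≤ 25 * K ^ 2 * y ^ 6 := by
    calc v ^ 2 ≤ (5 * K * y ^ 3) ^ 2 := pow_le_pow_left₀ v0 hv5 2
      _ = 25 * K ^ 2 * y ^ 6 := by ring
  have h1 : (κ * y ^ 4 / 2) ^ 3 ≤ C * s * ((2 * C₀ ^ (3 / 2 : ℝ) + 25) * (K ^ 2 * y ^ 6)) := by
    calc (κ * y ^ 4 / 2) ^ 3 ≤ e ^ 3 := pow_le_pow_left₀ (by positivity) he2 3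
      _ ≤ C * s * (e ^ (3 / 2 : ℝ) + v ^ 2) := hsi
      _ ≤ C * s * ((2 * C₀ ^ (3 / 2 : ℝ) + 25) * (K ^ 2 * y ^ 6)) := by
          apply mul_le_mul_of_nonneg_left _ (by positivity)
          nlinarith
  have h2 : (κ ^ 3 * y ^ 6) * (y ^ 6 / 8) ≤
      (8 * (C * (2 * C₀ ^ (3 / 2 : ℝ) + 25)) * K ^ 2 * s) * (y ^ 6 / 8) := by
    calc (κ ^ 3 * y ^ 6) * (y ^ 6 / 8) = (κ * y ^ 4 / 2) ^ 3 := by ring
      _ ≤ C * s * ((2 * C₀ ^ (3 / 2 : ℝ) + 25) * (K ^ 2 * y ^ 6)) := h1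
      _ = (8 * (C * (2 * C₀ ^ (3 / 2 : ℝ) + 25)) * K ^ 2 * s) * (y ^ 6 / 8) := by ring
  exact le_of_mul_le_mul_right h2 (by positivity)

/-- swaps in disjoint windows -/
theorem sum_Sw (T : Finset Pt) (W : Finset ℕ) (I : ℕ → Set ℝ)
    (hd : ∀ w ∈ W, ∀ w' ∈ W, w ≠ w' → Disjoint (I w) (I w')) :
    ∑ w ∈ W, #(Sw T (I w)) ≤ #T ^ 2 := by
  classical
  rw [← card_biUnion]
  · calc #(W.biUnion fun w => Sw T (I w)) ≤ #(T ×ˢ T) := by
          refine card_le_card (biUnion_subset.mpr fun w _ => ?_)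
          unfold Sw
          exact filter_subset _ _
      _ = #T ^ 2 := by rw [card_product, sq]
  · intro w hw w' hw' hne
    rw [Function.onFun, disjoint_left]
    intro e he he'
    unfold Sw at he he'
    exact Set.disjoint_left.mp (hd w hw w' hw' hne) (mem_filter.mp he).2.2 (mem_filter.mp he').2.2

theorem stS35b : StS35b := by
  classical
  obtain ⟨G, hG, hcol⟩ := column
  obtain ⟨d, hd⟩ := pow_unbounded_of_one_lt (64 * G) (by norm_num : (1 : ℝ) < 2)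
  refine ⟨d + 6, ?_⟩
  intro K kp Kp ks Kpp lam N del κ P k Q W a b hNW hK hkp hKp hlam hN hκ hκ1 hm1 hm2
  have hK0 : 0 < K := by linarith
  have hK1 : (1 : ℝ) ≤ K := by linarith
  have hn : 0 < N / lam := by positivity
  obtain ⟨r1, r2⟩ := rpow43 hn
  have hncU := hNW.ncU
  rw [r1] at hncU
  rw [r1]
  set y : ℝ := (N / lam) ^ (1 / 3 : ℝ) with hy'
  have hy : 0 < y := Real.rpow_pos_of_pos hn _
  have hNy : N = lam * y ^ 3 := by
    rw [r2]
    field_simp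
  have hP := hNW.good
  have hQP := hNW.sub
  set κ' : ℝ := κ / 2 with hκ'
  have hκ'0 : 0 < κ' := by positivity
  have hκy : 10 * K ≤ κ' * y := by
    have h1 : 20 * K ≤ K ^ (d + 6) := by
      calc 20 * K ≤ K ^ 5 * K := by
            have : (20 : ℝ) ≤ K ^ 5 := by
              calc (20 : ℝ) ≤ 2 ^ 5 := by norm_num
                _ ≤ K ^ 5 := pow_le_pow_left₀ (by norm_num) hK 5
            gcongr
        _ = K ^ 6 := by ring
        _ ≤ K ^ (d + 6) := pow_le_pow_right₀ hK1 (by omega)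
    rw [hκ']
    linarith
  set I : ℕ → Set ℝ := fun w => Set.Icc (a w) (b w) with hI'
  have hI : ∀ w, (I w).OrdConnected := fun w => Set.ordConnected_Icc
  have hdisj : ∀ w ∈ W, ∀ w' ∈ W, w ≠ w' → Disjoint (I w) (I w') := by
    intro w hw w' hw' hne
    rw [Set.disjoint_left]
    intro z hz hz'
    obtain ⟨z1, z2⟩ := Set.mem_Icc.mp hz
    obtain ⟨z3, z4⟩ := Set.mem_Icc.mp hz'
    rcases hNW.disj w hw w' hw' hne with h | h <;> linarith
  have ht : ∀ w ∈ W, (#(Tch P k Q (I w)) : ℝ) ≤ K * y ^ 3 := by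
    intro w hw
    have h := hNW.tch w hw
    have : lam * (#(Tch P k Q (I w)) : ℝ) ≤ lam * (K * y ^ 3) := by
      calc lam * (#(Tch P k Q (I w)) : ℝ) ≤ K * N := h
        _ = lam * (K * y ^ 3) := by rw [hNy]; ring
    exact le_of_mul_le_mul_left this hlam
  have hV : ∀ w ∈ W, (#(EdBd P k Q (I w)) : ℝ) ≤ K * y ^ 3 := by
    intro w hw
    have h := hNW.bd w hw
    have : lam * (#(EdBd P k Q (I w)) : ℝ) ≤ lam * (K * y ^ 3) := by
      calc lam * (#(EdBd P k Q (I w)) : ℝ) ≤ K * N := h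
        _ = lam * (K * y ^ 3) := by rw [hNy]; ring
    exact le_of_mul_le_mul_left this hlam
  -- edges of a window in a column
  set F : ℕ → ℤ → Finset Eg := fun w i => {e ∈ EdIn P k Q (I w) | gx Kp e.1 = i} with hF
  set Wi : ℤ → Finset ℕ := fun i => {w ∈ W | κ' * y ^ 4 < (#(F w i) : ℝ)} with hWi
  set J : Finset ℤ := Q.image (gx Kp) with hJ
  -- first bound
  have b1 : ∀ i, (#(Wi i) : ℝ) * κ' ≤ kp * lam ^ 2 := by
    intro i
    have h1 : (#(Wi i) : ℝ) * (κ' * y ^ 4) ≤ ∑ w ∈ Wi i, (#(F w i) : ℝ) := by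
      calc (#(Wi i) : ℝ) * (κ' * y ^ 4) = ∑ w ∈ Wi i, κ' * y ^ 4 := by
            rw [sum_const, nsmul_eq_mul]
        _ ≤ ∑ w ∈ Wi i, (#(F w i) : ℝ) := sum_le_sum fun w hw => (mem_filter.mp hw).2.le
    have h2 : ∑ w ∈ Wi i, (#(F w i) : ℝ) ≤ ∑ w ∈ W, (#{e ∈ EW P k Q a b w |
        (i : ℝ) / Kp ≤ e.1.1 ∧ e.1.1 ≤ (i : ℝ) / Kp + 1 / Kp} : ℝ) := by
      calc ∑ w ∈ Wi i, (#(F w i) : ℝ) ≤ ∑ w ∈ W, (#(F w i) : ℝ) :=
            sum_le_sum_of_subset_of_nonneg (filter_subset _ _) fun _ _ _ => Nat.cast_nonneg _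
        _ ≤ _ := by
            refine sum_le_sum fun w _ => ?_
            have : #(F w i) ≤ #{e ∈ EW P k Q a b w |
                (i : ℝ) / Kp ≤ e.1.1 ∧ e.1.1 ≤ (i : ℝ) / Kp + 1 / Kp} := by
              refine card_le_card fun e he => ?_
              obtain ⟨h3, h4⟩ := mem_filter.mp he
              refine mem_filter.mpr ⟨h3, ?_⟩
              unfold gx at h4
              have f1 := Int.floor_le (e.1.1 * Kp)
              have f2 := (Int.lt_floor_add_one (e.1.1 * Kp)).le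
              rw [h4] at f1 f2
              constructor
              · rw [div_le_iff₀ hKp]
                exact f1
              · rw [← add_div, le_div_iff₀ hKp]
                exact f2
            exact_mod_cast this
    have h3 := hncU ((i : ℝ) / Kp)
    have h4 : (#(Wi i) : ℝ) * κ' * y ^ 4 ≤ kp * lam ^ 2 * y ^ 4 := by
      calc (#(Wi i) : ℝ) * κ' * y ^ 4 = (#(Wi i) : ℝ) * (κ' * y ^ 4) := by ring
        _ ≤ kp * (lam ^ 2 * y ^ 4) := h1.trans (h2.trans h3)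
        _ = kp * lam ^ 2 * y ^ 4 := by ring
    exact le_of_mul_le_mul_right h4 (by positivity)
  -- second bound
  have b2 : ∀ i, (#(Wi i) : ℝ) * (κ' ^ 3 * N ^ 2) ≤ G * K ^ 2 * lam ^ 2 * (#(Cl Q Kp i) : ℝ) ^ 2 := by
    intro i
    have h1 : ∀ w ∈ Wi i, κ' ^ 3 * y ^ 6 ≤ G * K ^ 2 * #(Sw (Cl Q Kp i) (I w)) := by
      intro w hw
      obtain ⟨hwW, hlt⟩ := mem_filter.mp hw
      have h2 := left_Cl (P := P) (k := k) (Q := Q) (I := I w) Kp i
      have h3 : (#(F w i) : ℝ) ≤ (#(EdIn P k (Cl Q Kp i) (I w)) : ℝ)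
          + #(EdBd P k (Cl Q Kp i) (I w)) := by exact_mod_cast h2
      exact hcol P k Q (I w) hP hQP (hI w) Kp K y κ' i hK1 hy hκ'0 (ht w hwW) (hV w hwW) hκy
        (hlt.le.trans h3)
    have h2 : (#(Wi i) : ℝ) * (κ' ^ 3 * y ^ 6) ≤ G * K ^ 2 * (#(Cl Q Kp i) : ℝ) ^ 2 := by
      calc (#(Wi i) : ℝ) * (κ' ^ 3 * y ^ 6) = ∑ w ∈ Wi i, κ' ^ 3 * y ^ 6 := by
            rw [sum_const, nsmul_eq_mul]
        _ ≤ ∑ w ∈ Wi i, G * K ^ 2 * (#(Sw (Cl Q Kp i) (I w)) : ℝ) := sum_le_sum h1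
        _ = G * K ^ 2 * ((∑ w ∈ Wi i, #(Sw (Cl Q Kp i) (I w)) : ℕ) : ℝ) := by
            rw [← mul_sum]
            push_cast
            rfl
        _ ≤ G * K ^ 2 * ((#(Cl Q Kp i) ^ 2 : ℕ) : ℝ) := by
            have h3 := sum_Sw (Cl Q Kp i) (Wi i) I fun w hw w' hw' hne =>
              hdisj w (mem_filter.mp hw).1 w' (mem_filter.mp hw').1 hne
            have h4 : ((∑ w ∈ Wi i, #(Sw (Cl Q Kp i) (I w)) : ℕ) : ℝ) ≤
              ((#(Cl Q Kp i) ^ 2 : ℕ) : ℝ) := by exact_mod_cast h3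
            exact mul_le_mul_of_nonneg_left h4 (by positivity)
        _ = G * K ^ 2 * (#(Cl Q Kp i) : ℝ) ^ 2 := by push_cast; rfl
    calc (#(Wi i) : ℝ) * (κ' ^ 3 * N ^ 2) = lam ^ 2 * ((#(Wi i) : ℝ) * (κ' ^ 3 * y ^ 6)) := by
          rw [hNy]; ring
      _ ≤ lam ^ 2 * (G * K ^ 2 * (#(Cl Q Kp i) : ℝ) ^ 2) := by gcongr
      _ = G * K ^ 2 * lam ^ 2 * (#(Cl Q Kp i) : ℝ) ^ 2 := by ring
  -- product
  set s : ℝ := Real.sqrt (G * kp) * K * lam ^ 2 with hs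
  have hs2 : s ^ 2 = G * kp * K ^ 2 * lam ^ 4 := by
    rw [hs, mul_pow, mul_pow, Real.sq_sqrt (by positivity)]
    ring
  have hs0 : 0 ≤ s := by positivity
  have b3 : ∀ i, (#(Wi i) : ℝ) * (κ' ^ 2 * N) ≤ s * #(Cl Q Kp i) := by
    intro i
    refine le_of_sq_le_sq ?_ (mul_nonneg hs0 (Nat.cast_nonneg _))
    calc ((#(Wi i) : ℝ) * (κ' ^ 2 * N)) ^ 2
        = ((#(Wi i) : ℝ) * κ') * ((#(Wi i) : ℝ) * (κ' ^ 3 * N ^ 2)) := by ring
      _ ≤ (kp * lam ^ 2) * (G * K ^ 2 * lam ^ 2 * (#(Cl Q Kp i) : ℝ) ^ 2) :=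
          mul_le_mul (b1 i) (b2 i)
            (mul_nonneg (Nat.cast_nonneg _) (mul_nonneg (pow_nonneg hκ'0.le 3) (sq_nonneg N)))
            (mul_nonneg hkp.le (sq_nonneg lam))
      _ = (G * kp * K ^ 2 * lam ^ 4) * (#(Cl Q Kp i) : ℝ) ^ 2 := by ring
      _ = (s * #(Cl Q Kp i)) ^ 2 := by rw [mul_pow, hs2]
  have b4 : (∑ i ∈ J, (#(Wi i) : ℝ)) * κ' ^ 2 ≤ s := by
    have h1 : (∑ i ∈ J, (#(Wi i) : ℝ)) * (κ' ^ 2 * N) ≤ s * N := by
      calc (∑ i ∈ J, (#(Wi i) : ℝ)) * (κ' ^ 2 * N) = ∑ i ∈ J, (#(Wi i) : ℝ) * (κ' ^ 2 * N) := by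
            rw [sum_mul]
        _ ≤ ∑ i ∈ J, s * (#(Cl Q Kp i) : ℝ) := sum_le_sum fun i _ => b3 i
        _ = s * ((∑ i ∈ J, #(Cl Q Kp i) : ℕ) : ℝ) := by
            rw [← mul_sum]
            push_cast
            rfl
        _ ≤ s * N := by
            apply mul_le_mul_of_nonneg_left _ hs0
            have h2 : ∑ i ∈ J, #(Cl Q Kp i) = #Q := by
              unfold Cl
              exact (card_eq_sum_card_fiberwise (fun p hp => by
                exact mem_coe.mpr (mem_image_of_mem _ (mem_coe.mp hp)))).symm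
            rw [h2]
            exact hNW.cardQ
    have h2 : (∑ i ∈ J, (#(Wi i) : ℝ)) * κ' ^ 2 * N ≤ s * N := by linarith
    exact le_of_mul_le_mul_right h2 hN
  have hW0 : (0 : ℝ) ≤ (#W : ℝ) := Nat.cast_nonneg _
  have hsW : s ≤ κ' ^ 2 * (#W / 2) := by
    refine le_of_sq_le_sq ?_ (mul_nonneg (sq_nonneg κ') (by linarith))
    rw [hs2]
    have h1 : lam ^ 4 ≤ K ^ 2 * (#W : ℝ) ^ 2 := by
      have := hNW.cardW'
      calc lam ^ 4 = (lam ^ 2) ^ 2 := by ring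
        _ ≤ (K * #W) ^ 2 := pow_le_pow_left₀ (by positivity) this 2
        _ = K ^ 2 * (#W : ℝ) ^ 2 := by ring
    have h2 : 64 * G * K ^ 4 * kp ≤ κ ^ 4 := by
      calc 64 * G * K ^ 4 * kp ≤ K ^ d * K ^ 4 * kp := by
            have : 64 * G ≤ K ^ d := hd.le.trans (pow_le_pow_left₀ (by norm_num) hK d)
            gcongr
        _ = K ^ (d + 4) * kp := by rw [← pow_add]
        _ ≤ K ^ (d + 6) * kp := by
            have := pow_le_pow_right₀ hK1 (show d + 4 ≤ d + 6 by omega)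
            gcongr
        _ ≤ κ ^ 4 := hm1
    calc G * kp * K ^ 2 * lam ^ 4 ≤ G * kp * K ^ 2 * (K ^ 2 * (#W : ℝ) ^ 2) := by gcongr
      _ = (64 * G * K ^ 4 * kp) * ((#W : ℝ) ^ 2 / 64) := by ring
      _ ≤ κ ^ 4 * ((#W : ℝ) ^ 2 / 64) :=
          mul_le_mul_of_nonneg_right h2 (div_nonneg (sq_nonneg _) (by norm_num))
      _ = (κ' ^ 2 * (#W / 2)) ^ 2 := by rw [hκ']; ring
  have b5 : ∑ i ∈ J, (#(Wi i) : ℝ) ≤ #W / 2 := by
    have : (∑ i ∈ J, (#(Wi i) : ℝ)) * κ' ^ 2 ≤ (#W / 2) * κ' ^ 2 := by linarith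
    exact le_of_mul_le_mul_right this (by positivity)
  -- the good windows
  set W' : Finset ℕ := {w ∈ W | ∀ i ∈ J, (#(F w i) : ℝ) ≤ κ' * y ^ 4} with hW'
  refine ⟨W', filter_subset _ _, ?_, ?_⟩
  · have h1 : W ⊆ W' ∪ J.biUnion Wi := by
      intro w hw
      rw [mem_union]
      by_cases h : ∀ i ∈ J, (#(F w i) : ℝ) ≤ κ' * y ^ 4
      · exact Or.inl (mem_filter.mpr ⟨hw, h⟩)
      · right
        push Not at h
        obtain ⟨i, hi, hlt⟩ := h
        exact mem_biUnion.mpr ⟨i, hi, mem_filter.mpr ⟨hw, hlt⟩⟩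
    have h2 := ((card_le_card h1).trans (card_union_le _ _)).trans
      (Nat.add_le_add_left card_biUnion_le _)
    have h3 : (#W : ℝ) ≤ #W' + ∑ i ∈ J, (#(Wi i) : ℝ) := by exact_mod_cast h2
    have h4 : (#W : ℝ) ≤ 2 * #W' := by linarith
    exact_mod_cast h4
  · intro w hw x
    obtain ⟨hwW, hall⟩ := mem_filter.mp hw
    have hall' : ∀ i : ℤ, (#(F w i) : ℝ) ≤ κ' * y ^ 4 := by
      intro i
      by_cases hi : i ∈ J
      · exact hall i hi
      · have : F w i = ∅ := by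
          apply Finset.eq_empty_of_forall_notMem
          intro e he
          obtain ⟨h1, h2⟩ := mem_filter.mp he
          exact hi (mem_image.mpr ⟨e.1, (mem_EdIn.mp h1).2.1, h2⟩)
        rw [this]
        simp only [card_empty, Nat.cast_zero]
        positivity
    have h1 : #{e ∈ EW P k Q a b w | x ≤ e.1.1 ∧ e.1.1 ≤ x + 1 / Kp} ≤
        #(F w ⌊x * Kp⌋) + #(F w (⌊x * Kp⌋ + 1)) := by
      refine le_trans (card_le_card ?_) (card_union_le _ _)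
      intro e he
      obtain ⟨h2, h3, h4⟩ := mem_filter.mp he
      rw [mem_union]
      rcases gx_two hKp h3 h4 with h5 | h5
      · exact Or.inl (mem_filter.mpr ⟨h2, h5⟩)
      · exact Or.inr (mem_filter.mpr ⟨h2, h5⟩)
    have h2 : (#{e ∈ EW P k Q a b w | x ≤ e.1.1 ∧ e.1.1 ≤ x + 1 / Kp} : ℝ) ≤
        (#(F w ⌊x * Kp⌋) : ℝ) + #(F w (⌊x * Kp⌋ + 1)) := by exact_mod_cast h1
    have h3 := hall' ⌊x * Kp⌋
    have h4 := hall' (⌊x * Kp⌋ + 1)
    rw [hκ'] at h3 h4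
    linarith

end Vale.Agent.P065.U.H792.S35
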