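import Vale.Agent.P065.U.H792.S35aMain
import Vale.Agent.P065.U.H792.S35b

/-!
# P065, upper bound, line P: `StS35` (helper792)
-/

set_option autoImplicit false

namespace Vale.Agent.P065.U.H792.S35

open Finset Vale.Agent.P065.UB Vale.Agent.P065.UB.P

theorem stS35_of (hA : StS35a) (hB : StS35b) : StS35 := by
  classical
  obtain ⟨ma, hA⟩ := hA
  obtain ⟨mb, hB⟩ := hB
  refine ⟨ma + 2, by omega, ?_⟩
  intro c
  obtain ⟨e, he⟩ : ∃ e : ℕ, e = ma + mb + (ma + 2) * c := ⟨_, rfl⟩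
  refine ⟨16 * e + 16, ?_⟩
  intro K kp Kp ks Kpp L lam N del P k Q W a b hH hNW
  have hK := hH.hK
  have hK0 : 0 < K := by linarith
  have hK1 : (1 : ℝ) ≤ K := by linarith
  have hkp := hH.kp0
  have hpos : ∀ n : ℕ, (1 : ℝ) ≤ K ^ n := fun n => one_le_pow₀ hK1
  -- the hierarchy
  have hKp0 : 0 < Kp := by
    by_contra h
    have h1 : kp * Kp ≤ 0 := mul_nonpos_of_nonneg_of_nonpos hkp.le (not_lt.mp h)
    linarith [hH.Kp1]
  have hKp : K ^ (16 * e + 16) ≤ Kp := by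
    have h1 : kp * K ^ (16 * e + 16) ≤ kp * Kp := by linarith [hH.kp1, hH.Kp1]
    exact le_of_mul_le_mul_left h1 hkp
  have hKp1 : 1 ≤ Kp := (hpos _).trans hKp
  have hKpp : Kp ^ (16 * e + 16) ≤ Kpp := by
    have h1 : ks * Kp ^ (16 * e + 16) ≤ ks * Kpp := by linarith [hH.ks1, hH.Kpp1]
    exact le_of_mul_le_mul_left h1 hH.ks0
  have hKpp1 : 1 ≤ Kpp := (one_le_pow₀ hKp1).trans hKpp
  have hL : Kpp ≤ L := by
    calc Kpp = Kpp ^ 1 := (pow_one _).symm
      _ ≤ Kpp ^ (16 * e + 16) := pow_le_pow_right₀ hKpp1 (by omega)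
      _ ≤ L := hH.hL
  have hL1 : 1 ≤ L := hKpp1.trans hL
  have hlamL : L ≤ lam := by
    calc L = L ^ 1 := (pow_one _).symm
      _ ≤ L ^ (16 * e + 16) := pow_le_pow_right₀ hL1 (by omega)
      _ ≤ lam := hH.hlam
  have hlam1 : 1 ≤ lam := hL1.trans hlamL
  have hlam : 0 < lam := by linarith
  have hN : 0 < N := lt_of_lt_of_le (by positivity) hH.hN
  have hlamKp : Kp ^ 2 ≤ lam := by
    calc Kp ^ 2 ≤ Kp ^ (16 * e + 16) := pow_le_pow_right₀ hKp1 (by omega)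
      _ ≤ lam := hKpp.trans (hL.trans hlamL)
  have hn : 0 < N / lam := by positivity
  have hylam : lam ≤ (N / lam) ^ (1 / 3 : ℝ) := by
    have h1 : lam ^ 3 ≤ N / lam := by
      rw [le_div_iff₀ hlam]
      have h2 : lam ^ 4 ≤ lam ^ 5 := pow_le_pow_right₀ hlam1 (by norm_num)
      calc lam ^ 3 * lam = lam ^ 4 := by ring
        _ ≤ N := h2.trans hH.hN
    calc lam = (lam ^ 3) ^ (1 / 3 : ℝ) := (cube_rpow hlam.le).symm
      _ ≤ (N / lam) ^ (1 / 3 : ℝ) := Real.rpow_le_rpow (by positivity) h1 (by norm_num)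
  -- the number `σ`
  obtain ⟨σ, hσ0, hσ⟩ : ∃ σ : ℝ, 0 < σ ∧ σ ^ 16 = kp :=
    ⟨kp ^ (1 / 16 : ℝ), Real.rpow_pos_of_pos hkp _, by
      rw [← Real.rpow_natCast, ← Real.rpow_mul hkp.le]
      norm_num⟩
  have hKσ : K ^ (e + 1) * σ ≤ 1 := by
    have h1 : (K ^ (e + 1) * σ) ^ 16 ≤ 1 := by
      calc (K ^ (e + 1) * σ) ^ 16 = K ^ (16 * e + 16) * kp := by
            rw [mul_pow, hσ, ← pow_mul]
            congr 2
            ring
        _ ≤ 1 := hH.kp1
    by_contra h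
    have h2 : 1 < (K ^ (e + 1) * σ) ^ 16 := one_lt_pow₀ (not_le.mp h) (by norm_num)
    linarith
  have hKe : ∀ n : ℕ, n ≤ e + 1 → K ^ n * σ ≤ 1 := by
    intro n hn
    have h1 : K ^ n * σ ≤ K ^ (e + 1) * σ :=
      mul_le_mul_of_nonneg_right (pow_le_pow_right₀ hK1 hn) hσ0.le
    linarith
  have hσ1 : σ ≤ 1 := by
    have := hKe 0 (by omega)
    simpa using this
  have hσkp : kp ≤ σ ^ 3 := by
    rw [← hσ]
    exact pow_le_pow_of_le_one hσ0.le hσ1 (by norm_num)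
  have hσ3 : σ ^ 3 ≤ σ := by
    calc σ ^ 3 ≤ σ ^ 1 := pow_le_pow_of_le_one hσ0.le hσ1 (by norm_num)
      _ = σ := pow_one _
  have hbig : K ^ e ≤ σ ^ 3 * (N / lam) ^ (1 / 3 : ℝ) := by
    calc K ^ e ≤ K ^ (16 * e + 16) := pow_le_pow_right₀ hK1 (by omega)
      _ ≤ Kp := hKp
      _ ≤ (kp * Kp) * Kp := by
          have := hH.Kp1
          nlinarith
      _ = kp * Kp ^ 2 := by ring
      _ ≤ σ ^ 3 * lam := mul_le_mul hσkp hlamKp (by positivity) (by positivity)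
      _ ≤ σ ^ 3 * (N / lam) ^ (1 / 3 : ℝ) := mul_le_mul_of_nonneg_left hylam (by positivity)
  -- the typical windows
  obtain ⟨W', hW'W, hW'c, hW's⟩ := hB K kp Kp ks Kpp lam N del (σ ^ 3) P k Q W a b hNW hK hkp hKp0
    hlam hN (by positivity) (by nlinarith) (by
      have h1 : K ^ mb * σ ≤ 1 := hKe mb (by omega)
      have h2 : σ ^ 4 ≤ σ := by
        calc σ ^ 4 ≤ σ ^ 1 := pow_le_pow_of_le_one hσ0.le hσ1 (by norm_num)
          _ = σ := pow_one _
      calc K ^ mb * kp = (K ^ mb * σ ^ 4) * σ ^ 12 := by rw [← hσ]; ring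
        _ ≤ (K ^ mb * σ) * σ ^ 12 := by gcongr
        _ ≤ 1 * σ ^ 12 := by gcongr
        _ = (σ ^ 3) ^ 4 := by ring)
    (le_trans (pow_le_pow_right₀ hK1 (by omega)) hbig)
  have hex : ∀ w, ∃ (be : ℝ) (T : Finset Pt), w ∈ W' → (T ⊆ Tch P k Q (Set.Icc (a w) (b w)) ∧
      (∀ p ∈ T, be ≤ ht (a w) p ∧ ht (a w) p ≤ be + 2 * del) ∧ N ≤ K ^ ma * (lam * #T) ∧
      (N / lam) ^ (4 / 3 : ℝ) ≤
        K ^ ma * #{e ∈ EdIn P k Q (Set.Icc (a w) (b w)) | e.1 ∈ T ∧ e.2 ∈ T} ∧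
      ∀ x : ℝ, lam * #{p ∈ T | x ≤ p.1 ∧ p.1 ≤ x + 1 / Kp} ≤ σ * N) := by
    intro w
    by_cases hw : w ∈ W'
    · have hwW := hW'W hw
      have hlen := hNW.len w hwW
      obtain ⟨be, T, h⟩ := hA K Kp lam N del (σ ^ 2) σ (a w) (b w) P k Q hNW.good hNW.sub hNW.box
        hNW.del0 (by linarith [hNW.del0]) hlen.2 hK hKp0 hlam hN (by positivity) hσ0
        (by
          have h1 : K ^ ma * σ ≤ 1 := hKe ma (by omega)
          calc K ^ ma * σ ^ 2 = (K ^ ma * σ) * σ := by ring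
            _ ≤ 1 * σ := by gcongr
            _ = σ := one_mul _)
        (hKe ma (by omega))
        (by
          calc K ^ ma ≤ K ^ e := pow_le_pow_right₀ hK1 (by omega)
            _ ≤ σ ^ 3 * (N / lam) ^ (1 / 3 : ℝ) := hbig
            _ ≤ σ * (N / lam) ^ (1 / 3 : ℝ) :=
              mul_le_mul_of_nonneg_right hσ3 (Real.rpow_nonneg hn.le _))
        (hNW.tch w hwW) (hNW.bd w hwW) (hNW.ed w hwW)
        (by
          intro x
          have h1 := hW's w hw x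
          have h2 : σ ^ 2 * σ = σ ^ 3 := by ring
          rw [h2]
          exact h1)
      exact ⟨be, T, fun _ => h⟩
    · exact ⟨0, ∅, fun h => absurd h hw⟩
  choose be T hT using hex
  have hKr : K ≤ K ^ (ma + 2) := by
    calc K = K ^ 1 := (pow_one _).symm
      _ ≤ K ^ (ma + 2) := pow_le_pow_right₀ hK1 (by omega)
  have hKma : K ^ ma ≤ K ^ (ma + 2) := pow_le_pow_right₀ hK1 (by omega)
  refine ⟨σ, W', be, T, hσ0, ?_, ?_, hW'W, ?_⟩
  · rw [← pow_mul]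
    exact hKe _ (by omega)
  · have h1 : kp ≤ σ := hσkp.trans hσ3
    have h2 := hH.Kp1
    nlinarith
  · refine ⟨hNW.good, hNW.sub, hNW.box, hNW.del0, fun w hw => hNW.len w (hW'W hw),
      fun w hw => hNW.unit w (hW'W hw), fun w hw w' hw' => hNW.disj w (hW'W hw) w' (hW'W hw'),
      hNW.cardQ, ?_, ?_, ?_, ?_, ?_, ?_, ?_, ?_, ?_, ?_, ?_, ?_⟩
    · have h1 : (#W' : ℝ) ≤ #W := by exact_mod_cast card_le_card hW'W
      have h2 := hNW.cardW
      have h3 : K * lam ^ 2 ≤ K ^ (ma + 2) * lam ^ 2 :=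
        mul_le_mul_of_nonneg_right hKr (sq_nonneg lam)
      linarith
    · have h1 : (#W : ℝ) ≤ 2 * #W' := by exact_mod_cast hW'c
      have h2 := hNW.cardW'
      have h0 : (0 : ℝ) ≤ (#W' : ℝ) := Nat.cast_nonneg _
      calc lam ^ 2 ≤ K * #W := h2
        _ ≤ K * (2 * #W') := mul_le_mul_of_nonneg_left h1 hK0.le
        _ ≤ K * (K * #W') := mul_le_mul_of_nonneg_left
            (mul_le_mul_of_nonneg_right hK h0) hK0.le
        _ = K ^ 2 * #W' := by ring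
        _ ≤ K ^ (ma + 2) * #W' := mul_le_mul_of_nonneg_right
            (pow_le_pow_right₀ hK1 (by omega)) h0
    · intro w hw
      exact (hNW.tch w (hW'W hw)).trans (mul_le_mul_of_nonneg_right hKr hN.le)
    · intro w hw
      exact (hNW.bd w (hW'W hw)).trans (mul_le_mul_of_nonneg_right hKr hN.le)
    · exact hNW.glob.trans (mul_le_mul_of_nonneg_right hKr (mul_nonneg hlam.le hN.le))
    · intro x
      refine le_trans ?_ (hNW.ncT x)
      have : #{w ∈ W' | x ≤ a w ∧ a w ≤ x + 1 / Kpp} ≤ #{w ∈ W | x ≤ a w ∧ a w ≤ x + 1 / Kpp} := by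
        refine card_le_card fun w hw => ?_
        obtain ⟨h1, h2⟩ := mem_filter.mp hw
        exact mem_filter.mpr ⟨hW'W h1, h2⟩
      exact_mod_cast this
    · intro w hw
      exact (hT w hw).1
    · intro w hw
      exact (hT w hw).2.1
    · intro w hw
      refine (hT w hw).2.2.1.trans ?_
      exact mul_le_mul_of_nonneg_right hKma (mul_nonneg hlam.le (Nat.cast_nonneg _))
    · intro w hw
      refine (hT w hw).2.2.2.1.trans ?_
      exact mul_le_mul_of_nonneg_right hKma (Nat.cast_nonneg _)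
    · intro w hw x
      exact (hT w hw).2.2.2.2 x
    · intro w hw x
      have h1 := hW's w hw x
      have h2 : #{e ∈ ET P k Q a b T w | x ≤ e.1.1 ∧ e.1.1 ≤ x + 1 / Kp} ≤
          #{e ∈ EW P k Q a b w | x ≤ e.1.1 ∧ e.1.1 ≤ x + 1 / Kp} := by
        refine card_le_card fun e he => ?_
        obtain ⟨h3, h4⟩ := mem_filter.mp he
        unfold ET at h3
        exact mem_filter.mpr ⟨(mem_filter.mp h3).1, h4⟩
      have h3 : (#{e ∈ ET P k Q a b T w | x ≤ e.1.1 ∧ e.1.1 ≤ x + 1 / Kp} : ℝ) ≤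
          (#{e ∈ EW P k Q a b w | x ≤ e.1.1 ∧ e.1.1 ≤ x + 1 / Kp} : ℝ) := by exact_mod_cast h2
      have h4 : σ ^ 3 * (N / lam) ^ (4 / 3 : ℝ) ≤ σ * (N / lam) ^ (4 / 3 : ℝ) :=
        mul_le_mul_of_nonneg_right hσ3 (Real.rpow_nonneg hn.le _)
      linarith

/-- **S35** (steps 3, 4, 5 of line P) -/
theorem stS35 : StS35 := stS35_of stS35a stS35b

end Vale.Agent.P065.U.H792.S35
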