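import Vale.Agent.P065.UB.P.Defs

/-!
# P065, upper bound, line P: the two halves of `StS35` (helper792)
-/

set_option autoImplicit false

namespace Vale.Agent.P065.U.H792.S35

open Finset Vale.Agent.P065.UB Vale.Agent.P065.UB.P

open Classical in
/-- **S35b**: half of the windows have no concentration of edges in `x` at the scale `1 / Kp` -/
def StS35b : Prop :=
  ∃ m : ℕ, ∀ (K kp Kp ks Kpp lam N del κ : ℝ) (P : Finset Pt) (k : ℕ) (Q : Finset Pt)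
    (W : Finset ℕ) (a b : ℕ → ℝ), NWin K kp Kp ks Kpp lam N del P k Q W a b →
    2 ≤ K → 0 < kp → 0 < Kp → 0 < lam → 0 < N → 0 < κ → κ ≤ 1 → K ^ m * kp ≤ κ ^ 4 →
    K ^ m ≤ κ * (N / lam) ^ (1 / 3 : ℝ) →
    ∃ W' : Finset ℕ, W' ⊆ W ∧ #W ≤ 2 * #W' ∧ ∀ w ∈ W', ∀ x : ℝ,
      (#{e ∈ EW P k Q a b w | x ≤ e.1.1 ∧ e.1.1 ≤ x + 1 / Kp} : ℝ) ≤
        κ * (N / lam) ^ (4 / 3 : ℝ)

open Classical in
/-- **S35a**: one window: choice of the strip and of the spread set `T` -/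
def StS35a : Prop :=
  ∃ m : ℕ, ∀ (K Kp lam N del κ k3 α β : ℝ) (P : Finset Pt) (k : ℕ) (Q : Finset Pt),
    Good P → Q ⊆ P → (∀ p ∈ Q, 0 ≤ p.1 ∧ p.1 ≤ 1) → 0 < del → α ≤ β → β - α ≤ 2 * del →
    2 ≤ K → 0 < Kp → 0 < lam → 0 < N → 0 < κ → 0 < k3 → K ^ m * κ ≤ k3 → K ^ m * k3 ≤ 1 →
    K ^ m ≤ k3 * (N / lam) ^ (1 / 3 : ℝ) →
    lam * #(Tch P k Q (Set.Icc α β)) ≤ K * N → lam * #(EdBd P k Q (Set.Icc α β)) ≤ K * N →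
    (N / lam) ^ (4 / 3 : ℝ) ≤ K * #(EdIn P k Q (Set.Icc α β)) →
    (∀ x : ℝ, (#{e ∈ EdIn P k Q (Set.Icc α β) | x ≤ e.1.1 ∧ e.1.1 ≤ x + 1 / Kp} : ℝ) ≤
        κ * k3 * (N / lam) ^ (4 / 3 : ℝ)) →
    ∃ (be : ℝ) (T : Finset Pt), T ⊆ Tch P k Q (Set.Icc α β) ∧
      (∀ p ∈ T, be ≤ ht α p ∧ ht α p ≤ be + 2 * del) ∧ N ≤ K ^ m * (lam * #T) ∧
      (N / lam) ^ (4 / 3 : ℝ) ≤
        K ^ m * #{e ∈ EdIn P k Q (Set.Icc α β) | e.1 ∈ T ∧ e.2 ∈ T} ∧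
      ∀ x : ℝ, lam * #{p ∈ T | x ≤ p.1 ∧ p.1 ≤ x + 1 / Kp} ≤ k3 * N

end Vale.Agent.P065.U.H792.S35
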