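import Vale.Agent.P065.U.H792.Strips
import Vale.Agent.P065.U.H792.Front

/-!
# P065, upper bound: the best strip (helper792)
-/

set_option autoImplicit false

namespace Vale.Agent.P065.U.H792.Strips

open Finset Vale.Agent.P065.UB

/-- **THE BEST STRIP**: with `M = t + V` and `θ > 0` some strip carries
at least `(E - M - 3 C θ^(1/3) M) θ / (3 M)` edges. -/
theorem best_strip : ∃ C : ℝ, 0 < C ∧ ∀ (P : Finset Pt) (k : ℕ) (Q : Finset Pt) (I : Set ℝ),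
    Good P → Q ⊆ P → I.OrdConnected → ∀ a b H D θ : ℝ, 0 < H → (b - a) * D ≤ H → a ≤ b →
    (∀ e ∈ EdIn P k Q I, a ≤ slE e ∧ slE e ≤ b) → (∀ p ∈ Q, ∀ q ∈ Q, q.1 - p.1 ≤ D) → 0 < θ →
    ∃ i : ℤ, ((#(EdIn P k Q I) : ℝ) - (#(Tch P k Q I) + #(EdBd P k Q I))
        - C * θ ^ (1 / 3 : ℝ) * (#(Tch P k Q I) + #(EdBd P k Q I))) * θ
      ≤ 3 * (#(Tch P k Q I) + #(EdBd P k Q I)) * #(EdIn P k (Qs Q a H i) I) := by
  classical
  obtain ⟨C, hC, hDey⟩ := stDey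
  refine ⟨3 * C, by positivity, ?_⟩
  intro P k Q I hP hQP hI a b H D θ hH hD hba hab hQ hθ
  set M : ℝ := (#(Tch P k Q I) : ℝ) + #(EdBd P k Q I) with hM
  have hM0 : 0 ≤ M := by positivity
  set S : Finset ℤ := Q.image (strip a H) with hS
  set s : ℤ → ℝ := fun i =>
    (#(Tch P k (Qs Q a H i) I) : ℝ) + #(EdBd P k (Qs Q a H i) I) with hs
  set E : ℤ → ℝ := fun i => (#(EdIn P k (Qs Q a H i) I) : ℝ) with hE
  have hs0 : ∀ i, 0 ≤ s i := fun i => by simp only [hs]; positivity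
  have hsum : ∑ i ∈ S, s i ≤ 3 * M := by
    have h1 := sum_Tch (P := P) (k := k) (Q := Q) (I := I) (a := a) (H := H) S
    have h2 := sum_EdBd_le hP hQP hI hH hD hba hab hQ S
    have h3 : ∑ i ∈ S, s i = ((∑ i ∈ S, #(Tch P k (Qs Q a H i) I) : ℕ) : ℝ)
        + ((∑ i ∈ S, #(EdBd P k (Qs Q a H i) I) : ℕ) : ℝ) := by
      simp only [hs]
      push_cast
      rw [sum_add_distrib]
    rw [h3]
    have h1' : ((∑ i ∈ S, #(Tch P k (Qs Q a H i) I) : ℕ) : ℝ) ≤ (#(Tch P k Q I) : ℝ) := by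
      exact_mod_cast h1
    have h2' : ((∑ i ∈ S, #(EdBd P k (Qs Q a H i) I) : ℕ) : ℝ)
        ≤ 2 * (#(Tch P k Q I) : ℝ) + 3 * #(EdBd P k Q I) := by
      exact_mod_cast h2
    rw [hM]
    linarith
  have hcr : (#(CrE P k Q I a H) : ℝ) ≤ M := by
    rw [hM]
    exact_mod_cast card_CrE hP hQP hI hH hD hba hab hQ
  have hEs : (#(EdIn P k Q I) : ℝ) ≤ ∑ i ∈ S, E i + M := by
    have h1 := EdIn_le_sum (P := P) (k := k) (Q := Q) (I := I) (a := a) (H := H)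
    have h2 : (#(EdIn P k Q I) : ℝ) ≤ ((∑ i ∈ S, #(EdIn P k (Qs Q a H i) I) : ℕ) : ℝ)
        + (#(CrE P k Q I a H) : ℝ) := by exact_mod_cast h1
    simp only [hE]
    push_cast at h2
    linarith
  -- light strips
  have hlight : ∀ i, s i ≤ θ → E i ≤ C * θ ^ (1 / 3 : ℝ) * s i := by
    intro i hi
    have h1 := hDey P k (Qs Q a H i) I hP (Qs_sub.trans hQP) hI
    have h2 : ((#(Tch P k (Qs Q a H i) I) : ℝ) *
        (#(Tch P k (Qs Q a H i) I) + #(EdBd P k (Qs Q a H i) I))) ^ (2 / 3 : ℝ)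
        ≤ (s i * s i) ^ (2 / 3 : ℝ) := by
      apply Real.rpow_le_rpow (by positivity) _ (by norm_num)
      apply mul_le_mul_of_nonneg_right _ (hs0 i)
      simp only [hs]
      linarith [(Nat.cast_nonneg (#(EdBd P k (Qs Q a H i) I)) : (0:ℝ) ≤ _)]
    have h3 : (s i * s i) ^ (2 / 3 : ℝ) ≤ θ ^ (1 / 3 : ℝ) * s i := by
      rcases (hs0 i).eq_or_lt with h0 | h0
      · rw [← h0]
        rw [mul_zero, mul_zero, Real.zero_rpow (by norm_num)]
      · have h4 : (s i * s i) ^ (2 / 3 : ℝ) = s i ^ (1 / 3 : ℝ) * s i := by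
          rw [Real.mul_rpow h0.le h0.le, ← Real.rpow_add h0]
          nth_rewrite 3 [← Real.rpow_one (s i)]
          rw [← Real.rpow_add h0]
          norm_num
        rw [h4]
        apply mul_le_mul_of_nonneg_right _ h0.le
        exact Real.rpow_le_rpow h0.le hi (by norm_num)
    calc E i ≤ C * (s i * s i) ^ (2 / 3 : ℝ) := le_trans h1 (by gcongr)
      _ ≤ C * (θ ^ (1 / 3 : ℝ) * s i) := by gcongr
      _ = C * θ ^ (1 / 3 : ℝ) * s i := by ring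
  -- split
  set Hv : Finset ℤ := {i ∈ S | θ < s i} with hHv
  have hsplit : ∑ i ∈ S, E i ≤ ∑ i ∈ Hv, E i + C * θ ^ (1 / 3 : ℝ) * (3 * M) := by
    rw [← sum_filter_add_sum_filter_not S (fun i => θ < s i)]
    gcongr
    calc ∑ i ∈ S with ¬ θ < s i, E i ≤ ∑ i ∈ S with ¬ θ < s i, C * θ ^ (1 / 3 : ℝ) * s i := by
          apply sum_le_sum
          intro i hi
          exact hlight i (not_lt.mp (mem_filter.mp hi).2)
      _ = C * θ ^ (1 / 3 : ℝ) * ∑ i ∈ S with ¬ θ < s i, s i := by rw [mul_sum]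
      _ ≤ C * θ ^ (1 / 3 : ℝ) * (3 * M) := by
          gcongr
          refine le_trans ?_ hsum
          exact sum_le_sum_of_subset_of_nonneg (filter_subset _ _) fun i _ _ => hs0 i
  have hcard : (#Hv : ℝ) * θ ≤ 3 * M := by
    calc (#Hv : ℝ) * θ = ∑ i ∈ Hv, θ := by rw [sum_const, nsmul_eq_mul]
      _ ≤ ∑ i ∈ Hv, s i := sum_le_sum fun i hi => (mem_filter.mp hi).2.le
      _ ≤ ∑ i ∈ S, s i := sum_le_sum_of_subset_of_nonneg (filter_subset _ _) fun i _ _ => hs0 i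
      _ ≤ 3 * M := hsum
  rcases Hv.eq_empty_or_nonempty with h0 | h0
  · refine ⟨0, ?_⟩
    rw [h0, sum_empty] at hsplit
    have h1 : ((#(EdIn P k Q I) : ℝ) - M - 3 * C * θ ^ (1 / 3 : ℝ) * M) ≤ 0 := by nlinarith
    have h2 : 0 ≤ 3 * M * (#(EdIn P k (Qs Q a H 0) I) : ℝ) := by positivity
    nlinarith
  · obtain ⟨i, hi, hmax⟩ := exists_max_image Hv E h0
    refine ⟨i, ?_⟩
    have h1 : ∑ j ∈ Hv, E j ≤ #Hv * E i := by
      calc ∑ j ∈ Hv, E j ≤ ∑ j ∈ Hv, E i := sum_le_sum hmax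
        _ = #Hv * E i := by rw [sum_const, nsmul_eq_mul]
    have h2 : (#(EdIn P k Q I) : ℝ) - M - 3 * C * θ ^ (1 / 3 : ℝ) * M ≤ #Hv * E i := by
      nlinarith
    have h3 : ((#(EdIn P k Q I) : ℝ) - M - 3 * C * θ ^ (1 / 3 : ℝ) * M) * θ
        ≤ (#Hv * E i) * θ := mul_le_mul_of_nonneg_right h2 hθ.le
    have h4 : (#Hv * E i) * θ = (#Hv * θ) * E i := by ring
    have h5 : (#Hv * θ) * E i ≤ (3 * M) * E i :=
      mul_le_mul_of_nonneg_right hcard (by simp only [hE]; positivity)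
    linarith

end Vale.Agent.P065.U.H792.Strips
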