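import Vale.Agent.P065.U.H792.S35Defs
import Vale.Agent.P065.U.H792.Strips2
import Vale.Agent.P065.U.H792.DeyY
import Vale.Agent.P065.UB.WLov

/-!
# P065, upper bound, line P: `StS35a` (helper792)
-/

set_option autoImplicit false

namespace Vale.Agent.P065.U.H792.S35

open Finset Vale.Agent.P065.UB Vale.Agent.P065.UB.P Vale.Agent.P065.U.H792.Strips

/-- arithmetic of the choice of the strip -/
theorem arithA {E M y K C e : ℝ} (hy : 0 < y) (hK : 2 ≤ K) (hC : 0 < C) (hE : y ^ 4 ≤ K * E)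
    (hM0 : 0 ≤ M) (hM : M ≤ 2 * K * y ^ 3) (hyK : 8 * K ^ 2 ≤ y) (he : 0 ≤ e)
    (h : (E - M - C * (y / (8 * C * K ^ 2)) * M) * (y / (8 * C * K ^ 2)) ^ 3 ≤ 3 * M * e) :
    y ^ 4 ≤ 6144 * C ^ 3 * K ^ 8 * e := by
  have hK0 : 0 < K := by linarith
  have hz : 0 < y / (8 * C * K ^ 2) := by positivity
  have h1 : C * (y / (8 * C * K ^ 2)) * M = y * M / (8 * K ^ 2) := by
    field_simp
  have h2 : K * (y * M / (8 * K ^ 2)) ≤ y ^ 4 / 4 := by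
    have : K * (y * M / (8 * K ^ 2)) = y * M / (8 * K) := by field_simp
    rw [this, div_le_iff₀ (by positivity)]
    nlinarith [mul_le_mul_of_nonneg_left hM hy.le]
  have h3 : K * M ≤ y ^ 4 / 4 := by
    have h4 : K * M ≤ 2 * K ^ 2 * y ^ 3 := by nlinarith
    have h5 : 8 * K ^ 2 * y ^ 3 ≤ y * y ^ 3 := mul_le_mul_of_nonneg_right hyK (by positivity)
    nlinarith
  have h4 : K * E / 2 ≤ K * (E - M - C * (y / (8 * C * K ^ 2)) * M) := by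
    rw [h1]
    nlinarith
  have h5 : E / 2 ≤ E - M - C * (y / (8 * C * K ^ 2)) * M := by
    have : K * (E / 2) ≤ K * (E - M - C * (y / (8 * C * K ^ 2)) * M) := by linarith
    exact le_of_mul_le_mul_left this hK0
  have h6 : E / 2 * (y / (8 * C * K ^ 2)) ^ 3 ≤ 6 * K * y ^ 3 * e := by
    calc E / 2 * (y / (8 * C * K ^ 2)) ^ 3
        ≤ (E - M - C * (y / (8 * C * K ^ 2)) * M) * (y / (8 * C * K ^ 2)) ^ 3 :=
          mul_le_mul_of_nonneg_right h5 (by positivity)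
      _ ≤ 3 * M * e := h
      _ ≤ 3 * (2 * K * y ^ 3) * e := by gcongr
      _ = 6 * K * y ^ 3 * e := by ring
  have h7 : (y / (8 * C * K ^ 2)) ^ 3 = y ^ 3 / (512 * C ^ 3 * K ^ 6) := by
    rw [div_pow]
    ring_nf
  rw [h7] at h6
  have h8 : E / 2 * (y ^ 3 / (512 * C ^ 3 * K ^ 6)) = (E / (1024 * C ^ 3 * K ^ 6)) * y ^ 3 := by
    field_simp
    ring
  rw [h8] at h6
  have h9 : E / (1024 * C ^ 3 * K ^ 6) ≤ 6 * K * e := by
    have : E / (1024 * C ^ 3 * K ^ 6) * y ^ 3 ≤ 6 * K * e * y ^ 3 := by linarith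
    exact le_of_mul_le_mul_right this (by positivity)
  rw [div_le_iff₀ (by positivity)] at h9
  calc y ^ 4 ≤ K * E := hE
    _ ≤ K * (6 * K * e * (1024 * C ^ 3 * K ^ 6)) := by gcongr
    _ = 6144 * C ^ 3 * K ^ 8 * e := by ring

theorem cube_rpow {z : ℝ} (hz : 0 ≤ z) : (z ^ 3) ^ (1 / 3 : ℝ) = z := by
  rw [← Real.rpow_natCast, ← Real.rpow_mul hz]
  norm_num

/-- choice of the strip, `y ^ 3 = N / lam` -/
theorem strip_choice : ∃ a : ℕ, ∀ (P : Finset Pt) (k : ℕ) (Q : Finset Pt) (I : Set ℝ),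
    Good P → Q ⊆ P → I.OrdConnected → ∀ α β H K y : ℝ, 0 < H → β - α ≤ H → α ≤ β →
    (∀ e ∈ EdIn P k Q I, α ≤ slE e ∧ slE e ≤ β) → (∀ p ∈ Q, 0 ≤ p.1 ∧ p.1 ≤ 1) → 2 ≤ K →
    8 * K ^ 2 ≤ y → (#(Tch P k Q I) : ℝ) + #(EdBd P k Q I) ≤ 2 * K * y ^ 3 →
    y ^ 4 ≤ K * #(EdIn P k Q I) →
    ∃ i : ℤ, y ^ 4 ≤ K ^ a * #(EdIn P k (Qs Q α H i) I) := by
  obtain ⟨C, hC, hbs⟩ := best_strip
  obtain ⟨d, hd⟩ := pow_unbounded_of_one_lt C (by norm_num : (1 : ℝ) < 2)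
  refine ⟨13 + 3 * d + 8, ?_⟩
  intro P k Q I hP hQP hI α β H K y hH hβα hαβ hab hQ hK hyK hM hE
  have hK0 : 0 < K := by linarith
  have hy : 0 < y := by nlinarith [sq_nonneg K]
  have hz : 0 < y / (8 * C * K ^ 2) := by positivity
  obtain ⟨i, hi⟩ := hbs P k Q I hP hQP hI α β H 1 ((y / (8 * C * K ^ 2)) ^ 3) hH
    (by linarith) hαβ hab (fun p hp q hq => by linarith [hQ p hp, hQ q hq]) (by positivity)
  rw [cube_rpow hz.le] at hi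
  refine ⟨i, ?_⟩
  have h1 := arithA hy hK hC hE (by positivity) hM hyK (Nat.cast_nonneg _) hi
  refine h1.trans ?_
  have hCK : C ≤ K ^ d := hd.le.trans (pow_le_pow_left₀ (by norm_num) hK d)
  have h2 : (6144 : ℝ) ≤ K ^ 13 := by
    calc (6144 : ℝ) ≤ 2 ^ 13 := by norm_num
      _ ≤ K ^ 13 := pow_le_pow_left₀ (by norm_num) hK 13
  have h3 : C ^ 3 ≤ K ^ (3 * d) := by
    calc C ^ 3 ≤ (K ^ d) ^ 3 := pow_le_pow_left₀ hC.le hCK 3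
      _ = K ^ (3 * d) := by rw [← pow_mul, mul_comm]
  calc 6144 * C ^ 3 * K ^ 8 * (#(EdIn P k (Qs Q α H i) I) : ℝ)
      ≤ K ^ 13 * K ^ (3 * d) * K ^ 8 * (#(EdIn P k (Qs Q α H i) I) : ℝ) := by gcongr
    _ = K ^ (13 + 3 * d + 8) * (#(EdIn P k (Qs Q α H i) I) : ℝ) := by
        rw [pow_add, pow_add]

/-- `(N / lam) ^ (4 / 3)` in terms of the cube root -/
theorem rpow43 {n : ℝ} (hn : 0 < n) :
    n ^ (4 / 3 : ℝ) = (n ^ (1 / 3 : ℝ)) ^ 4 ∧ (n ^ (1 / 3 : ℝ)) ^ 3 = n := by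
  constructor
  · rw [← Real.rpow_natCast, ← Real.rpow_mul hn.le]
    norm_num
  · rw [← Real.rpow_natCast, ← Real.rpow_mul hn.le]
    norm_num

open Classical in
/-- crossings of a vertical line -/
theorem vert {P : Finset Pt} (hP : Good P) {k : ℕ} {Q : Finset Pt} {I : Set ℝ}
    (hI : I.OrdConnected) (x : ℝ) :
    #{e ∈ EdIn P k Q I | e.1.1 < x ∧ x ≤ e.2.1} ≤ #(Tch P k Q I) + #(EdBd P k Q I) := by
  refine le_trans (card_le_card ?_) (RankAux.halfplane hP hI (RankAux.isHalf_lt 1 0 x))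
  intro e he
  simp only [mem_filter] at he ⊢
  refine ⟨he.1, Or.inl ⟨?_, ?_⟩⟩
  · simp only [Set.mem_setOf_eq, one_mul, zero_mul, add_zero]
    exact he.2.1
  · simp only [Set.mem_setOf_eq, one_mul, zero_mul, add_zero, not_lt]
    exact he.2.2


/-- the cell of the abscissa at the scale `1 / Kp` -/
noncomputable def gx (Kp : ℝ) (p : Pt) : ℤ := ⌊p.1 * Kp⌋

open Classical in
/-- the cells with more than `τ` points of `A` -/
noncomputable def Bad (Kp τ : ℝ) (A : Finset Pt) : Finset ℤ :=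
  {i ∈ A.image (gx Kp) | τ < (#{p ∈ A | gx Kp p = i} : ℝ)}

open Classical in
/-- the points outside the bad cells -/
noncomputable def Sp (Kp τ : ℝ) (A : Finset Pt) : Finset Pt :=
  {p ∈ A | gx Kp p ∉ Bad Kp τ A}

theorem card_Bad (Kp τ : ℝ) (A : Finset Pt) : (#(Bad Kp τ A) : ℝ) * τ ≤ #A := by
  classical
  have h1 : (#(Bad Kp τ A) : ℝ) * τ ≤ ∑ i ∈ Bad Kp τ A, (#{p ∈ A | gx Kp p = i} : ℝ) := by
    calc (#(Bad Kp τ A) : ℝ) * τ = ∑ i ∈ Bad Kp τ A, τ := by rw [sum_const, nsmul_eq_mul]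
      _ ≤ ∑ i ∈ Bad Kp τ A, (#{p ∈ A | gx Kp p = i} : ℝ) :=
        sum_le_sum fun i hi => (mem_filter.mp hi).2.le
  have h2 : ∑ i ∈ Bad Kp τ A, #{p ∈ A | gx Kp p = i} ≤ #A := by
    rw [← card_biUnion]
    · exact card_le_card (biUnion_subset.mpr fun i _ => filter_subset _ _)
    · intro i _ j _ hij
      rw [Function.onFun, disjoint_left]
      intro v hv hv'
      exact hij ((mem_filter.mp hv).2.symm.trans (mem_filter.mp hv').2)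
  have h3 : (∑ i ∈ Bad Kp τ A, (#{p ∈ A | gx Kp p = i} : ℝ)) ≤ #A := by exact_mod_cast h2
  linarith

/-- a real interval of length `1 / Kp` meets two cells -/
theorem gx_two {Kp : ℝ} (hKp : 0 < Kp) {x : ℝ} {p : Pt} (h1 : x ≤ p.1) (h2 : p.1 ≤ x + 1 / Kp) :
    gx Kp p = ⌊x * Kp⌋ ∨ gx Kp p = ⌊x * Kp⌋ + 1 := by
  unfold gx
  have h3 : x * Kp ≤ p.1 * Kp := by nlinarith
  have h4 : p.1 * Kp ≤ x * Kp + 1 := by
    have : p.1 * Kp ≤ (x + 1 / Kp) * Kp := by nlinarith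
    have h5 : (x + 1 / Kp) * Kp = x * Kp + 1 := by field_simp
    linarith
  have h5 := Int.floor_le_floor h3
  have h6 := Int.floor_le_floor h4
  rw [Int.floor_add_one] at h6
  omega

theorem Sp_spread {Kp τ : ℝ} (hKp : 0 < Kp) (hτ : 0 ≤ τ) (A : Finset Pt) (x : ℝ) :
    (#{p ∈ Sp Kp τ A | x ≤ p.1 ∧ p.1 ≤ x + 1 / Kp} : ℝ) ≤ 2 * τ := by
  classical
  have hfib : ∀ i : ℤ, (#{p ∈ Sp Kp τ A | gx Kp p = i} : ℝ) ≤ τ := by
    intro i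
    rcases Finset.eq_empty_or_nonempty {p ∈ Sp Kp τ A | gx Kp p = i} with h0 | ⟨p, hp⟩
    · rw [h0]
      simpa using hτ
    · obtain ⟨h1, h2⟩ := mem_filter.mp hp
      obtain ⟨h3, h4⟩ := mem_filter.mp h1
      rw [h2] at h4
      have h5 : ¬ τ < (#{p ∈ A | gx Kp p = i} : ℝ) := by
        intro h6
        exact h4 (mem_filter.mpr ⟨mem_image.mpr ⟨p, h3, h2⟩, h6⟩)
      have h6 : #{p ∈ Sp Kp τ A | gx Kp p = i} ≤ #{p ∈ A | gx Kp p = i} := by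
        refine card_le_card fun v hv => ?_
        obtain ⟨h7, h8⟩ := mem_filter.mp hv
        exact mem_filter.mpr ⟨(mem_filter.mp h7).1, h8⟩
      have h7 : (#{p ∈ Sp Kp τ A | gx Kp p = i} : ℝ) ≤ (#{p ∈ A | gx Kp p = i} : ℝ) := by
        exact_mod_cast h6
      linarith [not_lt.mp h5]
  have h1 : #{p ∈ Sp Kp τ A | x ≤ p.1 ∧ p.1 ≤ x + 1 / Kp} ≤
      #{p ∈ Sp Kp τ A | gx Kp p = ⌊x * Kp⌋} + #{p ∈ Sp Kp τ A | gx Kp p = ⌊x * Kp⌋ + 1} := by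
    refine le_trans (card_le_card ?_) (card_union_le _ _)
    intro p hp
    obtain ⟨h2, h3, h4⟩ := mem_filter.mp hp
    rw [mem_union, mem_filter, mem_filter]
    rcases gx_two hKp h3 h4 with h5 | h5
    · exact Or.inl ⟨h2, h5⟩
    · exact Or.inr ⟨h2, h5⟩
  have h2 : (#{p ∈ Sp Kp τ A | x ≤ p.1 ∧ p.1 ≤ x + 1 / Kp} : ℝ) ≤
      (#{p ∈ Sp Kp τ A | gx Kp p = ⌊x * Kp⌋} : ℝ)
        + #{p ∈ Sp Kp τ A | gx Kp p = ⌊x * Kp⌋ + 1} := by exact_mod_cast h1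
  linarith [hfib ⌊x * Kp⌋, hfib (⌊x * Kp⌋ + 1)]

open Classical in
/-- the edges which are lost -/
theorem edges_lost {P : Finset Pt} (hP : Good P) {k : ℕ} {Q S : Finset Pt} {I : Set ℝ}
    (hSQ : S ⊆ Q) (hI : I.OrdConnected) {Kp τ c : ℝ} (hKp : 0 < Kp)
    (hc : ∀ x : ℝ, (#{e ∈ EdIn P k Q I | x ≤ e.1.1 ∧ e.1.1 ≤ x + 1 / Kp} : ℝ) ≤ c) :
    (#(EdIn P k S I) : ℝ) ≤
      #{e ∈ EdIn P k Q I | e.1 ∈ Sp Kp τ (Tch P k S I) ∧ e.2 ∈ Sp Kp τ (Tch P k S I)}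
      + #(Bad Kp τ (Tch P k S I)) * c
      + #(Bad Kp τ (Tch P k S I)) * (#(Tch P k Q I) + #(EdBd P k Q I)) := by
  set A := Tch P k S I with hA
  set B := Bad Kp τ A with hB
  have hsub : EdIn P k S I ⊆
      {e ∈ EdIn P k Q I | e.1 ∈ Sp Kp τ A ∧ e.2 ∈ Sp Kp τ A} ∪
      (B.biUnion (fun i => {e ∈ EdIn P k Q I | (i : ℝ) / Kp ≤ e.1.1 ∧
          e.1.1 ≤ (i : ℝ) / Kp + 1 / Kp}) ∪
        B.biUnion (fun i => {e ∈ EdIn P k Q I | e.1.1 < (i : ℝ) / Kp ∧ (i : ℝ) / Kp ≤ e.2.1})) := by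
    intro e he
    have he' := mem_EdIn.mp he
    have heQ : e ∈ EdIn P k Q I := mem_EdIn.mpr ⟨he'.1, hSQ he'.2.1, hSQ he'.2.2.1, he'.2.2.2⟩
    have h1 : e.1 ∈ A := mem_Tch.mpr ⟨he'.2.1, e, he, Or.inl rfl⟩
    have h2 : e.2 ∈ A := mem_Tch.mpr ⟨he'.2.2.1, e, he, Or.inr rfl⟩
    have hcell : ∀ v : Pt, ((gx Kp v : ℤ) : ℝ) / Kp ≤ v.1 ∧
        v.1 ≤ ((gx Kp v : ℤ) : ℝ) / Kp + 1 / Kp := by
      intro v
      unfold gx
      have f1 := Int.floor_le (v.1 * Kp)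
      have f2 := (Int.lt_floor_add_one (v.1 * Kp)).le
      constructor
      · rw [div_le_iff₀ hKp]
        exact f1
      · rw [← add_div, le_div_iff₀ hKp]
        exact f2
    by_cases c1 : gx Kp e.1 ∈ B
    · rw [mem_union]
      right
      rw [mem_union]
      left
      rw [mem_biUnion]
      exact ⟨gx Kp e.1, c1, mem_filter.mpr ⟨heQ, hcell e.1⟩⟩
    · by_cases c2 : gx Kp e.2 ∈ B
      · rw [mem_union]
        right
        rw [mem_union]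
        right
        rw [mem_biUnion]
        refine ⟨gx Kp e.2, c2, mem_filter.mpr ⟨heQ, ?_, (hcell e.2).1⟩⟩
        have hlt := EdIn.lt he
        have h3 : gx Kp e.1 ≤ gx Kp e.2 := by
          unfold gx
          exact Int.floor_le_floor (by nlinarith)
        have h4 : gx Kp e.1 ≠ gx Kp e.2 := fun h => c1 (h ▸ c2)
        have h5 : gx Kp e.1 + 1 ≤ gx Kp e.2 := by omega
        have h6 : e.1.1 * Kp < ((gx Kp e.1 : ℤ) : ℝ) + 1 := Int.lt_floor_add_one _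
        have h7 : ((gx Kp e.1 : ℤ) : ℝ) + 1 ≤ ((gx Kp e.2 : ℤ) : ℝ) := by exact_mod_cast h5
        rw [lt_div_iff₀ hKp]
        linarith
      · rw [mem_union]
        left
        exact mem_filter.mpr ⟨heQ, mem_filter.mpr ⟨h1, c1⟩, mem_filter.mpr ⟨h2, c2⟩⟩
  have h1 := card_le_card hsub
  have h2 := h1.trans (card_union_le _ _)
  have h3 : #(B.biUnion (fun i => {e ∈ EdIn P k Q I | (i : ℝ) / Kp ≤ e.1.1 ∧
          e.1.1 ≤ (i : ℝ) / Kp + 1 / Kp}) ∪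
        B.biUnion (fun i => {e ∈ EdIn P k Q I | e.1.1 < (i : ℝ) / Kp ∧ (i : ℝ) / Kp ≤ e.2.1})) ≤
      ∑ i ∈ B, #{e ∈ EdIn P k Q I | (i : ℝ) / Kp ≤ e.1.1 ∧ e.1.1 ≤ (i : ℝ) / Kp + 1 / Kp}
      + ∑ i ∈ B, #{e ∈ EdIn P k Q I | e.1.1 < (i : ℝ) / Kp ∧ (i : ℝ) / Kp ≤ e.2.1} :=
    (card_union_le _ _).trans (add_le_add card_biUnion_le card_biUnion_le)
  have h4 : (∑ i ∈ B, (#{e ∈ EdIn P k Q I | (i : ℝ) / Kp ≤ e.1.1 ∧
      e.1.1 ≤ (i : ℝ) / Kp + 1 / Kp} : ℝ)) ≤ #B * c := by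
    calc _ ≤ ∑ i ∈ B, c := sum_le_sum fun i _ => hc _
      _ = #B * c := by rw [sum_const, nsmul_eq_mul]
  have h5 : (∑ i ∈ B, (#{e ∈ EdIn P k Q I | e.1.1 < (i : ℝ) / Kp ∧ (i : ℝ) / Kp ≤ e.2.1} : ℝ)) ≤
      #B * (#(Tch P k Q I) + #(EdBd P k Q I)) := by
    calc _ ≤ ∑ i ∈ B, ((#(Tch P k Q I) : ℝ) + #(EdBd P k Q I)) := by
          refine sum_le_sum fun i _ => ?_
          exact_mod_cast vert hP hI ((i : ℝ) / Kp)
      _ = #B * (#(Tch P k Q I) + #(EdBd P k Q I)) := by rw [sum_const, nsmul_eq_mul]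
  have h6 : (#(EdIn P k S I) : ℝ) ≤
      #{e ∈ EdIn P k Q I | e.1 ∈ Sp Kp τ A ∧ e.2 ∈ Sp Kp τ A} +
      (∑ i ∈ B, (#{e ∈ EdIn P k Q I | (i : ℝ) / Kp ≤ e.1.1 ∧
          e.1.1 ≤ (i : ℝ) / Kp + 1 / Kp} : ℝ)
        + ∑ i ∈ B, (#{e ∈ EdIn P k Q I | e.1.1 < (i : ℝ) / Kp ∧ (i : ℝ) / Kp ≤ e.2.1} : ℝ)) := by
    have h7 := h2.trans (Nat.add_le_add_left h3 _)
    exact_mod_cast h7
  linarith

end Vale.Agent.P065.U.H792.S35
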