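import Vale.Agent.P065.U.H792.S35a

/-!
# P065, upper bound, line P: `StS35a`, assembly (helper792)
-/

set_option autoImplicit false

namespace Vale.Agent.P065.U.H792.S35

open Finset Vale.Agent.P065.UB Vale.Agent.P065.UB.P Vale.Agent.P065.U.H792.Strips

/-- arithmetic: the edges which survive -/
theorem arithB {K κ k3 y B e ET : ℝ} {a m : ℕ} (hm : a + 6 ≤ m) (hK : 2 ≤ K) (hy : 0 < y)
    (hκ : 0 < κ) (hk3 : 0 < k3) (h1 : K ^ m * κ ≤ k3) (h2 : K ^ m * k3 ≤ 1)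
    (h3 : K ^ m ≤ k3 * y) (hB0 : 0 ≤ B) (hB : B * k3 ≤ 2 * K) (he : y ^ 4 ≤ K ^ a * e)
    (hl : e ≤ ET + B * (κ * k3 * y ^ 4) + B * (2 * K * y ^ 3)) :
    y ^ 4 ≤ 2 * K ^ a * ET := by
  have hK0 : 0 < K := by linarith
  have hK1 : (1 : ℝ) ≤ K := by linarith
  have hk31 : k3 ≤ 1 := by
    have : (1 : ℝ) ≤ K ^ m := one_le_pow₀ hK1
    nlinarith
  have p1 : 16 * K ^ (a + 2) ≤ K ^ m := by
    calc 16 * K ^ (a + 2) ≤ K ^ 4 * K ^ (a + 2) := by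
          have : (16 : ℝ) ≤ K ^ 4 := by
            calc (16 : ℝ) = 2 ^ 4 := by norm_num
              _ ≤ K ^ 4 := pow_le_pow_left₀ (by norm_num) hK 4
          gcongr
      _ = K ^ (a + 6) := by rw [← pow_add]; congr 1; omega
      _ ≤ K ^ m := pow_le_pow_right₀ hK1 hm
  have p2 : 8 * K ^ (a + 1) ≤ K ^ m := by
    have : K ^ (a + 1) ≤ K ^ (a + 2) := pow_le_pow_right₀ hK1 (by omega)
    nlinarith [pow_pos hK0 (a + 2)]
  -- first loss
  have l1 : K ^ a * (B * (κ * k3 * y ^ 4)) ≤ y ^ 4 / 4 := by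
    have q1 : B * (κ * k3 * y ^ 4) ≤ 2 * K * κ * y ^ 4 := by
      calc B * (κ * k3 * y ^ 4) = (B * k3) * (κ * y ^ 4) := by ring
        _ ≤ (2 * K) * (κ * y ^ 4) := by gcongr
        _ = 2 * K * κ * y ^ 4 := by ring
    have q2 : 8 * K ^ (a + 1) * κ ≤ 1 := by
      calc 8 * K ^ (a + 1) * κ ≤ K ^ m * κ := by gcongr
        _ ≤ k3 := h1
        _ ≤ 1 := hk31
    calc K ^ a * (B * (κ * k3 * y ^ 4)) ≤ K ^ a * (2 * K * κ * y ^ 4) := by gcongr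
      _ = (8 * K ^ (a + 1) * κ) * (y ^ 4 / 4) := by ring
      _ ≤ 1 * (y ^ 4 / 4) := by gcongr
      _ = y ^ 4 / 4 := one_mul _
  -- second loss
  have l2 : K ^ a * (B * (2 * K * y ^ 3)) ≤ y ^ 4 / 4 := by
    have q1 : k3 * (B * (2 * K * y ^ 3)) ≤ 4 * K ^ 2 * y ^ 3 := by
      calc k3 * (B * (2 * K * y ^ 3)) = (B * k3) * (2 * K * y ^ 3) := by ring
        _ ≤ (2 * K) * (2 * K * y ^ 3) := by gcongr
        _ = 4 * K ^ 2 * y ^ 3 := by ring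
    have q2 : k3 * (K ^ a * (B * (2 * K * y ^ 3))) ≤ k3 * (y ^ 4 / 4) := by
      calc k3 * (K ^ a * (B * (2 * K * y ^ 3))) = K ^ a * (k3 * (B * (2 * K * y ^ 3))) := by ring
        _ ≤ K ^ a * (4 * K ^ 2 * y ^ 3) := by gcongr
        _ = (16 * K ^ (a + 2)) * (y ^ 3 / 4) := by ring
        _ ≤ K ^ m * (y ^ 3 / 4) := by gcongr
        _ ≤ (k3 * y) * (y ^ 3 / 4) := by gcongr
        _ = k3 * (y ^ 4 / 4) := by ring
    exact le_of_mul_le_mul_left q2 hk3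
  have hfin : y ^ 4 ≤ K ^ a * ET + y ^ 4 / 4 + y ^ 4 / 4 := by
    calc y ^ 4 ≤ K ^ a * e := he
      _ ≤ K ^ a * (ET + B * (κ * k3 * y ^ 4) + B * (2 * K * y ^ 3)) := by gcongr
      _ = K ^ a * ET + K ^ a * (B * (κ * k3 * y ^ 4)) + K ^ a * (B * (2 * K * y ^ 3)) := by ring
      _ ≤ K ^ a * ET + y ^ 4 / 4 + y ^ 4 / 4 := by linarith
  linarith

/-- arithmetic: the number of points of `T` -/
theorem arithC {K y ET T t V : ℝ} {a m : ℕ} (hm : 3 * a + 33 ≤ m) (hK : 2 ≤ K) (hy : 0 < y)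
    (hyK : K ^ m ≤ y) (hT : 0 ≤ T) (ht0 : 0 ≤ t) (hV0 : 0 ≤ V) (ht : t ≤ K * y ^ 3)
    (hV : V ≤ K * y ^ 3) (hE : y ^ 4 ≤ 2 * K ^ a * ET)
    (hd : ET ≤ 106 * ((t + V) ^ (2 / 3 : ℝ) * (T * t) ^ (1 / 3 : ℝ) + (t + V))) :
    y ^ 3 ≤ K ^ m * T := by
  have hK0 : 0 < K := by linarith
  have hK1 : (1 : ℝ) ≤ K := by linarith
  set z : ℝ := T ^ (1 / 3 : ℝ) with hz
  have hz0 : 0 ≤ z := Real.rpow_nonneg hT _
  have hz3 : z ^ 3 = T := by
    rw [hz, ← Real.rpow_natCast, ← Real.rpow_mul hT]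
    norm_num
  have hM : t + V ≤ 2 * K * y ^ 3 := by linarith
  have hM0 : 0 < 2 * K * y ^ 3 := by positivity
  have h1 : (t + V) ^ (2 / 3 : ℝ) ≤ (2 * K * y ^ 3) ^ (2 / 3 : ℝ) :=
    Real.rpow_le_rpow (by linarith) hM (by norm_num)
  have h2 : (T * t) ^ (1 / 3 : ℝ) ≤ z * (2 * K * y ^ 3) ^ (1 / 3 : ℝ) := by
    rw [hz, ← Real.mul_rpow hT hM0.le]
    apply Real.rpow_le_rpow (by positivity) _ (by norm_num)
    apply mul_le_mul_of_nonneg_left _ hT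
    nlinarith [pow_pos hy 3]
  have h3 : (2 * K * y ^ 3) ^ (2 / 3 : ℝ) * (2 * K * y ^ 3) ^ (1 / 3 : ℝ) = 2 * K * y ^ 3 := by
    rw [← Real.rpow_add hM0]
    norm_num
  have h4 : (t + V) ^ (2 / 3 : ℝ) * (T * t) ^ (1 / 3 : ℝ) ≤ 2 * K * y ^ 3 * z := by
    calc (t + V) ^ (2 / 3 : ℝ) * (T * t) ^ (1 / 3 : ℝ)
        ≤ (2 * K * y ^ 3) ^ (2 / 3 : ℝ) * (z * (2 * K * y ^ 3) ^ (1 / 3 : ℝ)) := by
          gcongr
      _ = ((2 * K * y ^ 3) ^ (2 / 3 : ℝ) * (2 * K * y ^ 3) ^ (1 / 3 : ℝ)) * z := by ring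
      _ = 2 * K * y ^ 3 * z := by rw [h3]
  have h5 : ET ≤ 106 * (2 * K * y ^ 3 * z + 2 * K * y ^ 3) := by linarith
  have h6 : y ^ 4 ≤ 424 * K ^ (a + 1) * (z + 1) * y ^ 3 := by
    calc y ^ 4 ≤ 2 * K ^ a * ET := hE
      _ ≤ 2 * K ^ a * (106 * (2 * K * y ^ 3 * z + 2 * K * y ^ 3)) := by gcongr
      _ = 424 * K ^ (a + 1) * (z + 1) * y ^ 3 := by ring
  have h7 : y ≤ 424 * K ^ (a + 1) * (z + 1) := by
    have : y * y ^ 3 ≤ 424 * K ^ (a + 1) * (z + 1) * y ^ 3 := by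
      calc y * y ^ 3 = y ^ 4 := by ring
        _ ≤ _ := h6
    exact le_of_mul_le_mul_right this (by positivity)
  have h8 : 424 * K ^ (a + 1) ≤ K ^ (a + 10) := by
    calc 424 * K ^ (a + 1) ≤ K ^ 9 * K ^ (a + 1) := by
          have : (424 : ℝ) ≤ K ^ 9 := by
            calc (424 : ℝ) ≤ 2 ^ 9 := by norm_num
              _ ≤ K ^ 9 := pow_le_pow_left₀ (by norm_num) hK 9
          gcongr
      _ = K ^ (a + 10) := by rw [← pow_add]; congr 1; omega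
  have h9 : y ≤ K ^ (a + 10) * (z + 1) := h7.trans (by gcongr)
  have h10 : 2 * K ^ (a + 10) ≤ y := by
    calc 2 * K ^ (a + 10) ≤ K * K ^ (a + 10) := by gcongr
      _ = K ^ (a + 11) := by rw [← pow_succ']
      _ ≤ K ^ m := pow_le_pow_right₀ hK1 (by omega)
      _ ≤ y := hyK
  have h11 : y ≤ 2 * K ^ (a + 10) * z := by nlinarith
  calc y ^ 3 ≤ (2 * K ^ (a + 10) * z) ^ 3 := pow_le_pow_left₀ hy.le h11 3
    _ = 8 * K ^ (3 * a + 30) * T := by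
        rw [mul_pow, mul_pow, hz3, ← pow_mul]
        norm_num
        left
        congr 1
        ring
    _ ≤ K ^ 3 * K ^ (3 * a + 30) * T := by
        have : (8 : ℝ) ≤ K ^ 3 := by
          calc (8 : ℝ) = 2 ^ 3 := by norm_num
            _ ≤ K ^ 3 := pow_le_pow_left₀ (by norm_num) hK 3
        gcongr
    _ = K ^ (3 * a + 33) * T := by
        rw [← pow_add]
        congr 2
        omega
    _ ≤ K ^ m * T := by
        have := pow_le_pow_right₀ hK1 hm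
        gcongr

theorem stS35a : StS35a := by
  classical
  obtain ⟨a, hsc⟩ := strip_choice
  refine ⟨3 * a + 40, ?_⟩
  intro K Kp lam N del κ k3 α β P k Q hP hQP hbox hdel hαβ hlen hK hKp hlam hN hκ hk3 h1 h2 h3
    htt hV hE hx
  obtain ⟨m, hm⟩ : ∃ m : ℕ, m = 3 * a + 40 := ⟨_, rfl⟩
  rw [← hm] at h1 h2 h3 ⊢
  have hK0 : 0 < K := by linarith
  have hK1 : (1 : ℝ) ≤ K := by linarith
  have hn : 0 < N / lam := by positivity
  obtain ⟨r1, r2⟩ := rpow43 hn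
  set y : ℝ := (N / lam) ^ (1 / 3 : ℝ) with hy'
  have hy : 0 < y := Real.rpow_pos_of_pos hn _
  rw [r1] at hE hx ⊢
  have hNy : N = lam * y ^ 3 := by
    rw [r2]
    field_simp
  set I : Set ℝ := Set.Icc α β with hI'
  have hI : I.OrdConnected := Set.ordConnected_Icc
  have hab : ∀ e ∈ EdIn P k Q I, α ≤ slE e ∧ slE e ≤ β := fun e he => (mem_EdIn.mp he).2.2.2
  have ht' : (#(Tch P k Q I) : ℝ) ≤ K * y ^ 3 := by
    have : lam * (#(Tch P k Q I) : ℝ) ≤ lam * (K * y ^ 3) := by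
      calc lam * (#(Tch P k Q I) : ℝ) ≤ K * N := htt
        _ = lam * (K * y ^ 3) := by rw [hNy]; ring
    exact le_of_mul_le_mul_left this hlam
  have hV' : (#(EdBd P k Q I) : ℝ) ≤ K * y ^ 3 := by
    have : lam * (#(EdBd P k Q I) : ℝ) ≤ lam * (K * y ^ 3) := by
      calc lam * (#(EdBd P k Q I) : ℝ) ≤ K * N := hV
        _ = lam * (K * y ^ 3) := by rw [hNy]; ring
    exact le_of_mul_le_mul_left this hlam
  have hKm : (1 : ℝ) ≤ K ^ m := one_le_pow₀ hK1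
  have hk31 : k3 ≤ 1 := by nlinarith
  have hym : K ^ m ≤ y := by nlinarith
  have hy8 : 8 * K ^ 2 ≤ y := by
    calc 8 * K ^ 2 ≤ K ^ 3 * K ^ 2 := by
          have : (8 : ℝ) ≤ K ^ 3 := by
            calc (8 : ℝ) = 2 ^ 3 := by norm_num
              _ ≤ K ^ 3 := pow_le_pow_left₀ (by norm_num) hK 3
          gcongr
      _ = K ^ 5 := by ring
      _ ≤ K ^ m := pow_le_pow_right₀ hK1 (by omega)
      _ ≤ y := hym
  obtain ⟨i, hi⟩ := hsc P k Q I hP hQP hI α β (2 * del) K y (by linarith) hlen hαβ hab hbox hK hy8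
    (by linarith) hE
  set S : Finset Pt := Qs Q α (2 * del) i with hS
  set τ : ℝ := k3 * y ^ 3 / 2 with hτ
  have hτ0 : 0 < τ := by positivity
  set A : Finset Pt := Tch P k S I with hA
  have hSQ : S ⊆ Q := Qs_sub
  have hAt : (#A : ℝ) ≤ K * y ^ 3 := by
    have : (#A : ℝ) ≤ #(Tch P k Q I) := by exact_mod_cast card_le_card Tch_Qs_sub
    linarith
  set B : ℝ := (#(Bad Kp τ A) : ℝ) with hB
  have hBk : B * k3 ≤ 2 * K := by
    have q1 : B * τ ≤ K * y ^ 3 := (card_Bad Kp τ A).trans hAt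
    have q2 : (B * k3) * y ^ 3 ≤ (2 * K) * y ^ 3 := by
      rw [hτ] at q1
      linarith
    exact le_of_mul_le_mul_right q2 (by positivity)
  have hlost := edges_lost (τ := τ) hP (k := k) (S := S) hSQ hI hKp (c := κ * k3 * y ^ 4) hx
  set ET : ℝ := (#{e ∈ EdIn P k Q I | e.1 ∈ Sp Kp τ A ∧ e.2 ∈ Sp Kp τ A} : ℝ) with hET
  have hB0 : 0 ≤ B := Nat.cast_nonneg _
  have hl2 : (#(EdIn P k S I) : ℝ) ≤ ET + B * (κ * k3 * y ^ 4) + B * (2 * K * y ^ 3) := by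
    refine hlost.trans ?_
    have : B * ((#(Tch P k Q I) : ℝ) + #(EdBd P k Q I)) ≤ B * (2 * K * y ^ 3) := by
      apply mul_le_mul_of_nonneg_left _ hB0
      linarith
    linarith
  have hfin := arithB (m := m) (by omega) hK hy hκ hk3 h1 h2 h3 hB0 hBk hi hl2
  have hTsub : Sp Kp τ A ⊆ Tch P k Q I := (filter_subset _ _).trans Tch_Qs_sub
  have hdey := deyY P k Q I hP hQP hI (Sp Kp τ A) hTsub
  have hETY : ET ≤ (#(EdY P k Q I (Sp Kp τ A)) : ℝ) := by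
    rw [hET]
    have : #{e ∈ EdIn P k Q I | e.1 ∈ Sp Kp τ A ∧ e.2 ∈ Sp Kp τ A} ≤
        #(EdY P k Q I (Sp Kp τ A)) := by
      refine card_le_card fun e he => ?_
      obtain ⟨h5, h6, _⟩ := mem_filter.mp he
      exact mem_EdY.mpr ⟨h5, Or.inl h6⟩
    exact_mod_cast this
  have hT3 := arithC (m := m) (T := (#(Sp Kp τ A) : ℝ)) (t := (#(Tch P k Q I) : ℝ))
    (V := (#(EdBd P k Q I) : ℝ)) (by omega) hK hy hym (Nat.cast_nonneg _) (Nat.cast_nonneg _)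
    (Nat.cast_nonneg _) ht' hV' hfin (by
      refine hETY.trans ?_
      push_cast at hdey
      exact hdey)
  refine ⟨(i : ℝ) * (2 * del), Sp Kp τ A, hTsub, ?_, ?_, ?_, ?_⟩
  · intro p hp
    have hpS : p ∈ S := (mem_Tch.mp (mem_filter.mp hp).1).1
    have hst : strip α (2 * del) p = i := (mem_Qs.mp hpS).2
    unfold strip at hst
    have h2d : 0 < 2 * del := by linarith
    have f1 := Int.floor_le (ht α p / (2 * del))
    have f2 := (Int.lt_floor_add_one (ht α p / (2 * del))).le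
    rw [hst] at f1 f2
    rw [le_div_iff₀ h2d] at f1
    rw [div_le_iff₀ h2d] at f2
    constructor
    · exact f1
    · linarith
  · calc N = lam * y ^ 3 := hNy
      _ ≤ lam * (K ^ m * #(Sp Kp τ A)) := by gcongr
      _ = K ^ m * (lam * #(Sp Kp τ A)) := by ring
  · have hET0 : 0 ≤ ET := Nat.cast_nonneg _
    calc y ^ 4 ≤ 2 * K ^ a * ET := hfin
      _ ≤ K * K ^ a * ET :=
          mul_le_mul_of_nonneg_right (mul_le_mul_of_nonneg_right hK (pow_nonneg hK0.le a)) hET0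
      _ = K ^ (a + 1) * ET := by rw [← pow_succ']
      _ ≤ K ^ m * ET := mul_le_mul_of_nonneg_right
          (pow_le_pow_right₀ hK1 (show a + 1 ≤ m by omega)) hET0
  · intro x
    have h4 := Sp_spread hKp hτ0.le A x
    calc lam * (#{p ∈ Sp Kp τ A | x ≤ p.1 ∧ p.1 ≤ x + 1 / Kp} : ℝ) ≤ lam * (2 * τ) := by gcongr
      _ = k3 * N := by rw [hτ, hNy]; ring

end Vale.Agent.P065.U.H792.S35
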