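import Vale.Agent.P065.U.H792.Strips
import Vale.Agent.P065.UB.P.Defs

/-!
# P065, upper bound, line P: `StStrips` (helper792)
-/

set_option autoImplicit false

namespace Vale.Agent.P065.U.H792.Strips

open Finset Vale.Agent.P065.UB

theorem stStrips : P.StStrips := by
  classical
  intro P k Q I m θ h hP hQP hI hm hQ hθ hh
  have hab : ∀ e ∈ EdIn P k Q I, m ≤ slE e ∧ slE e ≤ m + θ := fun e he =>
    hm _ (mem_EdIn.mp he).2.2.2
  have hQ' : ∀ p ∈ Q, ∀ q ∈ Q, q.1 - p.1 ≤ 1 := fun p hp q hq => by linarith [hQ q hq p hp]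
  rcases (EdIn P k Q I).eq_empty_or_nonempty with h0 | ⟨e0, he0⟩
  · rw [h0, sum_empty]
    positivity
  have hθ0 : 0 ≤ θ := by linarith [hab e0 he0]
  have h1 : #(CrE P k Q I m h) ≤ #(Tch P k Q I) + #(EdBd P k Q I) :=
    card_CrE (b := m + θ) (D := 1) hP hQP hI hh (by linarith) (by linarith) hab hQ'
  have h2 : ∑ e ∈ EdIn P k Q I, (⌊ht m e.2 / h⌋ - ⌊ht m e.1 / h⌋)
      ≤ ∑ e ∈ EdIn P k Q I, (if strip m h e.1 ≠ strip m h e.2 then (1 : ℤ) else 0) := by
    apply sum_le_sum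
    intro e he
    have hr := rise_edge hab he
    split_ifs with hc
    · have h3 := mem_EdIn.mp he
      have h4 := hQ' e.1 h3.2.1 e.2 h3.2.2.1
      have h5 : ht m e.2 - ht m e.1 ≤ h := by
        have h6 : (m + θ - m) * (e.2.1 - e.1.1) ≤ (m + θ - m) * 1 :=
          mul_le_mul_of_nonneg_left h4 (by linarith)
        linarith [hr.2]
      have h6 : ht m e.2 / h ≤ ht m e.1 / h + 1 := by
        rw [div_add_one hh.ne']
        gcongr
        linarith
      have h7 : ⌊ht m e.2 / h⌋ ≤ ⌊ht m e.1 / h + 1⌋ := Int.floor_le_floor h6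
      rw [Int.floor_add_one] at h7
      omega
    · rw [not_ne_iff] at hc
      unfold strip at hc
      omega
  have h3 : ∑ e ∈ EdIn P k Q I, (if strip m h e.1 ≠ strip m h e.2 then (1 : ℤ) else 0)
      = (#(CrE P k Q I m h) : ℤ) := by
    rw [← sum_filter, sum_const, nsmul_eq_mul, mul_one]
    rfl
  rw [h3] at h2
  have h4 : (#(CrE P k Q I m h) : ℤ) ≤ (#(Tch P k Q I) : ℤ) + #(EdBd P k Q I) := by
    exact_mod_cast h1
  have h5 : (0 : ℤ) ≤ (#(Tch P k Q I) : ℤ) + #(EdBd P k Q I) := by positivity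
  linarith

end Vale.Agent.P065.U.H792.Strips
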