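import Vale.Agent.P065.UB.Piece
import Vale.Agent.P065.UB.Defs

/-!
# P065, upper bound: parallel strips (helper792)

Window `I = [a,b]`, `Q` in a vertical slab of width `D`, strips of slope `a` and height
`H ≥ (b - a) D`: a piece of a token rises at most `H` relative to the slope `a`, hence at most one
edge of a piece joins different strips.
-/

set_option autoImplicit false

namespace Vale.Agent.P065.U.H792.Strips

open Finset Vale.Agent.P065.UB

variable {P : Finset Pt} {k : ℕ} {Q : Finset Pt} {I : Set ℝ}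

/-- the index of the strip of slope `a` and height `H` -/
noncomputable def strip (a H : ℝ) (v : Pt) : ℤ := ⌊ht a v / H⌋

theorem ht_rise {e : Eg} (h : e.1.1 < e.2.1) (a : ℝ) :
    ht a e.2 - ht a e.1 = (slE e - a) * (e.2.1 - e.1.1) := by
  have h1 : ht (slE e) e.2 = ht (slE e) e.1 := edge_ht e h
  unfold ht at h1 ⊢
  linarith

theorem rise_edge {a b : ℝ} (hab : ∀ e ∈ EdIn P k Q I, a ≤ slE e ∧ slE e ≤ b) {e : Eg}
    (he : e ∈ EdIn P k Q I) :
    0 ≤ ht a e.2 - ht a e.1 ∧ ht a e.2 - ht a e.1 ≤ (b - a) * (e.2.1 - e.1.1) := by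
  have h1 := EdIn.lt he
  have h2 := hab e he
  rw [ht_rise h1 a]
  constructor
  · exact mul_nonneg (by linarith) (by linarith)
  · exact mul_le_mul_of_nonneg_right (by linarith) (by linarith)

theorem rise_Bf {a b : ℝ} (hab : ∀ e ∈ EdIn P k Q I, a ≤ slE e ∧ slE e ≤ b) {e f : Eg}
    (h : Bf P k Q I e f) :
    0 ≤ ht a f.1 - ht a e.2 ∧ ht a f.1 - ht a e.2 ≤ (b - a) * (f.1.1 - e.2.1) := by
  induction h with
  | single h =>
    rw [h.2.2.1]
    constructor <;> simp
  | tail hef h ih =>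
    rename_i c d
    have h1 := rise_edge hab h.1
    rw [← h.2.2.1]
    constructor
    · linarith [ih.1]
    · have h2 : (b - a) * (c.2.1 - e.2.1)
          = (b - a) * (c.1.1 - e.2.1) + (b - a) * (c.2.1 - c.1.1) := by ring
      linarith [ih.2]

/-- the total rise between the first end of `e` and the last end of `f` -/
theorem rise_all {a b : ℝ} (hab : ∀ e ∈ EdIn P k Q I, a ≤ slE e ∧ slE e ≤ b) {e f : Eg}
    (h : Bf P k Q I e f) :
    ht a e.2 ≤ ht a f.1 ∧ ht a f.2 - ht a e.1 ≤ (b - a) * (f.2.1 - e.1.1) := by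
  have h1 := rise_edge hab h.mem_left
  have h2 := rise_edge hab h.mem_right
  have h3 := rise_Bf hab h
  constructor
  · linarith [h3.1]
  · have h4 : (b - a) * (f.2.1 - e.1.1) = (b - a) * (e.2.1 - e.1.1)
        + (b - a) * (f.1.1 - e.2.1) + (b - a) * (f.2.1 - f.1.1) := by ring
    linarith [h3.2, h1.2, h2.2]

theorem strip_mono {a H : ℝ} (hH : 0 < H) {u v : Pt} (h : ht a u ≤ ht a v) :
    strip a H u ≤ strip a H v := by
  unfold strip
  exact Int.floor_le_floor (by gcongr)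

open Classical in
/-- the edges inside `Q` which join different strips -/
noncomputable def CrE (P : Finset Pt) (k : ℕ) (Q : Finset Pt) (I : Set ℝ) (a H : ℝ) : Finset Eg :=
  {e ∈ EdIn P k Q I | strip a H e.1 ≠ strip a H e.2}

/-- two crossing edges are never in the same piece -/
theorem cr_Bf {a b H D : ℝ} (hH : 0 < H) (hD : (b - a) * D ≤ H) (hba : a ≤ b)
    (hab : ∀ e ∈ EdIn P k Q I, a ≤ slE e ∧ slE e ≤ b)
    (hQ : ∀ p ∈ Q, ∀ q ∈ Q, q.1 - p.1 ≤ D) {e f : Eg} (he : strip a H e.1 ≠ strip a H e.2)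
    (hf : strip a H f.1 ≠ strip a H f.2) (h : Bf P k Q I e f) : False := by
  have h1 := rise_all hab h
  have he1 := rise_edge hab h.mem_left
  have hf1 := rise_edge hab h.mem_right
  have e1 : strip a H e.1 < strip a H e.2 :=
    lt_of_le_of_ne (strip_mono hH (by linarith [he1.1])) he
  have f1 : strip a H f.1 < strip a H f.2 :=
    lt_of_le_of_ne (strip_mono hH (by linarith [hf1.1])) hf
  have m1 : strip a H e.2 ≤ strip a H f.1 := strip_mono hH h1.1
  have h2 : strip a H e.1 + 2 ≤ strip a H f.2 := by omega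
  have h3 : ((strip a H e.1 : ℤ) : ℝ) + 2 ≤ ((strip a H f.2 : ℤ) : ℝ) := by exact_mod_cast h2
  have h4 : ((strip a H f.2 : ℤ) : ℝ) ≤ ht a f.2 / H := Int.floor_le _
  have h5 : ht a e.1 / H < ((strip a H e.1 : ℤ) : ℝ) + 1 := Int.lt_floor_add_one _
  have h6 : ht a e.1 / H + 1 < ht a f.2 / H := by linarith
  have h7 : ht a e.1 + H < ht a f.2 := by
    have := (lt_div_iff₀ hH).mp h6
    have h8 : (ht a e.1 / H + 1) * H = ht a e.1 + H := by field_simp
    linarith
  have h8 : (b - a) * (f.2.1 - e.1.1) ≤ (b - a) * D :=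
    mul_le_mul_of_nonneg_left (hQ _ (mem_EdIn.mp h.mem_left).2.1 _ (mem_EdIn.mp h.mem_right).2.2.1)
      (by linarith)
  linarith [h1.2]

/-- **STRIPS**: at most one edge of each piece joins different strips -/
theorem card_CrE (hP : Good P) (hQP : Q ⊆ P) (hI : I.OrdConnected) {a b H D : ℝ} (hH : 0 < H)
    (hD : (b - a) * D ≤ H) (hba : a ≤ b) (hab : ∀ e ∈ EdIn P k Q I, a ≤ slE e ∧ slE e ≤ b)
    (hQ : ∀ p ∈ Q, ∀ q ∈ Q, q.1 - p.1 ≤ D) :
    #(CrE P k Q I a H) ≤ #(Tch P k Q I) + #(EdBd P k Q I) := by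
  classical
  refine le_trans ?_ (card_Pcs ⟨hP, hQP, hI⟩)
  refine card_le_card_of_injOn (fun e => root P k Q I e) ?_ ?_
  · intro e he
    exact root_mem_Pcs (mem_filter.mp he).1
  · intro e he f hf hef
    have he' := mem_filter.mp (mem_coe.mp he)
    have hf' := mem_filter.mp (mem_coe.mp hf)
    rcases compar hP hef with h | h | h
    · exact h
    · exact (cr_Bf hH hD hba hab hQ he'.2 hf'.2 h).elim
    · exact (cr_Bf hH hD hba hab hQ hf'.2 he'.2 h).elim

open Classical in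
/-- the part of `Q` in the strip `i` -/
noncomputable def Qs (Q : Finset Pt) (a H : ℝ) (i : ℤ) : Finset Pt := {v ∈ Q | strip a H v = i}

theorem mem_Qs {a H : ℝ} {i : ℤ} {v : Pt} : v ∈ Qs Q a H i ↔ v ∈ Q ∧ strip a H v = i := by
  classical
  unfold Qs
  rw [mem_filter]

theorem Qs_sub {a H : ℝ} {i : ℤ} : Qs Q a H i ⊆ Q := fun _ h => (mem_Qs.mp h).1

theorem EdIn_Qs_sub {a H : ℝ} {i : ℤ} : EdIn P k (Qs Q a H i) I ⊆ EdIn P k Q I := by
  intro e he
  have h := mem_EdIn.mp he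
  exact mem_EdIn.mpr ⟨h.1, Qs_sub h.2.1, Qs_sub h.2.2.1, h.2.2.2⟩

theorem Tch_Qs_sub {a H : ℝ} {i : ℤ} : Tch P k (Qs Q a H i) I ⊆ Tch P k Q I := by
  intro v hv
  obtain ⟨h1, e, he, h2⟩ := mem_Tch.mp hv
  exact mem_Tch.mpr ⟨Qs_sub h1, e, EdIn_Qs_sub he, h2⟩

/-- the touched points of the strips -/
theorem sum_Tch {a H : ℝ} (S : Finset ℤ) :
    ∑ i ∈ S, #(Tch P k (Qs Q a H i) I) ≤ #(Tch P k Q I) := by
  classical
  have h1 : ∀ i ∈ S, Tch P k (Qs Q a H i) I ⊆ {v ∈ Tch P k Q I | strip a H v = i} := by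
    intro i _ v hv
    exact mem_filter.mpr ⟨Tch_Qs_sub hv, (mem_Qs.mp (mem_Tch.mp hv).1).2⟩
  calc ∑ i ∈ S, #(Tch P k (Qs Q a H i) I)
      ≤ ∑ i ∈ S, #{v ∈ Tch P k Q I | strip a H v = i} :=
        sum_le_sum fun i hi => card_le_card (h1 i hi)
    _ ≤ #(Tch P k Q I) := by
        rw [← card_biUnion]
        · exact card_le_card (biUnion_subset.mpr fun i _ => filter_subset _ _)
        · intro i _ j _ hij
          rw [Function.onFun, disjoint_left]
          intro v hv hv'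
          exact hij ((mem_filter.mp hv).2.symm.trans (mem_filter.mp hv').2)

/-- the boundary edges of the strips -/
theorem sum_EdBd {a H : ℝ} (S : Finset ℤ) :
    ∑ i ∈ S, #(EdBd P k (Qs Q a H i) I) ≤ #(EdBd P k Q I) + 2 * #(CrE P k Q I a H) := by
  classical
  -- an edge of `EdBd Qs` is a boundary edge of `Q` or a crossing edge
  have h1 : ∀ i ∈ S, #(EdBd P k (Qs Q a H i) I) ≤
      #{e ∈ EdBd P k Q I | (e.1 ∈ Q ∧ strip a H e.1 = i) ∨ (e.2 ∈ Q ∧ strip a H e.2 = i)}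
      + (#{e ∈ CrE P k Q I a H | strip a H e.1 = i}
        + #{e ∈ CrE P k Q I a H | strip a H e.2 = i}) := by
    intro i _
    refine le_trans (card_le_card (t := {e ∈ EdBd P k Q I |
      (e.1 ∈ Q ∧ strip a H e.1 = i) ∨ (e.2 ∈ Q ∧ strip a H e.2 = i)} ∪
      ({e ∈ CrE P k Q I a H | strip a H e.1 = i} ∪
        {e ∈ CrE P k Q I a H | strip a H e.2 = i})) ?_) ?_
    · intro e he
      obtain ⟨h2, h3, h4⟩ := mem_EdBd.mp he
      simp only [mem_union, mem_filter, mem_EdBd, CrE, mem_EdIn]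
      rw [mem_Qs, mem_Qs] at h3
      by_cases c1 : e.1 ∈ Q <;> by_cases c2 : e.2 ∈ Q
      · right
        rcases h3 with ⟨h5, h6⟩ | ⟨h5, h6⟩
        · left
          refine ⟨⟨⟨h2, c1, c2, h4⟩, ?_⟩, h5.2⟩
          intro h7
          exact h6 ⟨c2, by rw [← h7]; exact h5.2⟩
        · right
          refine ⟨⟨⟨h2, c1, c2, h4⟩, ?_⟩, h6.2⟩
          intro h7
          exact h5 ⟨c1, by rw [h7]; exact h6.2⟩
      · left
        rcases h3 with ⟨h5, h6⟩ | ⟨h5, h6⟩
        · exact ⟨⟨h2, Or.inl ⟨c1, c2⟩, h4⟩, Or.inl h5⟩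
        · exact absurd h6.1 c2
      · left
        rcases h3 with ⟨h5, h6⟩ | ⟨h5, h6⟩
        · exact absurd h5.1 c1
        · exact ⟨⟨h2, Or.inr ⟨c1, c2⟩, h4⟩, Or.inr h6⟩
      · exfalso
        rcases h3 with ⟨h5, h6⟩ | ⟨h5, h6⟩
        · exact c1 h5.1
        · exact c2 h6.1
    · refine le_trans (card_union_le _ _) ?_
      gcongr
      exact card_union_le _ _
  have h2 : ∑ i ∈ S, #{e ∈ CrE P k Q I a H | strip a H e.1 = i} ≤ #(CrE P k Q I a H) := by
    rw [← card_biUnion]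
    · exact card_le_card (biUnion_subset.mpr fun i _ => filter_subset _ _)
    · intro i _ j _ hij
      rw [Function.onFun, disjoint_left]
      intro v hv hv'
      exact hij ((mem_filter.mp hv).2.symm.trans (mem_filter.mp hv').2)
  have h3 : ∑ i ∈ S, #{e ∈ CrE P k Q I a H | strip a H e.2 = i} ≤ #(CrE P k Q I a H) := by
    rw [← card_biUnion]
    · exact card_le_card (biUnion_subset.mpr fun i _ => filter_subset _ _)
    · intro i _ j _ hij
      rw [Function.onFun, disjoint_left]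
      intro v hv hv'
      exact hij ((mem_filter.mp hv).2.symm.trans (mem_filter.mp hv').2)
  have h4 : ∑ i ∈ S, #{e ∈ EdBd P k Q I |
      (e.1 ∈ Q ∧ strip a H e.1 = i) ∨ (e.2 ∈ Q ∧ strip a H e.2 = i)} ≤ #(EdBd P k Q I) := by
    rw [← card_biUnion]
    · exact card_le_card (biUnion_subset.mpr fun i _ => filter_subset _ _)
    · intro i _ j _ hij
      rw [Function.onFun, disjoint_left]
      intro e he he'
      obtain ⟨a1, a2⟩ := mem_filter.mp he
      obtain ⟨b1, b2⟩ := mem_filter.mp he'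
      have hb := (mem_EdBd.mp a1).2.1
      rcases hb with ⟨q1, q2⟩ | ⟨q1, q2⟩
      · rcases a2 with a2 | a2
        · rcases b2 with b2 | b2
          · exact hij (a2.2.symm.trans b2.2)
          · exact q2 b2.1
        · exact q2 a2.1
      · rcases a2 with a2 | a2
        · exact q1 a2.1
        · rcases b2 with b2 | b2
          · exact q1 b2.1
          · exact hij (a2.2.symm.trans b2.2)
  calc ∑ i ∈ S, #(EdBd P k (Qs Q a H i) I)
      ≤ ∑ i ∈ S, (#{e ∈ EdBd P k Q I |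
          (e.1 ∈ Q ∧ strip a H e.1 = i) ∨ (e.2 ∈ Q ∧ strip a H e.2 = i)}
        + (#{e ∈ CrE P k Q I a H | strip a H e.1 = i}
          + #{e ∈ CrE P k Q I a H | strip a H e.2 = i})) := sum_le_sum h1
    _ ≤ #(EdBd P k Q I) + 2 * #(CrE P k Q I a H) := by
        rw [sum_add_distrib, sum_add_distrib]
        omega

/-- **(A2)** boundary edges of all the strips together -/
theorem sum_EdBd_le (hP : Good P) (hQP : Q ⊆ P) (hI : I.OrdConnected) {a b H D : ℝ} (hH : 0 < H)
    (hD : (b - a) * D ≤ H) (hba : a ≤ b) (hab : ∀ e ∈ EdIn P k Q I, a ≤ slE e ∧ slE e ≤ b)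
    (hQ : ∀ p ∈ Q, ∀ q ∈ Q, q.1 - p.1 ≤ D) (S : Finset ℤ) :
    ∑ i ∈ S, #(EdBd P k (Qs Q a H i) I) ≤ 2 * #(Tch P k Q I) + 3 * #(EdBd P k Q I) := by
  have h1 := sum_EdBd (P := P) (k := k) (Q := Q) (I := I) (a := a) (H := H) S
  have h2 := card_CrE hP hQP hI hH hD hba hab hQ
  omega

/-- the edges inside the strips -/
theorem EdIn_le_sum {a H : ℝ} :
    #(EdIn P k Q I) ≤ ∑ i ∈ Q.image (strip a H), #(EdIn P k (Qs Q a H i) I)
      + #(CrE P k Q I a H) := by
  classical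
  have h1 : EdIn P k Q I ⊆ (Q.image (strip a H)).biUnion (fun i => EdIn P k (Qs Q a H i) I)
      ∪ CrE P k Q I a H := by
    intro e he
    rw [mem_union]
    by_cases h : strip a H e.1 = strip a H e.2
    · left
      rw [mem_biUnion]
      have h2 := mem_EdIn.mp he
      exact ⟨strip a H e.1, mem_image_of_mem _ h2.2.1, mem_EdIn.mpr
        ⟨h2.1, mem_Qs.mpr ⟨h2.2.1, rfl⟩, mem_Qs.mpr ⟨h2.2.2.1, h.symm⟩, h2.2.2.2⟩⟩
    · right
      exact mem_filter.mpr ⟨he, h⟩
  refine le_trans (card_le_card h1) (le_trans (card_union_le _ _) ?_)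
  gcongr
  exact card_biUnion_le

end Vale.Agent.P065.U.H792.Strips
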