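import Mathlib

/-!
# P065, upper bound: from many apexes to few classes with bounded window multiplicity (helper792)

`coloring`: a greedy colouring of the vertices with few monochromatic pairs.
`thin`: `E` = pairs (apex, point), `win` = the window of the pair. There are a set `A` of apexes
and a share `1 / (2 m)` of the pairs with apex in `A`, such that every window is used by at most
`1 + M` apexes of `A`.
-/

set_option autoImplicit false

namespace Vale.Agent.P065.U.H792.Thin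

open Finset

/-- greedy colouring -/
theorem coloring {α : Type*} [DecidableEq α] (c : α → α → ℕ) (m : ℕ) (hm : 1 ≤ m) (S : Finset α) :
    ∃ χ : α → Fin m, m * ∑ a ∈ S, ∑ b ∈ S, (if b ≠ a ∧ χ b = χ a then c a b else 0) ≤
      ∑ a ∈ S, ∑ b ∈ S, (if b ≠ a then c a b else 0) := by
  have : NeZero m := ⟨by omega⟩
  induction S using Finset.induction_on with
  | empty => exact ⟨fun _ => 0, by simp⟩
  | insert v S hv ih =>
    obtain ⟨χ, hχ⟩ := ih
    -- the cheapest colour
    obtain ⟨j, hj⟩ : ∃ j : Fin m, m * ∑ b ∈ S, (if χ b = j then c v b + c b v else 0) ≤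
        ∑ b ∈ S, (c v b + c b v) := by
      by_contra hcon
      push Not at hcon
      have h1 : ∑ _j : Fin m, ∑ b ∈ S, (c v b + c b v) <
          ∑ j : Fin m, m * ∑ b ∈ S, (if χ b = j then c v b + c b v else 0) :=
        sum_lt_sum_of_nonempty univ_nonempty fun j _ => hcon j
      rw [sum_const, card_univ, Fintype.card_fin, smul_eq_mul, ← mul_sum, sum_comm] at h1
      have h2 : ∑ b ∈ S, ∑ j : Fin m, (if χ b = j then c v b + c b v else 0)
          = ∑ b ∈ S, (c v b + c b v) := by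
        refine sum_congr rfl fun b _ => ?_
        rw [sum_ite_eq]
        simp
      rw [h2] at h1
      exact lt_irrefl _ h1
    refine ⟨Function.update χ v j, ?_⟩
    have hne : ∀ b ∈ S, b ≠ v := fun b hb h => hv (h ▸ hb)
    have hup : ∀ b ∈ S, Function.update χ v j b = χ b := fun b hb =>
      Function.update_of_ne (hne b hb) _ _
    have hupv : Function.update χ v j v = j := Function.update_self _ _ _
    have e1 : ∑ a ∈ insert v S, ∑ b ∈ insert v S,
        (if b ≠ a ∧ Function.update χ v j b = Function.update χ v j a then c a b else 0)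
        = ∑ b ∈ S, (if χ b = j then c v b + c b v else 0)
          + ∑ a ∈ S, ∑ b ∈ S, (if b ≠ a ∧ χ b = χ a then c a b else 0) := by
      rw [sum_insert hv, sum_insert hv]
      have f1 : (if v ≠ v ∧ Function.update χ v j v = Function.update χ v j v then c v v else 0)
          = 0 := by simp
      rw [f1, zero_add]
      have f2 : ∑ b ∈ S, (if b ≠ v ∧ Function.update χ v j b = Function.update χ v j v
          then c v b else 0) = ∑ b ∈ S, (if χ b = j then c v b else 0) := by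
        refine sum_congr rfl fun b hb => ?_
        rw [hup b hb, hupv]
        simp [hne b hb]
      have f3 : ∑ a ∈ S, ∑ b ∈ insert v S,
          (if b ≠ a ∧ Function.update χ v j b = Function.update χ v j a then c a b else 0)
          = ∑ a ∈ S, ((if χ a = j then c a v else 0)
            + ∑ b ∈ S, (if b ≠ a ∧ χ b = χ a then c a b else 0)) := by
        refine sum_congr rfl fun a ha => ?_
        rw [sum_insert hv, hup a ha, hupv]
        congr 1
        · have : v ≠ a := (hne a ha).symm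
          simp [this, eq_comm]
        · refine sum_congr rfl fun b hb => ?_
          rw [hup b hb]
      rw [f2, f3, sum_add_distrib, ← add_assoc, ← sum_add_distrib]
      congr 1
      refine sum_congr rfl fun b _ => ?_
      split_ifs <;> simp
    have e2 : ∑ a ∈ insert v S, ∑ b ∈ insert v S, (if b ≠ a then c a b else 0)
        = ∑ b ∈ S, (c v b + c b v) + ∑ a ∈ S, ∑ b ∈ S, (if b ≠ a then c a b else 0) := by
      rw [sum_insert hv, sum_insert hv]
      have f1 : (if v ≠ v then c v v else 0) = 0 := by simp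
      rw [f1, zero_add]
      have f2 : ∑ b ∈ S, (if b ≠ v then c v b else 0) = ∑ b ∈ S, c v b := by
        refine sum_congr rfl fun b hb => ?_
        simp [hne b hb]
      have f3 : ∑ a ∈ S, ∑ b ∈ insert v S, (if b ≠ a then c a b else 0)
          = ∑ a ∈ S, (c a v + ∑ b ∈ S, (if b ≠ a then c a b else 0)) := by
        refine sum_congr rfl fun a ha => ?_
        rw [sum_insert hv]
        congr 1
        have : v ≠ a := (hne a ha).symm
        simp [this]
      rw [f2, f3, sum_add_distrib, ← add_assoc, ← sum_add_distrib]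
    rw [e1, e2, mul_add]
    exact add_le_add hj hχ

open Classical in
/-- **THIN** -/
theorem thin {α β ι : Type*} (V : Finset α) (Q : Finset β) (E : Finset (α × β)) (win : α → β → ι)
    (hE : E ⊆ V ×ˢ Q) (μ D R θ M : ℝ) (m : ℕ) (hm : 1 ≤ m) (hθ : 0 < θ) (hM : 0 < M) (hμ : 0 ≤ μ)
    (h1 : ∀ q ∈ Q, ∀ w, (#{a ∈ V | (a, q) ∈ E ∧ win a q = w} : ℝ) ≤ μ)
    (h2 : ∀ a ∈ V, (#((Q.filter fun q => (a, q) ∈ E).image fun q => win a q) : ℝ) ≤ D)
    (h3 : ∀ w, (#{q ∈ Q | ∃ a ∈ V, (a, q) ∈ E ∧ win a q = w} : ℝ) ≤ R)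
    (hθE : 4 * (D * θ * #V) ≤ #E) (hMM : 4 * (R * μ) ≤ θ * m * M) :
    ∃ (A : Finset α) (F : Finset (α × β)), A ⊆ V ∧ F ⊆ E ∧ (∀ e ∈ F, e.1 ∈ A) ∧
      (#E : ℝ) ≤ 2 * m * #F ∧
      (∀ w, (#{a ∈ A | ∃ q, (a, q) ∈ F ∧ win a q = w} : ℝ) ≤ 1 + M) ∧
      ∀ e ∈ F, θ ≤ (#{q ∈ Q | (e.1, q) ∈ E ∧ win e.1 q = win e.1 e.2} : ℝ) := by
  have : NeZero m := ⟨by omega⟩
  have hEV : ∀ e ∈ E, e.1 ∈ V ∧ e.2 ∈ Q := fun e he => mem_product.mp (hE he)
  set dg : α → ι → ℕ := fun a w => #{q ∈ Q | (a, q) ∈ E ∧ win a q = w} with hdg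
  obtain ⟨E1, hE1⟩ : ∃ E1 : Finset (α × β), E1 = {e ∈ E | θ ≤ (dg e.1 (win e.1 e.2) : ℝ)} :=
    ⟨_, rfl⟩
  have mE1 : ∀ e, e ∈ E1 ↔ e ∈ E ∧ θ ≤ (dg e.1 (win e.1 e.2) : ℝ) := by
    intro e
    rw [hE1, mem_filter]
  -- few flags are dropped
  have s1 : (#(E \ E1) : ℝ) ≤ D * θ * #V := by
    -- fibres over (a, w)
    set PW : Finset (α × ι) := (E \ E1).image fun e => (e.1, win e.1 e.2) with hPW
    have a1 : #(E \ E1) = ∑ p ∈ PW, #{e ∈ E \ E1 | (e.1, win e.1 e.2) = p} :=
      card_eq_sum_card_fiberwise fun e he => mem_coe.mpr (mem_image_of_mem _ (mem_coe.mp he))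
    have a2 : ∀ p ∈ PW, (#{e ∈ E \ E1 | (e.1, win e.1 e.2) = p} : ℝ) ≤ θ := by
      intro p hp
      obtain ⟨e0, he0, hep⟩ := mem_image.mp hp
      have he0' := mem_sdiff.mp he0
      have h4 : ¬ θ ≤ (dg e0.1 (win e0.1 e0.2) : ℝ) := fun h => he0'.2 ((mE1 _).mpr ⟨he0'.1, h⟩)
      have h5 : #{e ∈ E \ E1 | (e.1, win e.1 e.2) = p} ≤ dg e0.1 (win e0.1 e0.2) := by
        refine card_le_card_of_injOn (fun e => e.2) ?_ ?_
        · intro e he
          obtain ⟨h6, h7⟩ := mem_filter.mp (mem_coe.mp he)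
          have h8 := (mem_sdiff.mp h6).1
          rw [← hep] at h7
          obtain ⟨h9, h10⟩ := Prod.mk.inj h7
          refine mem_coe.mpr (mem_filter.mpr ⟨(hEV e h8).2, ?_, ?_⟩)
          · rw [← h9]
            exact h8
          · rw [← h10, ← h9]
        · intro e he f hf hef
          obtain ⟨_, h7⟩ := mem_filter.mp (mem_coe.mp he)
          obtain ⟨_, h8⟩ := mem_filter.mp (mem_coe.mp hf)
          rw [← h8] at h7
          exact Prod.ext (Prod.mk.inj h7).1 hef
      have h6 : (#{e ∈ E \ E1 | (e.1, win e.1 e.2) = p} : ℝ) ≤ (dg e0.1 (win e0.1 e0.2) : ℝ) := by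
        exact_mod_cast h5
      linarith [not_le.mp h4]
    have a3 : (#PW : ℝ) ≤ #V * D := by
      have h4 : PW ⊆ V.biUnion fun a =>
          ((Q.filter fun q => (a, q) ∈ E).image fun q => win a q).image fun w => (a, w) := by
        intro p hp
        obtain ⟨e, he, rfl⟩ := mem_image.mp hp
        have he' := (mem_sdiff.mp he).1
        rw [mem_biUnion]
        refine ⟨e.1, (hEV e he').1, mem_image.mpr ⟨win e.1 e.2, mem_image.mpr ⟨e.2, ?_, rfl⟩, rfl⟩⟩
        exact mem_filter.mpr ⟨(hEV e he').2, he'⟩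
      have h5 : #PW ≤ ∑ a ∈ V, #((Q.filter fun q => (a, q) ∈ E).image fun q => win a q) :=
        (card_le_card h4).trans (card_biUnion_le.trans
          (sum_le_sum fun a _ => card_image_le))
      calc (#PW : ℝ) ≤ ∑ a ∈ V, (#((Q.filter fun q => (a, q) ∈ E).image fun q => win a q) : ℝ) := by
            exact_mod_cast h5
        _ ≤ ∑ a ∈ V, D := sum_le_sum h2
        _ = #V * D := by rw [sum_const, nsmul_eq_mul]
    calc (#(E \ E1) : ℝ) = ∑ p ∈ PW, (#{e ∈ E \ E1 | (e.1, win e.1 e.2) = p} : ℝ) := by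
          exact_mod_cast a1
      _ ≤ ∑ p ∈ PW, θ := sum_le_sum a2
      _ = #PW * θ := by rw [sum_const, nsmul_eq_mul]
      _ ≤ (#V * D) * θ := mul_le_mul_of_nonneg_right a3 hθ.le
      _ = D * θ * #V := by ring
  have hE1E : E1 ⊆ E := fun e he => ((mE1 e).mp he).1
  have s2 : (#E : ℝ) = #E1 + #(E \ E1) := by
    have := card_sdiff_add_card_eq_card hE1E
    have h4 : #E = #E1 + #(E \ E1) := by omega
    exact_mod_cast h4
  have s3 : 3 * (#E : ℝ) ≤ 4 * #E1 := by linarith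
  -- the apexes of a window
  obtain ⟨U, hU⟩ : ∃ U : ι → Finset α, ∀ w, U w = {a ∈ V | ∃ e ∈ E1, e.1 = a ∧ win e.1 e.2 = w} :=
    ⟨fun w => {a ∈ V | ∃ e ∈ E1, e.1 = a ∧ win e.1 e.2 = w}, fun _ => rfl⟩
  have mU : ∀ w a, a ∈ U w ↔ a ∈ V ∧ ∃ e ∈ E1, e.1 = a ∧ win e.1 e.2 = w := by
    intro w a
    rw [hU, mem_filter]
  have s4 : ∀ w, (#(U w) : ℝ) * θ ≤ R * μ := by
    intro w
    have h4 : (#(U w) : ℝ) * θ ≤ ∑ a ∈ U w, (dg a w : ℝ) := by
      calc (#(U w) : ℝ) * θ = ∑ a ∈ U w, θ := by rw [sum_const, nsmul_eq_mul]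
        _ ≤ ∑ a ∈ U w, (dg a w : ℝ) := by
          refine sum_le_sum fun a ha => ?_
          obtain ⟨_, e, he, h5, h6⟩ := (mU w a).mp ha
          have h7 := ((mE1 e).mp he).2
          rw [h6, h5] at h7
          exact h7
    have h5 : ∑ a ∈ U w, dg a w ≤ ∑ a ∈ V, dg a w :=
      sum_le_sum_of_subset fun a ha => ((mU w a).mp ha).1
    have h6 : ∑ a ∈ V, dg a w
        = ∑ q ∈ Q.filter (fun q => ∃ a ∈ V, (a, q) ∈ E ∧ win a q = w),
          #{a ∈ V | (a, q) ∈ E ∧ win a q = w} := by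
      have e1 : ∑ a ∈ V, dg a w = ∑ q ∈ Q, #{a ∈ V | (a, q) ∈ E ∧ win a q = w} := by
        simp only [hdg, card_filter]
        rw [sum_comm]
      rw [e1, sum_filter]
      refine sum_congr rfl fun q _ => ?_
      split_ifs with hq
      · rfl
      · rw [card_eq_zero, filter_eq_empty_iff]
        intro a ha h7
        exact hq ⟨a, ha, h7⟩
    have h7 : ((∑ q ∈ Q.filter (fun q => ∃ a ∈ V, (a, q) ∈ E ∧ win a q = w),
          #{a ∈ V | (a, q) ∈ E ∧ win a q = w} : ℕ) : ℝ) ≤ R * μ := by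
      push_cast
      calc ∑ q ∈ Q.filter (fun q => ∃ a ∈ V, (a, q) ∈ E ∧ win a q = w),
            (#{a ∈ V | (a, q) ∈ E ∧ win a q = w} : ℝ)
          ≤ ∑ q ∈ Q.filter (fun q => ∃ a ∈ V, (a, q) ∈ E ∧ win a q = w), μ :=
            sum_le_sum fun q hq => h1 q (mem_filter.mp hq).1 w
        _ = (#(Q.filter (fun q => ∃ a ∈ V, (a, q) ∈ E ∧ win a q = w)) : ℝ) * μ := by
            rw [sum_const, nsmul_eq_mul]
        _ ≤ R * μ := mul_le_mul_of_nonneg_right (h3 w) hμ
    have h8 : (∑ a ∈ U w, (dg a w : ℝ)) ≤ ((∑ a ∈ V, dg a w : ℕ) : ℝ) := by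
      have := h5
      exact_mod_cast this
    rw [h6] at h8
    linarith
  -- the colouring
  set c : α → α → ℕ := fun a b => #{e ∈ E1 | e.1 = a ∧ b ∈ U (win e.1 e.2)} with hc
  obtain ⟨χ, hχ⟩ := coloring c m hm V
  set mu : α × β → ℕ := fun e => #{b ∈ V | (b ≠ e.1 ∧ χ b = χ e.1) ∧ b ∈ U (win e.1 e.2)} with hmu
  have t1 : ∑ a ∈ V, ∑ b ∈ V, (if b ≠ a ∧ χ b = χ a then c a b else 0) = ∑ e ∈ E1, mu e := by
    have e1 : ∀ a ∈ V, ∑ b ∈ V, (if b ≠ a ∧ χ b = χ a then c a b else 0)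
        = ∑ e ∈ E1.filter (fun e => e.1 = a), mu e := by
      intro a _
      have e2 : ∀ b ∈ V, (if b ≠ a ∧ χ b = χ a then c a b else 0)
          = ∑ e ∈ E1.filter (fun e => e.1 = a),
            (if (b ≠ e.1 ∧ χ b = χ e.1) ∧ b ∈ U (win e.1 e.2) then 1 else 0) := by
        intro b _
        split_ifs with hb
        · simp only [hc, card_filter]
          rw [sum_filter]
          refine sum_congr rfl fun e _ => ?_
          by_cases hea : e.1 = a
          · rw [hea]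
            simp [hb.1, hb.2]
          · simp [hea]
        · symm
          refine sum_eq_zero fun e he => ?_
          have hea := (mem_filter.mp he).2
          rw [hea]
          simp only [ite_eq_right_iff]
          intro h
          exact absurd h.1 hb
      rw [sum_congr rfl e2, sum_comm]
      refine sum_congr rfl fun e _ => ?_
      simp only [hmu, card_filter]
    rw [sum_congr rfl e1]
    refine (sum_fiberwise_of_maps_to (s := E1) (t := V) (g := fun e => e.1) ?_ mu)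
    intro e he
    exact (hEV e (hE1E he)).1
  have t2 : ∑ a ∈ V, ∑ b ∈ V, (if b ≠ a then c a b else 0) ≤ ∑ e ∈ E1, #(U (win e.1 e.2)) := by
    have e1 : ∀ a ∈ V, ∑ b ∈ V, (if b ≠ a then c a b else 0)
        ≤ ∑ e ∈ E1.filter (fun e => e.1 = a), #(U (win e.1 e.2)) := by
      intro a _
      calc ∑ b ∈ V, (if b ≠ a then c a b else 0) ≤ ∑ b ∈ V, c a b := by
            refine sum_le_sum fun b _ => ?_
            split_ifs
            · exact le_refl _
            · exact Nat.zero_le _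
        _ = ∑ e ∈ E1.filter (fun e => e.1 = a), #{b ∈ V | b ∈ U (win e.1 e.2)} := by
            simp only [hc, card_filter]
            rw [sum_comm, sum_filter]
            refine sum_congr rfl fun e _ => ?_
            by_cases hea : e.1 = a
            · simp [hea]
            · simp [hea]
        _ ≤ ∑ e ∈ E1.filter (fun e => e.1 = a), #(U (win e.1 e.2)) := by
            refine sum_le_sum fun e _ => card_le_card ?_
            intro b hb
            exact (mem_filter.mp hb).2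
    refine (sum_le_sum e1).trans (le_of_eq ?_)
    refine (sum_fiberwise_of_maps_to (s := E1) (t := V) (g := fun e => e.1) ?_
      (fun e => #(U (win e.1 e.2))))
    intro e he
    exact (hEV e (hE1E he)).1
  have hm0 : (0 : ℝ) < m := by exact_mod_cast hm
  have t3 : (m : ℝ) * ((∑ e ∈ E1, mu e : ℕ) : ℝ) * θ ≤ #E1 * (R * μ) := by
    have h4 : m * ∑ e ∈ E1, mu e ≤ ∑ e ∈ E1, #(U (win e.1 e.2)) := by
      rw [← t1]
      exact hχ.trans t2
    have h5 : (m : ℝ) * ((∑ e ∈ E1, mu e : ℕ) : ℝ) ≤ ∑ e ∈ E1, (#(U (win e.1 e.2)) : ℝ) := by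
      exact_mod_cast h4
    calc (m : ℝ) * ((∑ e ∈ E1, mu e : ℕ) : ℝ) * θ
        ≤ (∑ e ∈ E1, (#(U (win e.1 e.2)) : ℝ)) * θ := mul_le_mul_of_nonneg_right h5 hθ.le
      _ = ∑ e ∈ E1, (#(U (win e.1 e.2)) : ℝ) * θ := by rw [sum_mul]
      _ ≤ ∑ e ∈ E1, R * μ := sum_le_sum fun e _ => s4 _
      _ = #E1 * (R * μ) := by rw [sum_const, nsmul_eq_mul]
  -- flags with few monochromatic apexes
  obtain ⟨E2, hE2⟩ : ∃ E2 : Finset (α × β), E2 = {e ∈ E1 | (mu e : ℝ) ≤ M} := ⟨_, rfl⟩
  have mE2 : ∀ e, e ∈ E2 ↔ e ∈ E1 ∧ (mu e : ℝ) ≤ M := by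
    intro e
    rw [hE2, mem_filter]
  have hE2E1 : E2 ⊆ E1 := fun e he => ((mE2 e).mp he).1
  have t4 : 4 * (#(E1 \ E2) : ℝ) ≤ #E1 := by
    have h4 : (#(E1 \ E2) : ℝ) * M ≤ ((∑ e ∈ E1, mu e : ℕ) : ℝ) := by
      calc (#(E1 \ E2) : ℝ) * M = ∑ e ∈ E1 \ E2, M := by rw [sum_const, nsmul_eq_mul]
        _ ≤ ∑ e ∈ E1 \ E2, (mu e : ℝ) := by
          refine sum_le_sum fun e he => ?_
          obtain ⟨h5, h6⟩ := mem_sdiff.mp he
          by_contra h7
          exact h6 ((mE2 e).mpr ⟨h5, (not_le.mp h7).le⟩)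
        _ ≤ ∑ e ∈ E1, (mu e : ℝ) :=
          sum_le_sum_of_subset_of_nonneg sdiff_subset fun _ _ _ => Nat.cast_nonneg _
        _ = ((∑ e ∈ E1, mu e : ℕ) : ℝ) := by push_cast; rfl
    have h5 : (#(E1 \ E2) : ℝ) * (4 * (m * M * θ)) ≤ #E1 * (m * M * θ) := by
      calc (#(E1 \ E2) : ℝ) * (4 * (m * M * θ)) = 4 * (m * ((#(E1 \ E2) : ℝ) * M) * θ) := by ring
        _ ≤ 4 * (m * ((∑ e ∈ E1, mu e : ℕ) : ℝ) * θ) := by
          have := mul_le_mul_of_nonneg_left h4 hm0.le
          have := mul_le_mul_of_nonneg_right this hθ.le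
          linarith
        _ ≤ 4 * (#E1 * (R * μ)) := by linarith
        _ = #E1 * (4 * (R * μ)) := by ring
        _ ≤ #E1 * (θ * m * M) := mul_le_mul_of_nonneg_left hMM (Nat.cast_nonneg _)
        _ = #E1 * (m * M * θ) := by ring
    have h6 : 0 < m * M * θ := by positivity
    have h7 : (4 * (#(E1 \ E2) : ℝ)) * (m * M * θ) ≤ #E1 * (m * M * θ) := by linarith
    exact le_of_mul_le_mul_right h7 h6
  have t5 : (#E1 : ℝ) = #E2 + #(E1 \ E2) := by
    have := card_sdiff_add_card_eq_card hE2E1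
    have h4 : #E1 = #E2 + #(E1 \ E2) := by omega
    exact_mod_cast h4
  have t6 : (#E : ℝ) ≤ 2 * #E2 := by linarith
  -- the best colour
  obtain ⟨j, hj⟩ : ∃ j : Fin m, #E2 ≤ m * #{e ∈ E2 | χ e.1 = j} := by
    by_contra hcon
    push Not at hcon
    have h4 : ∑ j : Fin m, m * #{e ∈ E2 | χ e.1 = j} < ∑ _j : Fin m, #E2 :=
      sum_lt_sum_of_nonempty univ_nonempty fun j _ => hcon j
    rw [sum_const, card_univ, Fintype.card_fin, smul_eq_mul, ← mul_sum] at h4
    have h5 : #E2 = ∑ j : Fin m, #{e ∈ E2 | χ e.1 = j} :=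
      card_eq_sum_card_fiberwise fun e _ => mem_coe.mpr (mem_univ _)
    rw [← h5] at h4
    exact lt_irrefl _ h4
  refine ⟨{a ∈ V | χ a = j}, {e ∈ E2 | χ e.1 = j}, filter_subset _ _,
    (filter_subset _ _).trans (hE2E1.trans hE1E), ?_, ?_, ?_, ?_⟩
  · intro e he
    obtain ⟨h4, h5⟩ := mem_filter.mp he
    exact mem_filter.mpr ⟨(hEV e (hE1E (hE2E1 h4))).1, h5⟩
  · have h4 : (#E2 : ℝ) ≤ m * #{e ∈ E2 | χ e.1 = j} := by exact_mod_cast hj
    calc (#E : ℝ) ≤ 2 * #E2 := t6
      _ ≤ 2 * (m * #{e ∈ E2 | χ e.1 = j}) := by linarith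
      _ = 2 * m * #{e ∈ E2 | χ e.1 = j} := by ring
  · intro w
    rcases Finset.eq_empty_or_nonempty
        {a ∈ V.filter (fun a => χ a = j) | ∃ q, (a, q) ∈ E2.filter (fun e => χ e.1 = j) ∧
          win a q = w} with h0 | ⟨a0, ha0⟩
    · rw [h0]
      simp only [card_empty, Nat.cast_zero]
      linarith
    · obtain ⟨h4, q0, h5, h6⟩ := mem_filter.mp ha0
      obtain ⟨h7, h8⟩ := mem_filter.mp h5
      have h9 : (mu (a0, q0) : ℝ) ≤ M := ((mE2 _).mp h7).2
      have h10 : #{a ∈ V.filter (fun a => χ a = j) | ∃ q,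
          (a, q) ∈ E2.filter (fun e => χ e.1 = j) ∧ win a q = w} ≤ 1 + mu (a0, q0) := by
        refine le_trans (card_le_card (t := {a0} ∪
          {b ∈ V | (b ≠ a0 ∧ χ b = χ a0) ∧ b ∈ U (win a0 q0)}) ?_) ?_
        · intro b hb
          obtain ⟨g1, q, g2, g3⟩ := mem_filter.mp hb
          obtain ⟨g4, g5⟩ := mem_filter.mp g1
          rw [mem_union, mem_singleton, mem_filter]
          by_cases hba : b = a0
          · exact Or.inl hba
          · right
            refine ⟨g4, ⟨hba, by rw [g5]; exact h8.symm⟩, ?_⟩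
            rw [h6]
            exact (mU w b).mpr ⟨g4, (b, q), hE2E1 (mem_filter.mp g2).1, rfl, g3⟩
        · refine le_trans (card_union_le _ _) ?_
          rw [card_singleton]
      have h11 : (#{a ∈ V.filter (fun a => χ a = j) | ∃ q,
          (a, q) ∈ E2.filter (fun e => χ e.1 = j) ∧ win a q = w} : ℝ) ≤ 1 + mu (a0, q0) := by
        exact_mod_cast h10
      linarith
  · intro e he
    exact ((mE1 e).mp (hE2E1 (mem_filter.mp he).1)).2

end Vale.Agent.P065.U.H792.Thin
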