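import Vale.Agent.P065.U.H792.TransB

/-! P065 upper bound: from the `k`-edges of good sets to `hmax` and `emax`. -/

set_option autoImplicit false

namespace Vale.Agent.P065.U.H792.Trans

open Finset Vale.Agent.P065.UB Vale.Agent.P065

theorem isKSet_shear {P S : Finset Pt} [DecidableEq Pt] (ε : ℝ) {k : ℕ} (h : IsKSet P k S) :
    IsKSet (P.image (sh ε)) k (S.image (sh ε)) := by
  obtain ⟨hs, hk, a, b, c, hab, h1, h2⟩ := h
  refine ⟨image_subset_image hs, ?_, a, b - a * ε, c, ?_, ?_, ?_⟩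
  · rw [card_image_of_injective _ (sh_inj ε)]
    exact hk
  · rcases hab with h | h
    · exact Or.inl h
    · by_cases ha : a = 0
      · right
        rw [ha]
        simpa using h
      · exact Or.inl ha
  · intro z hz
    obtain ⟨z0, hz0, rfl⟩ := mem_image.mp hz
    have := h1 z0 hz0
    unfold sh
    simp only
    linarith
  · intro z hz hz'
    obtain ⟨z0, hz0, rfl⟩ := mem_image.mp hz
    have h3 : z0 ∉ S := fun h => hz' (mem_image_of_mem _ h)
    have := h2 z0 hz0 h3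
    unfold sh
    simp only
    linarith

theorem kSetNumber_shear {P : Finset Pt} [DecidableEq Pt] (ε : ℝ) (k : ℕ) :
    kSetNumber P k ≤ kSetNumber (P.image (sh ε)) k := by
  classical
  unfold kSetNumber
  apply Finset.card_le_card_of_injOn (fun S => S.image (sh ε))
  · intro S hS
    obtain ⟨h1, h2⟩ := mem_filter.mp (mem_coe.mp hS)
    have h3 := isKSet_shear (P := P) (S := S) ε h2
    refine mem_coe.mpr (mem_filter.mpr ⟨mem_powerset.mpr ?_, ?_⟩)
    · convert h3.1
    · convert h3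
  · intro e _ e' _ h
    exact image_injective (sh_inj ε) h

/-- **`k`-sets.** -/
theorem emax_le (n k : ℕ) (hk : k + 2 ≤ n) (F : ℝ) (hF0 : 0 ≤ F)
    (hF : ∀ P : Finset Pt, Good P → #P = n → (#(Ed P k) : ℝ) ≤ F) :
    (emax (k + 1) n : ℝ) ≤ 2 * F + 2 := by
  classical
  by_cases hne : {m | ∃ P : Finset (ℝ × ℝ), P.card = n ∧ GenPos P ∧
      kSetNumber P (k + 1) = m}.Nonempty
  · obtain ⟨P, hP, hg, hm⟩ := Nat.sSup_mem hne (bddAbove_emax (k + 1) n)
    obtain ⟨ε, hε⟩ := exists_shear P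
    have h1 := good_shear hg hε
    have h2 := kSetNumber_shear (P := P) ε (k + 1)
    have hn : #(P.image (sh ε)) = n := by rw [card_image_sh, hP]
    have h3 := kSetNumber_le h1 (k := k) (by omega)
    have h4 := card_Ed_mir h1 (k := k) (by omega)
    have h5 := hF (P.image (sh ε)) h1 hn
    have h6 := hF ((P.image (sh ε)).image mir) (good_mir h1)
      (by rw [card_image_of_injective _ mir_inj, hn])
    have h7 : emax (k + 1) n ≤ #(Ed (P.image (sh ε)) k) + #(Ed ((P.image (sh ε)).image mir) k)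
        + 2 := by
      have : emax (k + 1) n = kSetNumber P (k + 1) := hm.symm
      omega
    have h8 : (emax (k + 1) n : ℝ) ≤ #(Ed (P.image (sh ε)) k) +
        #(Ed ((P.image (sh ε)).image mir) k) + 2 := by exact_mod_cast h7
    linarith
  · have : emax (k + 1) n = 0 := by
      unfold emax
      rw [Set.not_nonempty_iff_eq_empty.mp hne, csSup_empty]
      rfl
    rw [this]
    push_cast
    linarith

/-- **Translation, uniform form.** -/
theorem trans (c C : ℝ) (hc : c ≤ 4 / 3) (hC : 0 ≤ C)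
    (h : ∀ (P : Finset Pt) (k : ℕ), Good P → (#(Ed P k) : ℝ) ≤ C * (#P : ℝ) ^ (4 / 3 - c)) :
    (∀ n : ℕ, (hmax n : ℝ) ≤ C * (n : ℝ) ^ (4 / 3 - c)) ∧
    ∀ n k : ℕ, 1 ≤ k → k + 1 ≤ n → (emax k n : ℝ) ≤ (2 * C + 2) * (n : ℝ) ^ (4 / 3 - c) := by
  constructor
  · intro n
    apply hmax_le (fun n => C * (n : ℝ) ^ (4 / 3 - c)) n (by positivity)
    intro P k hP hn
    have := h P k hP
    rw [hn] at this
    exact this
  · intro n k hk hkn
    obtain ⟨j, rfl⟩ : ∃ j, k = j + 1 := ⟨k - 1, by omega⟩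
    have h1 := emax_le n j (by omega) (C * (n : ℝ) ^ (4 / 3 - c)) (by positivity) (by
      intro P hP hn
      have := h P j hP
      rw [hn] at this
      exact this)
    have h2 : (1 : ℝ) ≤ (n : ℝ) ^ (4 / 3 - c) := by
      apply Real.one_le_rpow
      · exact_mod_cast (by omega : 1 ≤ n)
      · linarith
    nlinarith

/-- **Translation, `k`-sensitive form.** -/
theorem trans_k (c C : ℝ) (hc : c ≤ 1 / 3) (hC : 0 ≤ C)
    (h : ∀ (P : Finset Pt) (k : ℕ), Good P →
      (#(Ed P k) : ℝ) ≤ C * (#P * ((k : ℝ) + 1) ^ (1 / 3 - c))) :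
    ∀ n k : ℕ, 1 ≤ k → k + 1 ≤ n →
      (emax k n : ℝ) ≤ (2 * C + 2) * (n * (k : ℝ) ^ (1 / 3 - c)) := by
  intro n k hk hkn
  obtain ⟨j, rfl⟩ : ∃ j, k = j + 1 := ⟨k - 1, by omega⟩
  have h1 := emax_le n j (by omega) (C * (n * ((j : ℝ) + 1) ^ (1 / 3 - c))) (by positivity) (by
    intro P hP hn
    have := h P j hP
    rw [hn] at this
    exact this)
  have h2 : (1 : ℝ) ≤ ((j : ℝ) + 1) ^ (1 / 3 - c) := by
    apply Real.one_le_rpow
    · linarith [(Nat.cast_nonneg j : (0 : ℝ) ≤ j)]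
    · linarith
  have h3 : (1 : ℝ) ≤ n := by exact_mod_cast (by omega : 1 ≤ n)
  have h4 : (1 : ℝ) ≤ n * ((j : ℝ) + 1) ^ (1 / 3 - c) := by nlinarith
  push_cast
  nlinarith

end Vale.Agent.P065.U.H792.Trans
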