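import Vale.Agent.P065.UB.Alt
import Vale.Agent.P065.KSetDefs

/-! P065 upper bound: from the `k`-edges of good sets to halving lines and `k`-sets. -/

set_option autoImplicit false

namespace Vale.Agent.P065.U.H792.Trans

open Finset Vale.Agent.P065.UB Vale.Agent.P065

theorem orient_eq {a b : Pt} (h : a.1 ≠ b.1) (c : Pt) :
    orient a b c = (b.1 - a.1) * (ht (sl a b) c - ht (sl a b) a) := by
  unfold orient ht sl
  have : b.1 - a.1 ≠ 0 := sub_ne_zero.mpr (Ne.symm h)
  field_simp
  ring

/-- a non-trivial linear functional takes a value at most twice -/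
theorem genpos_lin {P : Finset Pt} (hg : GenPos P) {α β : ℝ} (h : α ≠ 0 ∨ β ≠ 0) {a b c : Pt}
    (ha : a ∈ P) (hb : b ∈ P) (hc : c ∈ P) (hab : a ≠ b) (hac : a ≠ c) (hbc : b ≠ c)
    (h1 : α * a.1 + β * a.2 = α * b.1 + β * b.2) :
    α * a.1 + β * a.2 ≠ α * c.1 + β * c.2 := by
  intro h2
  apply hg a ha b hb c hc hab hac hbc
  rw [collinear_iff_of_mem (p₀ := a) (by simp)]
  have hpos : 0 < α ^ 2 + β ^ 2 := by
    rcases h with h | h
    · have := sq_pos_of_ne_zero h
      nlinarith [sq_nonneg β]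
    · have := sq_pos_of_ne_zero h
      nlinarith [sq_nonneg α]
  have key : ∀ p : Pt, α * a.1 + β * a.2 = α * p.1 + β * p.2 →
      ∃ r : ℝ, p = r • ((-β, α) : ℝ × ℝ) +ᵥ a := by
    intro p hp
    refine ⟨(α * (p.2 - a.2) - β * (p.1 - a.1)) / (α ^ 2 + β ^ 2), ?_⟩
    have e1 : α * (p.1 - a.1) + β * (p.2 - a.2) = 0 := by linarith
    rw [vadd_eq_add]
    apply Prod.ext
    · simp only [Prod.fst_add, Prod.smul_fst, smul_eq_mul]
      have : (α * (p.2 - a.2) - β * (p.1 - a.1)) / (α ^ 2 + β ^ 2) * -β = p.1 - a.1 := by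
        rw [div_mul_eq_mul_div, div_eq_iff hpos.ne']
        have : (α * (p.2 - a.2) - β * (p.1 - a.1)) * -β - (p.1 - a.1) * (α ^ 2 + β ^ 2) =
            -α * (α * (p.1 - a.1) + β * (p.2 - a.2)) := by ring
        rw [e1] at this
        linarith
      linarith
    · simp only [Prod.snd_add, Prod.smul_snd, smul_eq_mul]
      have : (α * (p.2 - a.2) - β * (p.1 - a.1)) / (α ^ 2 + β ^ 2) * α = p.2 - a.2 := by
        rw [div_mul_eq_mul_div, div_eq_iff hpos.ne']
        have : (α * (p.2 - a.2) - β * (p.1 - a.1)) * α - (p.2 - a.2) * (α ^ 2 + β ^ 2) =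
            -β * (α * (p.1 - a.1) + β * (p.2 - a.2)) := by ring
        rw [e1] at this
        linarith
      linarith
  refine ⟨(-β, α), ?_⟩
  intro p hp
  simp only [Set.mem_insert_iff, Set.mem_singleton_iff] at hp
  rcases hp with rfl | rfl | rfl
  · exact key _ rfl
  · exact key _ h1
  · exact key _ h2

/-- the shear -/
def sh (ε : ℝ) (z : Pt) : Pt := (z.1 + ε * z.2, z.2)

theorem sh_inj (ε : ℝ) : Function.Injective (sh ε) := by
  intro a b h
  unfold sh at h
  obtain ⟨h1, h2⟩ := Prod.mk.inj h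
  rw [h2] at h1
  exact Prod.ext (by linarith) h2

theorem exists_shear (P : Finset Pt) :
    ∃ ε : ℝ, ∀ p ∈ P, ∀ q ∈ P, p ≠ q → (sh ε p).1 ≠ (sh ε q).1 := by
  classical
  obtain ⟨ε, hε⟩ := Infinite.exists_notMem_finset
    ((P ×ˢ P).image (fun e : Pt × Pt => -(e.1.1 - e.2.1) / (e.1.2 - e.2.2)))
  refine ⟨ε, ?_⟩
  intro p hp q hq hpq h
  unfold sh at h
  simp only at h
  by_cases h2 : p.2 = q.2
  · rw [h2] at h
    exact hpq (Prod.ext (by linarith) h2)
  · apply hε
    refine mem_image.mpr ⟨(p, q), mem_product.mpr ⟨hp, hq⟩, ?_⟩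
    have h3 : p.2 - q.2 ≠ 0 := sub_ne_zero.mpr h2
    simp only
    rw [div_eq_iff h3]
    linarith

theorem good_shear {P : Finset Pt} (hg : GenPos P) {ε : ℝ}
    (hε : ∀ p ∈ P, ∀ q ∈ P, p ≠ q → (sh ε p).1 ≠ (sh ε q).1) : Good (P.image (sh ε)) := by
  classical
  constructor
  · intro p hp q hq h
    obtain ⟨p0, hp0, rfl⟩ := mem_image.mp hp
    obtain ⟨q0, hq0, rfl⟩ := mem_image.mp hq
    by_contra hne
    exact hε p0 hp0 q0 hq0 (fun h' => hne (by rw [h'])) h
  · intro m a ha b hb c hc hab hac hbc h1 h2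
    obtain ⟨a0, ha0, rfl⟩ := mem_image.mp ha
    obtain ⟨b0, hb0, rfl⟩ := mem_image.mp hb
    obtain ⟨c0, hc0, rfl⟩ := mem_image.mp hc
    have hne : -m ≠ 0 ∨ 1 - m * ε ≠ 0 := by
      by_cases hm : m = 0
      · right
        rw [hm]
        norm_num
      · left
        exact neg_ne_zero.mpr hm
    unfold ht sh at h1 h2
    simp only at h1 h2
    exact genpos_lin hg hne ha0 hb0 hc0 (fun h => hab (by rw [h])) (fun h => hac (by rw [h]))
      (fun h => hbc (by rw [h])) (by linarith) (by linarith)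

theorem orient_shear (ε : ℝ) (a b c : Pt) : orient (sh ε a) (sh ε b) (sh ε c) = orient a b c := by
  unfold orient sh
  ring

theorem card_image_sh (ε : ℝ) (P : Finset Pt) [DecidableEq Pt] : #(P.image (sh ε)) = #P :=
  card_image_of_injective _ (sh_inj ε)

/-- halving pairs of the sheared set -/
theorem isHalving_shear {P : Finset Pt} [DecidableEq Pt] (ε : ℝ) {a b : Pt}
    (h : IsHalving P a b) : IsHalving (P.image (sh ε)) (sh ε a) (sh ε b) := by
  obtain ⟨h1, h2, h3⟩ := h
  have e1 : #{c ∈ P.image (sh ε) | 0 < orient (sh ε a) (sh ε b) c} =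
      #{c ∈ P | 0 < orient a b c} := by
    rw [Finset.filter_image, card_image_of_injective _ (sh_inj ε)]
    congr 1
    apply filter_congr
    intro c _
    rw [orient_shear]
  have e2 : #{c ∈ P.image (sh ε) | orient (sh ε a) (sh ε b) c < 0} =
      #{c ∈ P | orient a b c < 0} := by
    rw [Finset.filter_image, card_image_of_injective _ (sh_inj ε)]
    congr 1
    apply filter_congr
    intro c _
    rw [orient_shear]
  refine ⟨fun h => h1 (sh_inj ε h), ?_, ?_⟩
  · rw [e1, card_image_sh]
    exact h2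
  · rw [e2, card_image_sh]
    exact h3

theorem orient_swap (a b c : Pt) : orient b a c = - orient a b c := by
  unfold orient
  ring

theorem isHalving_swap {P : Finset Pt} {a b : Pt} (h : IsHalving P a b) : IsHalving P b a := by
  obtain ⟨h1, h2, h3⟩ := h
  refine ⟨h1.symm, ?_, ?_⟩
  · have : ({c ∈ P | 0 < orient b a c} : Finset Pt) = {c ∈ P | orient a b c < 0} := by
      apply filter_congr
      intro c _
      rw [orient_swap]
      constructor <;> intro h <;> linarith
    rw [this]
    exact h3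
  · have : ({c ∈ P | orient b a c < 0} : Finset Pt) = {c ∈ P | 0 < orient a b c} := by
      apply filter_congr
      intro c _
      rw [orient_swap]
      constructor <;> intro h <;> linarith
    rw [this]
    exact h2

/-- halving pairs are edges -/
theorem halving_mem_Ed {P : Finset Pt} {a b : Pt} (ha : a ∈ P) (hb : b ∈ P)
    (hab : a.1 < b.1) (h : IsHalving P a b) : (a, b) ∈ Ed P ((#P - 2) / 2) := by
  classical
  obtain ⟨_, _, h3⟩ := h
  rw [mem_Ed]
  refine ⟨ha, hb, hab, ?_⟩
  have e1 : ({c ∈ P | orient a b c < 0} : Finset Pt) = {c ∈ P | ht (sl a b) c < ht (sl a b) a} := by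
    apply filter_congr
    intro c _
    rw [orient_eq hab.ne]
    have h4 : 0 < b.1 - a.1 := by linarith
    constructor
    · intro h5
      by_contra h6
      have : 0 ≤ (b.1 - a.1) * (ht (sl a b) c - ht (sl a b) a) :=
        mul_nonneg h4.le (by linarith)
      linarith
    · intro h5
      exact mul_neg_of_pos_of_neg h4 (by linarith)
  unfold g0
  have e2 : #{u ∈ P | ht (sl a b) u < ht (sl a b) a} = #{c ∈ P | orient a b c < 0} := by
    rw [e1]
  have e3 : 2 * #{c ∈ P | orient a b c < 0} + 2 = #P := h3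
  simp only
  rw [e2]
  omega

/-- halving numbers -/
theorem halvingNumber_le {P : Finset Pt} (hP : Good P) :
    halvingNumber P ≤ #(Ed P ((#P - 2) / 2)) := by
  classical
  unfold halvingNumber
  have h1 : ({e ∈ P.powersetCard 2 | ∃ a b, e = {a, b} ∧ IsHalving P a b} : Finset (Finset Pt)) ⊆
      (Ed P ((#P - 2) / 2)).image (fun e => ({e.1, e.2} : Finset Pt)) := by
    intro e he
    obtain ⟨he1, a, b, rfl, hab⟩ := mem_filter.mp he
    have hsub := (mem_powersetCard.mp he1).1
    have ha : a ∈ P := hsub (mem_insert_self _ _)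
    have hb : b ∈ P := hsub (mem_insert_of_mem (mem_singleton_self _))
    rcases lt_trichotomy a.1 b.1 with h | h | h
    · exact mem_image.mpr ⟨(a, b), halving_mem_Ed ha hb h hab, rfl⟩
    · exact absurd (hP.xinj a ha b hb h) hab.1
    · exact mem_image.mpr ⟨(b, a), halving_mem_Ed hb ha h (isHalving_swap hab), by
        simp only
        rw [Finset.pair_comm]⟩
  convert (card_le_card h1).trans card_image_le using 2

theorem halvingNumber_shear {P : Finset Pt} [DecidableEq Pt] (ε : ℝ) :
    halvingNumber P ≤ halvingNumber (P.image (sh ε)) := by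
  classical
  unfold halvingNumber
  apply Finset.card_le_card_of_injOn (fun e => e.image (sh ε))
  · intro e he
    obtain ⟨he1, a, b, rfl, hab⟩ := mem_filter.mp (mem_coe.mp he)
    obtain ⟨hsub, hcard⟩ := mem_powersetCard.mp he1
    refine mem_coe.mpr (mem_filter.mpr ⟨mem_powersetCard.mpr ⟨?_, ?_⟩, sh ε a, sh ε b, ?_, ?_⟩)
    · convert image_subset_image hsub
    · rw [card_image_of_injective _ (sh_inj ε)]
      exact hcard
    · ext x
      simp only [mem_image, mem_insert, mem_singleton]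
      constructor
      · rintro ⟨y, rfl | rfl, rfl⟩
        · exact Or.inl rfl
        · exact Or.inr rfl
      · rintro (rfl | rfl)
        · exact ⟨a, Or.inl rfl, rfl⟩
        · exact ⟨b, Or.inr rfl, rfl⟩
    · exact isHalving_shear ε hab
  · intro e _ e' _ h
    exact image_injective (sh_inj ε) h

/-- **Halving lines.** -/
theorem hmax_le (F : ℕ → ℝ) (n : ℕ) (hF0 : 0 ≤ F n)
    (hF : ∀ (P : Finset Pt) (k : ℕ), Good P → #P = n → (#(Ed P k) : ℝ) ≤ F n) :
    (hmax n : ℝ) ≤ F n := by
  classical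
  by_cases hne : {m | ∃ P : Finset (ℝ × ℝ), P.card = n ∧ GenPos P ∧ halvingNumber P = m}.Nonempty
  · obtain ⟨P, hP, hg, hm⟩ := Nat.sSup_mem hne (bddAbove_hmax n)
    obtain ⟨ε, hε⟩ := exists_shear P
    have h1 := good_shear hg hε
    have h2 := halvingNumber_shear (P := P) ε
    have h3 := halvingNumber_le h1
    have h4 := hF (P.image (sh ε)) ((#(P.image (sh ε)) - 2) / 2) h1
      (by rw [card_image_sh, hP])
    have h5 : hmax n ≤ #(Ed (P.image (sh ε)) ((#(P.image (sh ε)) - 2) / 2)) := by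
      unfold hmax
      rw [← hm]
      exact h2.trans h3
    exact (by exact_mod_cast h5 : (hmax n : ℝ) ≤ _).trans h4
  · unfold hmax
    rw [Set.not_nonempty_iff_eq_empty.mp hne, csSup_empty]
    simpa using hF0

end Vale.Agent.P065.U.H792.Trans
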