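import Vale.Agent.P065.U.H792.TransA

/-! P065 upper bound: from the `k`-edges of good sets to `k`-sets. -/

set_option autoImplicit false

namespace Vale.Agent.P065.U.H792.Trans

open Finset Vale.Agent.P065.UB Vale.Agent.P065

/-- `S` is the set of the points of `P` below a line of slope `m` -/
def Low (P S : Finset Pt) (m : ℝ) : Prop :=
  S ⊆ P ∧ ∃ c : ℝ, (∀ z ∈ S, ht m z < c) ∧ ∀ z ∈ P, z ∉ S → c < ht m z

/-- `S` is the set of the points of `P` above a line of slope `m` -/
def Upp (P S : Finset Pt) (m : ℝ) : Prop :=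
  S ⊆ P ∧ ∃ c : ℝ, (∀ z ∈ S, c < ht m z) ∧ ∀ z ∈ P, z ∉ S → ht m z < c

theorem low_eq {P S S' : Finset Pt} {m : ℝ} (h : Low P S m) (h' : Low P S' m) (hc : #S = #S') :
    S = S' := by
  classical
  by_contra hne
  have h1 : ∃ v ∈ S, v ∉ S' := by
    by_contra hcon
    push Not at hcon
    exact hne (eq_of_subset_of_card_le hcon hc.ge)
  have h2 : ∃ v ∈ S', v ∉ S := by
    by_contra hcon
    push Not at hcon
    exact hne (eq_of_subset_of_card_le hcon hc.le).symm
  obtain ⟨v, hv, hv'⟩ := h1
  obtain ⟨u, hu, hu'⟩ := h2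
  obtain ⟨hs, c, hc1, hc2⟩ := h
  obtain ⟨hs', c', hc1', hc2'⟩ := h'
  have a1 := hc1 v hv
  have a2 := hc2' v (hs hv) hv'
  have a3 := hc1' u hu
  have a4 := hc2 u (hs' hu) hu'
  linarith

/-- between two different lower `k`-sets there is a `(k-1)`-edge -/
theorem low_edge {P S S' : Finset Pt} (hP : Good P) {m m' : ℝ} (hm : m < m') (h : Low P S m)
    (h' : Low P S' m') {k : ℕ} (hk : #S = k + 1) (hk' : #S' = k + 1) (hne : S ≠ S') :
    ∃ e ∈ Ed P k, m < sl e.1 e.2 ∧ sl e.1 e.2 < m' := by
  classical
  have h1 : ∃ v ∈ S, v ∉ S' := by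
    by_contra hcon
    push Not at hcon
    exact hne (eq_of_subset_of_card_le hcon (by omega))
  obtain ⟨v, hv, hv'⟩ := h1
  obtain ⟨hs, c, hc1, hc2⟩ := h
  obtain ⟨hs', c', hc1', hc2'⟩ := h'
  have hvP := hs hv
  have h2 : gp P m v ≤ k := by
    have h3 : ({u ∈ P | (v.1 < u.1 ∧ sl v u ≤ m) ∨ (u.1 < v.1 ∧ m < sl v u)} : Finset Pt) ⊆
        S.erase v := by
      intro u hu
      obtain ⟨hu1, hu2⟩ := mem_filter.mp hu
      rw [mem_erase]
      constructor
      · rintro rfl
        rcases hu2 with h | h
        · exact lt_irrefl _ h.1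
        · exact lt_irrefl _ h.1
      · by_contra hcon
        have h4 := hc2 u hu1 hcon
        have h5 := hc1 v hv
        rcases hu2 with ⟨h6, h7⟩ | ⟨h6, h7⟩
        · rcases lt_or_eq_of_le h7 with h8 | h8
          · have := (ht_lt_iff_right h6 m).mpr h8
            linarith
          · have := (ht_eq_iff h6.ne m).mpr h8
            linarith
        · have := (ht_lt_iff_left h6 m).mpr h7
          linarith
    have h4 := card_le_card h3
    rw [card_erase_of_mem hv, hk] at h4
    unfold gp
    omega
  have h3 : k + 1 ≤ gm P m' v := by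
    have h4 : S' ⊆ ({u ∈ P | (v.1 < u.1 ∧ sl v u < m') ∨ (u.1 < v.1 ∧ m' ≤ sl v u)} :
        Finset Pt) := by
      intro u hu
      have hu1 := hs' hu
      have h5 := hc1' u hu
      have h6 := hc2' v hvP hv'
      refine mem_filter.mpr ⟨hu1, ?_⟩
      rcases lt_trichotomy v.1 u.1 with h7 | h7 | h7
      · left
        exact ⟨h7, (ht_lt_iff_right h7 m').mp (by linarith)⟩
      · exfalso
        have := hP.xinj v hvP u hu1 h7
        subst this
        exact hv' hu
      · right
        exact ⟨h7, le_of_lt ((ht_lt_iff_left h7 m').mp (by linarith))⟩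
    have h5 := card_le_card h4
    unfold gm
    omega
  obtain ⟨w, hw1, hw2, hw3⟩ := exit_edge hP hvP _ m m' rfl hm h2 h3
  exact ⟨(v, w), hw1, hw2, hw3⟩

open Classical in
/-- the lower sets with `k` elements -/
noncomputable def LowSets (P : Finset Pt) (k : ℕ) : Finset (Finset Pt) :=
  {S ∈ P.powerset | #S = k ∧ ∃ m, Low P S m}

open Classical in
/-- the upper sets with `k` elements -/
noncomputable def UppSets (P : Finset Pt) (k : ℕ) : Finset (Finset Pt) :=
  {S ∈ P.powerset | #S = k ∧ ∃ m, Upp P S m}

theorem card_LowSets {P : Finset Pt} (hP : Good P) (k : ℕ) :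
    #(LowSets P (k + 1)) ≤ #(Ed P k) + 1 := by
  classical
  have hch : ∀ S : Finset Pt, ∃ m, S ∈ LowSets P (k + 1) → Low P S m := by
    intro S
    by_cases h : S ∈ LowSets P (k + 1)
    · obtain ⟨_, _, m, hm⟩ := mem_filter.mp h
      exact ⟨m, fun _ => hm⟩
    · exact ⟨0, fun h' => absurd h' h⟩
  choose μ hμ using hch
  have hcard : ∀ S ∈ LowSets P (k + 1), #S = k + 1 := fun S hS => (mem_filter.mp hS).2.1
  have key : ∀ S ∈ LowSets P (k + 1), ∀ S' ∈ LowSets P (k + 1), S ≠ S' → μ S < μ S' →
      #{e ∈ Ed P k | sl e.1 e.2 < μ S} < #{e ∈ Ed P k | sl e.1 e.2 < μ S'} := by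
    intro S hS S' hS' hne hlt
    obtain ⟨e, he, he1, he2⟩ := low_edge hP hlt (hμ S hS) (hμ S' hS') (hcard S hS)
      (hcard S' hS') hne
    apply card_lt_card
    rw [ssubset_iff_of_subset]
    · refine ⟨e, mem_filter.mpr ⟨he, he2⟩, ?_⟩
      intro h
      have := (mem_filter.mp h).2
      linarith
    · intro f hf
      obtain ⟨hf1, hf2⟩ := mem_filter.mp hf
      exact mem_filter.mpr ⟨hf1, by linarith⟩
  calc #(LowSets P (k + 1)) ≤ #(range (#(Ed P k) + 1)) := by
        apply Finset.card_le_card_of_injOn (fun S => #{e ∈ Ed P k | sl e.1 e.2 < μ S})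
        · intro S _
          rw [mem_coe, mem_range]
          exact Nat.lt_succ_of_le (card_filter_le _ _)
        · intro S hS S' hS' heq
          by_contra hne
          have hS1 := mem_coe.mp hS
          have hS2 := mem_coe.mp hS'
          rcases lt_trichotomy (μ S) (μ S') with h | h | h
          · have := key S hS1 S' hS2 hne h
            simp only at heq
            omega
          · have h1 := hμ S hS1
            have h2 := hμ S' hS2
            rw [h] at h1
            exact hne (low_eq h1 h2 (by rw [hcard S hS1, hcard S' hS2]))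
          · have := key S' hS2 S hS1 (Ne.symm hne) h
            simp only at heq
            omega
    _ = #(Ed P k) + 1 := card_range _

/-- complement -/
theorem card_UppSets {P : Finset Pt} (k : ℕ) (hk : k ≤ #P) :
    #(UppSets P k) ≤ #(LowSets P (#P - k)) := by
  classical
  apply Finset.card_le_card_of_injOn (fun S => P \ S)
  · intro S hS
    obtain ⟨h1, h2, m, h3, c, h4, h5⟩ := mem_filter.mp (mem_coe.mp hS)
    refine mem_coe.mpr (mem_filter.mpr ⟨mem_powerset.mpr sdiff_subset, ?_, m, sdiff_subset, c,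
      ?_, ?_⟩)
    · rw [card_sdiff_of_subset h3, h2]
    · intro z hz
      obtain ⟨h6, h7⟩ := mem_sdiff.mp hz
      exact h5 z h6 h7
    · intro z hz hz'
      apply h4
      by_contra hcon
      exact hz' (mem_sdiff.mpr ⟨hz, hcon⟩)
  · intro S hS S' hS' h
    have h1 : S ⊆ P := mem_powerset.mp (mem_filter.mp (mem_coe.mp hS)).1
    have h2 : S' ⊆ P := mem_powerset.mp (mem_filter.mp (mem_coe.mp hS')).1
    have h3 : P \ S = P \ S' := h
    rw [← Finset.sdiff_sdiff_eq_self h1, h3, Finset.sdiff_sdiff_eq_self h2]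

/-- perturbation of a vertical separating line -/
theorem exists_b {P : Finset Pt} {a c : ℝ} (h : ∀ z ∈ P, a * z.1 ≠ c) :
    ∃ b : ℝ, 0 < b ∧ ∀ z ∈ P, (a * z.1 < c → a * z.1 + b * z.2 < c) ∧
      (c < a * z.1 → c < a * z.1 + b * z.2) := by
  classical
  induction P using Finset.induction_on with
  | empty => exact ⟨1, one_pos, by simp⟩
  | insert z P hz ih =>
    obtain ⟨b, hb, hb'⟩ := ih (fun z hz => h z (mem_insert_of_mem hz))
    have h1 := h z (mem_insert_self _ _)
    have h2 : 0 < |a * z.1 - c| := abs_pos.mpr (sub_ne_zero.mpr h1)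
    set b1 := |a * z.1 - c| / (2 * (|z.2| + 1)) with hb1
    have hz2 : 0 ≤ |z.2| := abs_nonneg _
    have hb1p : 0 < b1 := by positivity
    have hsmall : ∀ b' : ℝ, 0 < b' → b' ≤ b1 → |b' * z.2| < |a * z.1 - c| := by
      intro b' hb'1 hb'2
      rw [abs_mul, abs_of_pos hb'1]
      calc b' * |z.2| ≤ b1 * (|z.2| + 1) := by
            apply mul_le_mul hb'2 (by linarith) hz2 hb1p.le
        _ = |a * z.1 - c| / 2 := by
            rw [hb1]
            field_simp
        _ < |a * z.1 - c| := by linarith
    refine ⟨min b b1, lt_min hb hb1p, ?_⟩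
    intro u hu
    rcases mem_insert.mp hu with rfl | hu
    · have h3 := hsmall (min b b1) (lt_min hb hb1p) (min_le_right _ _)
      have h4 := abs_lt.mp h3
      constructor
      · intro h5
        rw [abs_of_neg (by linarith : a * u.1 - c < 0)] at h4
        linarith [h4.2]
      · intro h5
        rw [abs_of_pos (by linarith : 0 < a * u.1 - c)] at h4
        linarith [h4.1]
    · -- convexity between 0 and b
      have h5 := hb' u hu
      have h6 : 0 < min b b1 := lt_min hb hb1p
      have h7 : min b b1 ≤ b := min_le_left _ _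
      constructor
      · intro h8
        have h9 := h5.1 h8
        rcases le_or_gt 0 u.2 with h10 | h10
        · have : min b b1 * u.2 ≤ b * u.2 := mul_le_mul_of_nonneg_right h7 h10
          linarith
        · have : min b b1 * u.2 < 0 := mul_neg_of_pos_of_neg h6 h10
          linarith
      · intro h8
        have h9 := h5.2 h8
        rcases le_or_gt 0 u.2 with h10 | h10
        · have : 0 ≤ min b b1 * u.2 := mul_nonneg h6.le h10
          linarith
        · have : b * u.2 ≤ min b b1 * u.2 := mul_le_mul_of_nonpos_right h7 h10.le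
          linarith

/-- a `k`-set is a lower set or an upper set -/
theorem kset_low_upp {P S : Finset Pt} {k : ℕ} (h : IsKSet P k S) :
    (∃ m, Low P S m) ∨ (∃ m, Upp P S m) := by
  classical
  obtain ⟨hs, _, a, b, c, _, h1, h2⟩ := h
  -- reduce to `b ≠ 0`
  have key : ∀ b : ℝ, b ≠ 0 → (∀ z ∈ S, a * z.1 + b * z.2 < c) →
      (∀ z ∈ P, z ∉ S → c < a * z.1 + b * z.2) → (∃ m, Low P S m) ∨ (∃ m, Upp P S m) := by
    intro b hb h1 h2
    have hh : ∀ z : Pt, b * ht (-(a / b)) z = a * z.1 + b * z.2 := by
      intro z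
      unfold ht
      field_simp
      ring
    rcases lt_or_gt_of_ne hb with hb' | hb'
    · right
      refine ⟨-(a / b), hs, c / b, ?_, ?_⟩
      · intro z hz
        have h3 := h1 z hz
        rw [← hh] at h3
        rw [div_lt_iff_of_neg hb']
        linarith
      · intro z hz hz'
        have h3 := h2 z hz hz'
        rw [← hh] at h3
        rw [lt_div_iff_of_neg hb']
        linarith
    · left
      refine ⟨-(a / b), hs, c / b, ?_, ?_⟩
      · intro z hz
        have h3 := h1 z hz
        rw [← hh] at h3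
        rw [lt_div_iff₀ hb']
        linarith
      · intro z hz hz'
        have h3 := h2 z hz hz'
        rw [← hh] at h3
        rw [div_lt_iff₀ hb']
        linarith
  by_cases hb : b = 0
  · subst hb
    have h3 : ∀ z ∈ P, a * z.1 ≠ c := by
      intro z hz
      by_cases hzS : z ∈ S
      · have := h1 z hzS
        intro h
        linarith
      · have := h2 z hz hzS
        intro h
        linarith
    obtain ⟨b, hb, hb'⟩ := exists_b h3
    refine key b hb.ne' ?_ ?_
    · intro z hz
      have h4 := h1 z hz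
      exact (hb' z (hs hz)).1 (by linarith)
    · intro z hz hz'
      have h4 := h2 z hz hz'
      exact (hb' z hz).2 (by linarith)
  · exact key b hb h1 h2

/-- **The number of `k`-sets of a good set.** -/
theorem kSetNumber_le {P : Finset Pt} (hP : Good P) {k : ℕ} (hk : k + 2 ≤ #P) :
    kSetNumber P (k + 1) ≤ #(Ed P k) + #(Ed P (#P - k - 2)) + 2 := by
  classical
  have h1 : ({S ∈ P.powerset | IsKSet P (k + 1) S} : Finset (Finset Pt)) ⊆
      LowSets P (k + 1) ∪ UppSets P (k + 1) := by
    intro S hS
    obtain ⟨h2, h3⟩ := mem_filter.mp hS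
    rw [mem_union]
    rcases kset_low_upp h3 with h | h
    · left
      exact mem_filter.mpr ⟨h2, h3.2.1, h⟩
    · right
      exact mem_filter.mpr ⟨h2, h3.2.1, h⟩
  have h2 := card_LowSets hP k
  have h3 := card_UppSets (P := P) (k + 1) (by omega)
  have h4 : #P - (k + 1) = (#P - k - 2) + 1 := by omega
  rw [h4] at h3
  have h5 := card_LowSets hP (#P - k - 2)
  have h6 : kSetNumber P (k + 1) ≤ #(LowSets P (k + 1) ∪ UppSets P (k + 1)) := by
    unfold kSetNumber
    convert card_le_card h1 using 2
  have h7 := h6.trans (card_union_le _ _)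
  omega

/-- the mirror image -/
def mir (z : Pt) : Pt := (z.1, -z.2)

theorem mir_inj : Function.Injective mir := by
  intro a b h
  unfold mir at h
  obtain ⟨h1, h2⟩ := Prod.mk.inj h
  exact Prod.ext h1 (by linarith)

theorem ht_mir (m : ℝ) (z : Pt) : ht (-m) (mir z) = - ht m z := by
  unfold ht mir
  ring

theorem sl_mir (p q : Pt) : sl (mir p) (mir q) = - sl p q := by
  unfold sl mir
  ring

theorem good_mir {P : Finset Pt} [DecidableEq Pt] (hP : Good P) : Good (P.image mir) := by
  constructor
  · intro p hp q hq h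
    obtain ⟨p0, hp0, rfl⟩ := mem_image.mp hp
    obtain ⟨q0, hq0, rfl⟩ := mem_image.mp hq
    rw [hP.xinj p0 hp0 q0 hq0 h]
  · intro m a ha b hb c hc hab hac hbc h1 h2
    obtain ⟨a0, ha0, rfl⟩ := mem_image.mp ha
    obtain ⟨b0, hb0, rfl⟩ := mem_image.mp hb
    obtain ⟨c0, hc0, rfl⟩ := mem_image.mp hc
    have e : ∀ z : Pt, ht m (mir z) = - ht (-m) z := by
      intro z
      have := ht_mir (-m) z
      rw [neg_neg] at this
      exact this
    rw [e, e] at h1 h2
    exact hP.gen (-m) a0 ha0 b0 hb0 c0 hc0 (fun h => hab (by rw [h])) (fun h => hac (by rw [h]))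
      (fun h => hbc (by rw [h])) (by linarith) (by linarith)

/-- the edges of the mirror image -/
theorem card_Ed_mir {P : Finset Pt} [DecidableEq Pt] (hP : Good P) {k : ℕ} (hk : k + 2 ≤ #P) :
    #(Ed P (#P - k - 2)) ≤ #(Ed (P.image mir) k) := by
  classical
  apply Finset.card_le_card_of_injOn (fun e => (mir e.1, mir e.2))
  · intro e he
    obtain ⟨h1, h2, h3, h4⟩ := mem_Ed.mp (mem_coe.mp he)
    refine mem_coe.mpr (mem_Ed.mpr ⟨?_, ?_, h3, ?_⟩)
    · convert mem_image_of_mem mir h1
    · convert mem_image_of_mem mir h2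
    · have e1 : g0 (P.image mir) (sl (mir e.1) (mir e.2)) (mir e.1) =
          #{u ∈ P | ht (sl e.1 e.2) e.1 < ht (sl e.1 e.2) u} := by
        unfold g0
        rw [sl_mir]
        have e0 : ({u ∈ P.image mir | ht (-sl e.1 e.2) u < ht (-sl e.1 e.2) (mir e.1)} :
            Finset Pt) = ({u ∈ P | ht (sl e.1 e.2) e.1 < ht (sl e.1 e.2) u} :
            Finset Pt).image mir := by
          ext u
          simp only [mem_filter, mem_image]
          constructor
          · rintro ⟨⟨u0, hu0, rfl⟩, h5⟩
            rw [ht_mir, ht_mir] at h5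
            exact ⟨u0, ⟨hu0, by linarith⟩, rfl⟩
          · rintro ⟨u0, ⟨hu0, h5⟩, rfl⟩
            refine ⟨⟨u0, hu0, rfl⟩, ?_⟩
            rw [ht_mir, ht_mir]
            linarith
        rw [e0, card_image_of_injective _ mir_inj]
      simp only
      rw [e1]
      unfold g0 at h4
      -- the three parts of `P`
      set m := sl e.1 e.2 with hm
      have hne : e.1 ≠ e.2 := fun h => by rw [h] at h3; exact lt_irrefl _ h3
      have e2 : #P = #{u ∈ P | ht m u < ht m e.1} + #{u ∈ P | ht m e.1 < ht m u} +
          #{u ∈ P | ht m u = ht m e.1} := by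
        have a1 := Finset.card_filter_add_card_filter_not (s := P)
          (p := fun u => ht m u < ht m e.1)
        have a2 := Finset.card_filter_add_card_filter_not
          (s := ({u ∈ P | ¬ ht m u < ht m e.1} : Finset Pt)) (p := fun u => ht m e.1 < ht m u)
        have a3 : ({u ∈ ({u ∈ P | ¬ ht m u < ht m e.1} : Finset Pt) | ht m e.1 < ht m u} :
            Finset Pt) = {u ∈ P | ht m e.1 < ht m u} := by
          ext u
          simp only [mem_filter]
          constructor
          · rintro ⟨⟨h1, _⟩, h2⟩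
            exact ⟨h1, h2⟩
          · rintro ⟨h1, h2⟩
            exact ⟨⟨h1, by linarith⟩, h2⟩
        have a4 : ({u ∈ ({u ∈ P | ¬ ht m u < ht m e.1} : Finset Pt) | ¬ ht m e.1 < ht m u} :
            Finset Pt) = {u ∈ P | ht m u = ht m e.1} := by
          ext u
          simp only [mem_filter]
          constructor
          · rintro ⟨⟨h1, h2⟩, h3⟩
            exact ⟨h1, by linarith⟩
          · rintro ⟨h1, h2⟩
            exact ⟨⟨h1, by linarith⟩, by linarith⟩
        rw [a3, a4] at a2
        omega
      have e3 : ({u ∈ P | ht m u = ht m e.1} : Finset Pt) = {e.1, e.2} := by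
        ext u
        simp only [mem_filter, mem_insert, mem_singleton]
        constructor
        · rintro ⟨hu, h5⟩
          by_contra hcon
          push Not at hcon
          exact hP.gen m e.1 h1 e.2 h2 u hu hne (Ne.symm hcon.1) (Ne.symm hcon.2)
            (edge_ht e h3).symm h5.symm
        · rintro (rfl | rfl)
          · exact ⟨h1, rfl⟩
          · exact ⟨h2, edge_ht e h3⟩
      have e4 : #({e.1, e.2} : Finset Pt) = 2 := card_pair hne
      rw [e3, e4] at e2
      omega
  · intro e _ e' _ h
    obtain ⟨h1, h2⟩ := Prod.mk.inj h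
    exact Prod.ext (mir_inj h1) (mir_inj h2)

end Vale.Agent.P065.U.H792.Trans
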